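/-
R302 / TR / Clip (TR7 = Q Lemma 8.1): multiplier sequences and continuous functional calculus.   Owner: helper211 (statements: helper100).
ABSTRACT: K any Hilbert space, Om any vector, LL a norm closed *-subalgebra of B(K).  Independent of everything else.
Also exports the uniform polynomial approximation of the real cfc on balls (`tr_cfc_poly_approx`), used by ST/ENAbs.
-/
import Mathlib

set_option autoImplicit false
set_option linter.unusedSectionVars false
set_option linter.deprecated false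

namespace Claimed.Agent.R302

open Filter Topology

universe u
variable {K : Type u} [NormedAddCommGroup K] [InnerProductSpace ℂ K] [CompleteSpace K]

/-- bounded sequences in `LL` -/
def TrBdd (LL : StarSubalgebra ℂ (K →L[ℂ] K)) (R : ℕ → K →L[ℂ] K) : Prop :=
  (∀ n, R n ∈ LL) ∧ ∃ C : ℝ, ∀ n, ‖R n‖ ≤ C

/-- state-null sequences -/
def TrNull (Om : K) (D : ℕ → K →L[ℂ] K) : Prop := Tendsto (fun n => ‖D n Om‖) atTop (𝓝 0)

/-- right multiplier sequences -/
def TrMult (LL : StarSubalgebra ℂ (K →L[ℂ] K)) (Om : K) (R : ℕ → K →L[ℂ] K) : Prop :=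
  TrBdd LL R ∧ ∀ D, TrBdd LL D → TrNull Om D → TrNull Om (fun n => D n * R n)

variable {LL : StarSubalgebra ℂ (K →L[ℂ] K)} {Om : K}

/-! ### bounded and null sequences -/

theorem TrBdd.mul {R R' : ℕ → K →L[ℂ] K} (h : TrBdd LL R) (h' : TrBdd LL R') :
    TrBdd LL (fun n => R n * R' n) := by
  obtain ⟨hm, C, hC⟩ := h
  obtain ⟨hm', C', hC'⟩ := h'
  refine ⟨fun n => LL.mul_mem (hm n) (hm' n), C * C', fun n => ?_⟩
  have h0 : 0 ≤ C := (norm_nonneg _).trans (hC n)
  exact (norm_mul_le _ _).trans (mul_le_mul (hC n) (hC' n) (norm_nonneg _) h0)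

theorem TrBdd.add {R R' : ℕ → K →L[ℂ] K} (h : TrBdd LL R) (h' : TrBdd LL R') :
    TrBdd LL (fun n => R n + R' n) := by
  obtain ⟨hm, C, hC⟩ := h
  obtain ⟨hm', C', hC'⟩ := h'
  exact ⟨fun n => LL.add_mem (hm n) (hm' n), C + C',
    fun n => (norm_add_le _ _).trans (add_le_add (hC n) (hC' n))⟩

theorem TrBdd.sub {R R' : ℕ → K →L[ℂ] K} (h : TrBdd LL R) (h' : TrBdd LL R') :
    TrBdd LL (fun n => R n - R' n) := by
  obtain ⟨hm, C, hC⟩ := h
  obtain ⟨hm', C', hC'⟩ := h'
  exact ⟨fun n => LL.sub_mem (hm n) (hm' n), C + C',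
    fun n => (norm_sub_le _ _).trans (add_le_add (hC n) (hC' n))⟩

theorem TrBdd.smul {R : ℕ → K →L[ℂ] K} (c : ℂ) (h : TrBdd LL R) : TrBdd LL (fun n => c • R n) := by
  obtain ⟨hm, C, hC⟩ := h
  refine ⟨fun n => LL.smul_mem (hm n) c, ‖c‖ * C, fun n => ?_⟩
  rw [norm_smul]
  exact mul_le_mul_of_nonneg_left (hC n) (norm_nonneg _)

theorem TrBdd.pow {R : ℕ → K →L[ℂ] K} (h : TrBdd LL R) (k : ℕ) : TrBdd LL (fun n => R n ^ k) := by
  induction k with
  | zero =>
    simp only [pow_zero]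
    exact ⟨fun _ => LL.one_mem, ‖(1 : K →L[ℂ] K)‖, fun _ => le_rfl⟩
  | succ k ih =>
    simp only [pow_succ]
    exact ih.mul h

theorem TrNull.add {D D' : ℕ → K →L[ℂ] K} (h : TrNull Om D) (h' : TrNull Om D') :
    TrNull Om (fun n => D n + D' n) := by
  unfold TrNull at *
  have hs : Tendsto (fun n => ‖D n Om‖ + ‖D' n Om‖) atTop (𝓝 0) := by simpa using h.add h'
  refine squeeze_zero (fun n => norm_nonneg _) (fun n => ?_) hs
  rw [ContinuousLinearMap.add_apply]
  exact norm_add_le _ _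

theorem TrNull.smul {D : ℕ → K →L[ℂ] K} (c : ℂ) (h : TrNull Om D) :
    TrNull Om (fun n => c • D n) := by
  unfold TrNull at *
  have hs : Tendsto (fun n => ‖c‖ * ‖D n Om‖) atTop (𝓝 0) := by simpa using h.const_mul ‖c‖
  refine squeeze_zero (fun n => norm_nonneg _) (fun n => ?_) hs
  rw [ContinuousLinearMap.smul_apply, norm_smul]

/-- a bounded sequence times a null sequence is null. -/
theorem TrNull.bdd_mul {D E : ℕ → K →L[ℂ] K} (hD : TrBdd LL D) (hE : TrNull Om E) :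
    TrNull Om (fun n => D n * E n) := by
  obtain ⟨_, C, hC⟩ := hD
  unfold TrNull at *
  have hs : Tendsto (fun n => C * ‖E n Om‖) atTop (𝓝 0) := by simpa using hE.const_mul C
  refine squeeze_zero (fun n => norm_nonneg _) (fun n => ?_) hs
  rw [ContinuousLinearMap.mul_apply]
  exact ((D n).le_opNorm _).trans (mul_le_mul_of_nonneg_right (hC n) (norm_nonneg _))

theorem TrNull.zero : TrNull Om (fun _ => (0 : K →L[ℂ] K)) := by
  unfold TrNull
  simp

/-! ### multiplier sequences -/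

theorem TrMult.mul {R R' : ℕ → K →L[ℂ] K} (h : TrMult LL Om R) (h' : TrMult LL Om R') :
    TrMult LL Om (fun n => R n * R' n) := by
  refine ⟨h.1.mul h'.1, fun D hD hD0 => ?_⟩
  have h1 := h'.2 (fun n => D n * R n) (hD.mul h.1) (h.2 D hD hD0)
  simpa only [mul_assoc] using h1

theorem TrMult.add {R R' : ℕ → K →L[ℂ] K} (h : TrMult LL Om R) (h' : TrMult LL Om R') :
    TrMult LL Om (fun n => R n + R' n) := by
  refine ⟨h.1.add h'.1, fun D hD hD0 => ?_⟩
  have h1 := (h.2 D hD hD0).add (h'.2 D hD hD0)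
  simpa only [mul_add] using h1

theorem TrMult.smul {R : ℕ → K →L[ℂ] K} (c : ℂ) (h : TrMult LL Om R) : TrMult LL Om (fun n => c • R n) := by
  refine ⟨h.1.smul c, fun D hD hD0 => ?_⟩
  have h1 := (h.2 D hD hD0).smul c
  simpa only [mul_smul_comm] using h1

theorem TrMult.add_null {R E : ℕ → K →L[ℂ] K} (h : TrMult LL Om R) (hE : TrBdd LL E) (hE0 : TrNull Om E) :
    TrMult LL Om (fun n => R n + E n) := by
  refine ⟨h.1.add hE, fun D hD hD0 => ?_⟩
  have h1 := (h.2 D hD hD0).add (TrNull.bdd_mul hD hE0)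
  simpa only [mul_add] using h1

theorem TrMult.one : TrMult LL Om (fun _ => (1 : K →L[ℂ] K)) := by
  refine ⟨⟨fun _ => LL.one_mem, ‖(1 : K →L[ℂ] K)‖, fun _ => le_rfl⟩, fun D _ hD0 => ?_⟩
  simpa only [mul_one] using hD0

theorem TrMult.pow {R : ℕ → K →L[ℂ] K} (h : TrMult LL Om R) (k : ℕ) :
    TrMult LL Om (fun n => R n ^ k) := by
  induction k with
  | zero =>
    simp only [pow_zero]
    exact TrMult.one
  | succ k ih =>
    simp only [pow_succ]
    exact ih.mul h

/-- closure under uniform limits -/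
theorem TrMult.of_unif {R : ℕ → K →L[ℂ] K} (hR : TrBdd LL R)
    (h : ∀ ε > 0, ∃ R', TrMult LL Om R' ∧ ∀ n, ‖R n - R' n‖ ≤ ε) : TrMult LL Om R := by
  refine ⟨hR, fun D hD hD0 => ?_⟩
  obtain ⟨_, C, hC⟩ := id hD
  have hC0 : 0 ≤ C := (norm_nonneg _).trans (hC 0)
  unfold TrNull
  rw [Metric.tendsto_atTop]
  intro ε hε
  set δ : ℝ := ε / (2 * (C * ‖Om‖ + 1)) with hδ
  have hden : 0 < 2 * (C * ‖Om‖ + 1) := by positivity
  have hδpos : 0 < δ := div_pos hε hden
  obtain ⟨R', hR', hclose⟩ := h δ hδpos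
  have hnull := hR'.2 D hD hD0
  unfold TrNull at hnull
  rw [Metric.tendsto_atTop] at hnull
  obtain ⟨n0, hn0⟩ := hnull (ε / 2) (by positivity)
  refine ⟨n0, fun n hn => ?_⟩
  have h1 := hn0 n hn
  rw [Real.dist_eq, sub_zero, abs_of_nonneg (norm_nonneg _)] at h1 ⊢
  have h2 : (D n * R n) Om = (D n * R' n) Om + D n ((R n - R' n) Om) := by
    simp only [ContinuousLinearMap.mul_apply, ContinuousLinearMap.sub_apply, map_sub]
    abel
  have h3 : ‖D n ((R n - R' n) Om)‖ ≤ C * (δ * ‖Om‖) := by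
    refine ((D n).le_opNorm _).trans (mul_le_mul (hC n) ?_ (norm_nonneg _) hC0)
    exact ((R n - R' n).le_opNorm _).trans (mul_le_mul_of_nonneg_right (hclose n) (norm_nonneg _))
  have h4 : C * (δ * ‖Om‖) ≤ ε / 2 := by
    have : C * (δ * ‖Om‖) = ε * (C * ‖Om‖) / (2 * (C * ‖Om‖ + 1)) := by
      rw [hδ]; ring
    rw [this, div_le_iff₀ hden]
    have : 0 ≤ C * ‖Om‖ := by positivity
    nlinarith
  calc ‖(D n * R n) Om‖ ≤ ‖(D n * R' n) Om‖ + ‖D n ((R n - R' n) Om)‖ := by
        rw [h2]; exact norm_add_le _ _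
    _ < ε / 2 + ε / 2 := by linarith
    _ = ε := by ring

/-- telescoping of a fixed power. -/
theorem tr_pow_null {U V : ℕ → K →L[ℂ] K} (hU : TrMult LL Om U) (hV : TrMult LL Om V)
    (hUV : TrNull Om (fun n => U n - V n)) (k : ℕ) : TrNull Om (fun n => U n ^ k - V n ^ k) := by
  induction k with
  | zero =>
    simp only [pow_zero, sub_self]
    exact TrNull.zero
  | succ k ih =>
    have h1 : TrNull Om (fun n => U n ^ k * (U n - V n)) := TrNull.bdd_mul (hU.1.pow k) hUV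
    have h2 : TrNull Om (fun n => (U n ^ k - V n ^ k) * V n) :=
      hV.2 _ ((hU.1.pow k).sub (hV.1.pow k)) ih
    have h3 := h1.add h2
    have e : ∀ n, U n ^ (k + 1) - V n ^ (k + 1)
        = U n ^ k * (U n - V n) + (U n ^ k - V n ^ k) * V n := by
      intro n
      rw [pow_succ, pow_succ, mul_sub, sub_mul]
      abel
    simpa only [e] using h3

/-! ### polynomials -/

open Polynomial in
theorem tr_aeval_monomial (a : K →L[ℂ] K) (k : ℕ) (r : ℝ) :
    aeval a (monomial k r) = (r : ℂ) • a ^ k := by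
  rw [aeval_monomial, Algebra.algebraMap_eq_smul_one, smul_mul_assoc, one_mul, Complex.coe_smul]

open Polynomial in
theorem TrMult.aeval {R : ℕ → K →L[ℂ] K} (h : TrMult LL Om R) (P : ℝ[X]) :
    TrMult LL Om (fun n => aeval (R n) P) := by
  induction P using Polynomial.induction_on' with
  | add p q hp hq =>
    simp only [map_add]
    exact hp.add hq
  | monomial k r =>
    simp only [tr_aeval_monomial]
    exact (h.pow k).smul _

open Polynomial in
theorem tr_aeval_null {U V : ℕ → K →L[ℂ] K} (hU : TrMult LL Om U) (hV : TrMult LL Om V)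
    (hUV : TrNull Om (fun n => U n - V n)) (P : ℝ[X]) :
    TrNull Om (fun n => aeval (U n) P - aeval (V n) P) := by
  induction P using Polynomial.induction_on' with
  | add p q hp hq =>
    have h := hp.add hq
    have e : ∀ n, aeval (U n) (p + q) - aeval (V n) (p + q)
        = (aeval (U n) p - aeval (V n) p) + (aeval (U n) q - aeval (V n) q) := by
      intro n
      rw [map_add, map_add]
      abel
    simpa only [e] using h
  | monomial k r =>
    have h := (tr_pow_null hU hV hUV k).smul (r : ℂ)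
    simpa only [tr_aeval_monomial, smul_sub] using h

/-! ### uniform polynomial approximation of the continuous functional calculus -/

/-- the real spectrum lies in `[-C, C]` if `‖a‖ ≤ C`. -/
theorem tr_spectrum_subset (a : K →L[ℂ] K) {C : ℝ} (hC : ‖a‖ ≤ C) :
    spectrum ℝ a ⊆ Set.Icc (-C) C := by
  intro x hx
  have h := spectrum.norm_le_norm_mul_of_mem hx
  have h1 : ‖(1 : K →L[ℂ] K)‖ ≤ 1 := ContinuousLinearMap.norm_id_le
  have h2 : |x| ≤ C := by
    calc |x| = ‖x‖ := rfl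
      _ ≤ ‖a‖ * ‖(1 : K →L[ℂ] K)‖ := h
      _ ≤ ‖a‖ * 1 := mul_le_mul_of_nonneg_left h1 (norm_nonneg _)
      _ ≤ C := by rwa [mul_one]
  exact abs_le.1 h2

open Polynomial in
/-- one real polynomial approximates `cfc f a` for ALL self-adjoint `a` in the ball of radius `C`. -/
theorem tr_cfc_poly_approx (f : ℝ → ℝ) (hf : Continuous f) (C ε : ℝ) (hε : 0 < ε) :
    ∃ P : ℝ[X], ∀ a : K →L[ℂ] K, IsSelfAdjoint a → ‖a‖ ≤ C → ‖cfc f a - aeval a P‖ ≤ ε := by
  obtain ⟨P, hP⟩ := exists_polynomial_near_of_continuousOn (-C) C f hf.continuousOn ε hε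
  refine ⟨P, fun a ha haC => ?_⟩
  rw [← cfc_polynomial P a ha, ← cfc_sub f (fun x => P.eval x) a hf.continuousOn
    P.continuous.continuousOn]
  refine norm_cfc_le hε.le fun x hx => ?_
  have := hP x (tr_spectrum_subset a haC hx)
  rw [Real.norm_eq_abs, abs_sub_comm]
  exact this.le

/-- a bound for `cfc f a` on the ball of radius `C`. -/
theorem tr_cfc_bdd (f : ℝ → ℝ) (hf : Continuous f) (C : ℝ) :
    ∃ B : ℝ, ∀ a : K →L[ℂ] K, ‖a‖ ≤ C → ‖cfc f a‖ ≤ B := by
  obtain ⟨B, hB⟩ := (isCompact_Icc (a := -C) (b := C)).exists_bound_of_continuousOn hf.continuousOn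
  refine ⟨max B 0, fun a haC => norm_cfc_le (le_max_right _ _) fun x hx => ?_⟩
  exact (hB x (tr_spectrum_subset a haC hx)).trans (le_max_left _ _)

open Polynomial in
theorem tr_aeval_mem {a : K →L[ℂ] K} (ha : a ∈ LL) (P : ℝ[X]) : aeval a P ∈ LL := by
  induction P using Polynomial.induction_on' with
  | add p q hp hq =>
    rw [map_add]
    exact LL.add_mem hp hq
  | monomial k r =>
    rw [tr_aeval_monomial]
    exact LL.smul_mem (LL.pow_mem ha k) _

/-- `cfc f a ∈ LL` for a norm closed `LL`. -/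
theorem tr_cfc_mem (hLL : IsClosed (LL : Set (K →L[ℂ] K))) {a : K →L[ℂ] K} (ha : a ∈ LL)
    (hsa : IsSelfAdjoint a) (f : ℝ → ℝ) (hf : Continuous f) : cfc f a ∈ LL := by
  have h : cfc f a ∈ closure (LL : Set (K →L[ℂ] K)) := by
    rw [Metric.mem_closure_iff]
    intro ε hε
    obtain ⟨P, hP⟩ := tr_cfc_poly_approx (K := K) f hf ‖a‖ (ε / 2) (by positivity)
    refine ⟨Polynomial.aeval a P, tr_aeval_mem ha P, ?_⟩
    rw [dist_eq_norm]
    have := hP a hsa le_rfl
    linarith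
  rwa [hLL.closure_eq] at h

theorem tr_cfc_mult (hLL : IsClosed (LL : Set (K →L[ℂ] K))) {U : ℕ → K →L[ℂ] K} (hU : TrMult LL Om U)
    (hUsa : ∀ n, IsSelfAdjoint (U n)) (f : ℝ → ℝ) (hf : Continuous f) :
    TrMult LL Om (fun n => cfc f (U n)) := by
  obtain ⟨hm, C, hC⟩ := id hU.1
  obtain ⟨B, hB⟩ := tr_cfc_bdd (K := K) f hf C
  refine TrMult.of_unif ⟨fun n => tr_cfc_mem hLL (hm n) (hUsa n) f hf, B, fun n => hB _ (hC n)⟩ ?_
  intro ε hε
  obtain ⟨P, hP⟩ := tr_cfc_poly_approx (K := K) f hf C ε hε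
  exact ⟨fun n => Polynomial.aeval (U n) P, hU.aeval P, fun n => hP _ (hUsa n) (hC n)⟩

/-- Q Lemma 8.1, functional calculus part. -/
theorem tr_clip (hLL : IsClosed (LL : Set (K →L[ℂ] K))) {U V : ℕ → K →L[ℂ] K} (hU : TrMult LL Om U) (hV : TrMult LL Om V)
    (hUsa : ∀ n, IsSelfAdjoint (U n)) (hVsa : ∀ n, IsSelfAdjoint (V n))
    (hUV : TrNull Om (fun n => U n - V n)) (f : ℝ → ℝ) (hf : Continuous f) :
    TrMult LL Om (fun n => cfc f (U n)) ∧ TrMult LL Om (fun n => cfc f (V n)) ∧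
      TrNull Om (fun n => cfc f (U n) - cfc f (V n)) := by
  refine ⟨tr_cfc_mult hLL hU hUsa f hf, tr_cfc_mult hLL hV hVsa f hf, ?_⟩
  obtain ⟨_, C, hC⟩ := id hU.1
  obtain ⟨_, C', hC'⟩ := id hV.1
  unfold TrNull
  rw [Metric.tendsto_atTop]
  intro ε hε
  set δ : ℝ := ε / (4 * (‖Om‖ + 1)) with hδ
  have hden : 0 < 4 * (‖Om‖ + 1) := by positivity
  have hδpos : 0 < δ := div_pos hε hden
  obtain ⟨P, hP⟩ := tr_cfc_poly_approx (K := K) f hf (max C C') δ hδpos
  have hnull := tr_aeval_null hU hV hUV P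
  unfold TrNull at hnull
  rw [Metric.tendsto_atTop] at hnull
  obtain ⟨n0, hn0⟩ := hnull (ε / 2) (by positivity)
  refine ⟨n0, fun n hn => ?_⟩
  have h1 := hn0 n hn
  rw [Real.dist_eq, sub_zero, abs_of_nonneg (norm_nonneg _)] at h1 ⊢
  have hu := hP (U n) (hUsa n) ((hC n).trans (le_max_left _ _))
  have hv := hP (V n) (hVsa n) ((hC' n).trans (le_max_right _ _))
  have e : (cfc f (U n) - cfc f (V n)) Om
      = (cfc f (U n) - Polynomial.aeval (U n) P) Om
        + (Polynomial.aeval (U n) P - Polynomial.aeval (V n) P) Om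
        - (cfc f (V n) - Polynomial.aeval (V n) P) Om := by
    simp only [ContinuousLinearMap.sub_apply]
    abel
  have hu' : ‖(cfc f (U n) - Polynomial.aeval (U n) P) Om‖ ≤ δ * ‖Om‖ :=
    (ContinuousLinearMap.le_opNorm _ _).trans (mul_le_mul_of_nonneg_right hu (norm_nonneg _))
  have hv' : ‖(cfc f (V n) - Polynomial.aeval (V n) P) Om‖ ≤ δ * ‖Om‖ :=
    (ContinuousLinearMap.le_opNorm _ _).trans (mul_le_mul_of_nonneg_right hv (norm_nonneg _))
  have hδ4 : δ * ‖Om‖ ≤ ε / 4 := by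
    have : δ * ‖Om‖ = ε * ‖Om‖ / (4 * (‖Om‖ + 1)) := by rw [hδ]; ring
    rw [this, div_le_iff₀ hden]
    have : 0 ≤ ‖Om‖ := norm_nonneg _
    nlinarith
  calc ‖(cfc f (U n) - cfc f (V n)) Om‖
      ≤ ‖(cfc f (U n) - Polynomial.aeval (U n) P) Om‖
        + ‖(Polynomial.aeval (U n) P - Polynomial.aeval (V n) P) Om‖
        + ‖(cfc f (V n) - Polynomial.aeval (V n) P) Om‖ := by
        rw [e]
        exact (norm_sub_le _ _).trans (add_le_add (norm_add_le _ _) le_rfl)
    _ < ε := by linarith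

end Claimed.Agent.R302
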