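/-
R302 / TR / Defs : definitions of the packages TR, AK (and of the interface REAL -> TR) ON TOP OF ST/Defs.lean (helper73).   Owner: helper100.
Blueprint: Claimed/Agent/R302/Notes_helper100.lean (Sections 2 and 4).
Everything is stated for plain operators `H →L[ℂ] H`; no subtypes.  phi x = <Om, x Om>.
From ST/Defs: StData (M, A, Om, masa, cyc, sep, central), S.phi, S.M', StPart S (cells, proj, orth, sum_eq), P.pinch, S.EA, S.rmul,
  S.IsGN, S.IsSym, S.Nalg, S.Mo, S.NN, S.EN.
-/
import Claimed.Agent.R302.ST.Defs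

set_option autoImplicit false

namespace Claimed.Agent.R302

open scoped InnerProductSpace ComplexOrder
open Filter Topology

universe u

variable {H : Type u} [NormedAddCommGroup H] [InnerProductSpace ℂ H] [CompleteSpace H]

/-- refinement preorder on partitions (same `≤` as `ST/Defs`). -/
instance stPartPreorder (S : StData H) : Preorder (StPart S) where
  le := (· ≤ ·)
  le_refl P := fun f hf => ⟨f, hf, (P.proj f hf).2.isIdempotentElem⟩
  le_trans P Q R hPQ hQR := fun g hg => by
    obtain ⟨f, hf, hfg⟩ := hQR g hg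
    obtain ⟨e, he, hef⟩ := hPQ f hf
    exact ⟨e, he, by rw [← hfg, ← mul_assoc, hef]⟩

/-- unitary normalizers of `A` in `M` (no condition on Radon-Nikodym derivatives; closed under products and adjoints; contains `S.IsSym`).
Sites of cylinder functions are translated by unitary normalizers. -/
def StData.IsNormU (S : StData H) (v : H →L[ℂ] H) : Prop :=
  v ∈ S.M ∧ star v * v = 1 ∧ v * star v = 1 ∧ (∀ a ∈ S.A, v * a * star v ∈ S.A) ∧ (∀ a ∈ S.A, star v * a * v ∈ S.A)

/-- families of symmetries of `A` (values of the dyadic digits). -/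
def StData.IsSymFam (S : StData H) (w : ℕ → H →L[ℂ] H) : Prop :=
  ∀ k, w k ∈ S.A ∧ IsSelfAdjoint (w k) ∧ w k * w k = 1

/-- the random symmetries: digit `k < t` takes the sign `om e k` on the cell `e`. -/
noncomputable def opRand {S : StData H} (P : StPart S) (t : ℕ)
    (om : P.cells → Fin t → Bool) (k : ℕ) : H →L[ℂ] H :=
  if h : k < t then ∑ e : P.cells, (if om e ⟨k, h⟩ then (1 : ℂ) else -1) • (e : H →L[ℂ] H) else 1

open Classical in
/-- expectation over the random symmetries. -/
noncomputable def opAvg {S : StData H} (Pt : StPart S × ℕ)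
    (F : (ℕ → H →L[ℂ] H) → ℂ) : ℂ :=
  (∑ om : Pt.1.cells → Fin Pt.2 → Bool, F (opRand Pt.1 Pt.2 om)) /
    (Fintype.card (Pt.1.cells → Fin Pt.2 → Bool) : ℂ)

/-- the cylinder algebra: functions of the digit symmetries generated by `A` and the translated digits `v (w k) v*`. -/
inductive OpCyl (S : StData H) : ((ℕ → H →L[ℂ] H) → H →L[ℂ] H) → Prop
  | const (a : H →L[ℂ] H) (ha : a ∈ S.A) : OpCyl S (fun _ => a)
  | site (v : H →L[ℂ] H) (hv : S.IsNormU v) (k : ℕ) : OpCyl S (fun w => v * w k * star v)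
  | add {b b' : (ℕ → H →L[ℂ] H) → H →L[ℂ] H} : OpCyl S b → OpCyl S b' → OpCyl S (fun w => b w + b' w)
  | mul {b b' : (ℕ → H →L[ℂ] H) → H →L[ℂ] H} : OpCyl S b → OpCyl S b' → OpCyl S (fun w => b w * b' w)

/-- cylinder monomials `c * prod_o v_o (w t_o) v_o*`. -/
structure OpMono (H : Type u) [NormedAddCommGroup H] [InnerProductSpace ℂ H] [CompleteSpace H] where
  c : H →L[ℂ] H
  occ : List ((H →L[ℂ] H) × ℕ)

noncomputable def OpMono.eval (d : OpMono H) (w : ℕ → H →L[ℂ] H) : H →L[ℂ] H :=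
  d.c * (d.occ.map fun o => o.1 * w o.2 * star o.1).prod

/-- on the support of `c` the sites of `v` and `v'` are different. -/
def StData.Sep (S : StData H) (c v v' : H →L[ℂ] H) : Prop :=
  ∀ ε > 0, ∃ P : StPart S, ‖(∑ e ∈ P.cells, (v * e * star v) * (v' * e * star v')) (c S.Om)‖ < ε

/-- reduced monomials. -/
def StData.IsRed (S : StData H) (d : OpMono H) : Prop :=
  d.c ∈ S.A ∧ d.occ ≠ [] ∧ (∀ o ∈ d.occ, S.IsNormU o.1) ∧
    d.occ.Pairwise (fun o o' => o.2 = o'.2 → S.Sep d.c o.1 o'.1)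

/-- the word `y0 d1 y1 ... dm ym`. -/
noncomputable def opWord (y0 : H →L[ℂ] H) (L : List (OpMono H × (H →L[ℂ] H))) (w : ℕ → H →L[ℂ] H) :
    H →L[ℂ] H := y0 * (L.map fun p => p.1.eval w * p.2).prod

/-- partition of unity in `A` indexed by `Fin r` (same shape as the frozen definitions). -/
def OpIsPOU (A : StarSubalgebra ℂ (H →L[ℂ] H)) {r : ℕ} (p : Fin r → (H →L[ℂ] H)) : Prop :=
  (∀ i, p i ∈ A ∧ IsStarProjection (p i)) ∧ (∀ i j, i ≠ j → p i * p j = 0) ∧ ∑ i, p i = 1

end Claimed.Agent.R302
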