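/-
R302 / TR / Hyp : the two interfaces CONSUMED by TR and AK.   Owner: helper100.
  OpSTHyp S   : produced by package ST (helper73) (+ VN toolkit)
  OpColHyp .. : produced by package REAL (helper234) from the colouring theorem
Consumers assume, producers prove:  st_hyp : ∀ S, OpSTHyp S ;  real_col : ∀ S, OpColHyp S r ε.
-/
import Claimed.Agent.R302.TR.Defs

set_option autoImplicit false

namespace Claimed.Agent.R302

open scoped InnerProductSpace ComplexOrder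
open Filter Topology

universe u
variable {H : Type u} [NormedAddCommGroup H] [InnerProductSpace ℂ H] [CompleteSpace H]

/-- what TR/AK use about `E_A`, `rho`, `N`, `Mo`. -/
structure OpSTHyp (S : StData H) : Prop where
  /-- `M' Om` is dense -/
  comm_dense : Dense {ξ : H | ∃ c ∈ S.M', c S.Om = ξ}
  /-- existence of `E_A` -/
  EA_mem : ∀ x ∈ S.M, S.EA x ∈ S.A
  EA_phi : ∀ x ∈ S.M, ∀ a ∈ S.A, S.phi (S.EA x * a) = S.phi (x * a)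
  EA_nonneg : ∀ x ∈ S.M, 0 ≤ x → 0 ≤ S.EA x
  EA_norm_le : ∀ x ∈ S.M, ‖S.EA x‖ ≤ ‖x‖
  /-- pinching limit along refinement (D4 for `v = 1`; the translated version follows by cofinality) -/
  pinch : ∀ z ∈ S.M, Tendsto (fun P : StPart S => ‖(P.pinch z - S.EA z) S.Om‖) atTop (𝓝 0)
  /-- right multiplication by `A` -/
  rmul_apply : ∀ a ∈ S.A, ∀ x ∈ S.M, S.rmul a (x S.Om) = x (a S.Om)
  rmul_mem : ∀ a ∈ S.A, S.rmul a ∈ S.M'
  rmul_norm_le : ∀ a ∈ S.A, ‖S.rmul a‖ ≤ ‖a‖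
  /-- `Mo` is orthogonal to all groupoid normalizers (3-set lemma + RN exhaustion) -/
  Mo_orth_GN : ∀ y ∈ S.Mo, ∀ v, S.IsGN v → ∀ a ∈ S.A, S.phi (star (v * a) * y) = 0
  /-- unitary normalizers belong to `N` -/
  normU_mem_NN : ∀ v, S.IsNormU v → v ∈ S.NN
  A_le_NN : ∀ a ∈ S.A, a ∈ S.NN
  /-- `Nalg` is a `*`-algebra inside `N` -/
  Nalg_le_NN : ∀ n ∈ S.Nalg, n ∈ S.NN
  /-- `Mo` is a `*`-closed `Nalg`-bimodule -/
  Mo_star : ∀ y ∈ S.Mo, star y ∈ S.Mo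
  Mo_mul_left : ∀ n ∈ S.NN, ∀ y ∈ S.Mo, n * y ∈ S.Mo
  /-- `N` is a `*`-subalgebra (only these closure properties are used) -/
  N_mul : ∀ n ∈ S.NN, ∀ n' ∈ S.NN, n * n' ∈ S.NN
  N_star : ∀ n ∈ S.NN, star n ∈ S.NN
  /-- the decomposition `x = E_N x + (x - E_N x)` -/
  decomp : ∀ x ∈ S.M, ∃ n ∈ S.NN, x - n ∈ S.Mo ∧ ‖n‖ ≤ ‖x‖ ∧ (IsSelfAdjoint x → IsSelfAdjoint n)
  /-- (D6) bounded strong-* approximation of `N` by `Nalg` (helper73 S5) -/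
  approx : ∀ n ∈ S.NN, ∀ ε > 0, ∃ n' ∈ S.Nalg, ‖n'‖ ≤ 2 * ‖n‖ ∧ ‖(n - n') S.Om‖ < ε ∧ ‖(star n - star n') S.Om‖ < ε ∧
    (IsSelfAdjoint n → IsSelfAdjoint n' ∧ ‖n'‖ ≤ ‖n‖)

/-- (COL): the finitary form of the Bernoulli colouring theorem, in limit-of-averages form.
`e` = cut to the set where the Radon-Nikodym ratios along the finitely many edges of `y` are bounded (chosen by the producer). -/
def OpColHyp (S : StData H) (r : ℕ) (ε : ℝ) : Prop :=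
  ∀ y ∈ S.Nalg, IsSelfAdjoint y → ‖y‖ ≤ 2 → S.EA y = 0 → ∀ n : ℕ, 1 ≤ n → ∀ η > 0,
    ∃ e ∈ S.A, IsStarProjection e ∧ ‖(1 - e) S.Om‖ < η ∧
    ∃ b : Fin r → (ℕ → H →L[ℂ] H) → H →L[ℂ] H,
      (∀ i, OpCyl S (b i)) ∧
      (∀ w, S.IsSymFam w → OpIsPOU S.A (fun i => b i w)) ∧
      (∀ i, ∀ a ∈ S.A, ‖a‖ ≤ 1 → ∀ᶠ Pt : StPart S × ℕ in atTop,
        ‖opAvg Pt (fun w => S.phi (a * b i w)) - S.phi a / r‖ ≤ η) ∧
      (∀ᶠ Pt : StPart S × ℕ in atTop,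
        (opAvg Pt (fun w => S.phi ((∑ i, b i w * (e * y * e) * b i w) ^ (2 * n)))).re
          ≤ (ε / 4) ^ (2 * n) + 2 ^ (2 * n + 1) * (ε / 16) ^ (2 * n))

/-- (AK) atomless kernels, in the only form TR consumes. -/
def OpAK (S : StData H) : Prop :=
  ∀ y ∈ S.Mo, ∀ ε > 0, ∃ P : StPart S, ∃ G ∈ S.A, 0 ≤ G ∧ ‖G‖ ≤ ‖y‖ ^ 2 ∧
    (∀ e ∈ P.cells, S.EA (star y * e * y) ≤ G) ∧ (S.phi G).re < ε

end Claimed.Agent.R302
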