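/-
R302 / TR / Pou : finite orthogonal families of projections with sum 1 on a Hilbert space; sign averages.   Owner: helper100.   Mathlib only.
-/
import Mathlib

set_option autoImplicit false

namespace Claimed.Agent.R302

open scoped InnerProductSpace

universe u v
variable {H : Type u} [NormedAddCommGroup H] [InnerProductSpace ℂ H] [CompleteSpace H]

/-- orthogonal family of projections with sum `1`. -/
structure TrPou {ι : Type v} [Fintype ι] (F : ι → H →L[ℂ] H) : Prop where
  sa : ∀ i, star (F i) = F i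
  idem : ∀ i, F i * F i = F i
  orth : ∀ i j, i ≠ j → F i * F j = 0
  sum : ∑ i, F i = 1

/-- the sign of a bit, as a complex number -/
def trSg (b : Bool) : ℂ := if b then 1 else -1

@[simp] theorem trSg_mul_self (b : Bool) : trSg b * trSg b = 1 := by cases b <;> simp [trSg]

@[simp] theorem trSg_star (b : Bool) : star (trSg b) = trSg b := by cases b <;> simp [trSg]

@[simp] theorem trSg_not (b : Bool) : trSg (!b) = - trSg b := by cases b <;> simp [trSg]

theorem trSg_norm (b : Bool) : ‖trSg b‖ = 1 := by cases b <;> simp [trSg]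

/-- orthogonality of the coordinate signs -/
theorem tr_sign_sum_ne {ι : Type v} [Fintype ι] [DecidableEq ι] {i j : ι} (h : i ≠ j) :
    ∑ z : ι → Bool, trSg (z i) * trSg (z j) = 0 := by
  have hinv : Function.Involutive (fun z : ι → Bool => Function.update z i (!(z i))) := by
    intro z; funext k
    by_cases hk : k = i
    · subst hk; simp
    · simp [Function.update_of_ne hk]
  have key : ∑ z : ι → Bool, trSg (z i) * trSg (z j) = ∑ z : ι → Bool, -(trSg (z i) * trSg (z j)) := by
    rw [← Equiv.sum_comp hinv.toPerm]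
    refine Finset.sum_congr rfl fun z _ => ?_
    have hj : j ≠ i := fun e => h e.symm
    simp [Function.Involutive.toPerm, Function.update_of_ne hj]
  rw [Finset.sum_neg_distrib] at key
  have : (2 : ℂ) * ∑ z : ι → Bool, trSg (z i) * trSg (z j) = 0 := by
    rw [two_mul]; nth_rewrite 1 [key]; simp
  simpa using this

theorem tr_sign_sum_self {ι : Type v} [Fintype ι] [DecidableEq ι] (i : ι) :
    ∑ z : ι → Bool, trSg (z i) * trSg (z i) = (Fintype.card (ι → Bool) : ℂ) := by
  simp

theorem tr_card_ne_zero (ι : Type v) [Fintype ι] [DecidableEq ι] : (Fintype.card (ι → Bool) : ℂ) ≠ 0 := by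
  have : 0 < Fintype.card (ι → Bool) := Fintype.card_pos
  exact_mod_cast this.ne'

variable {ι : Type v} [Fintype ι] {F G : ι → H →L[ℂ] H}

/-- the symmetry attached to a sign vector -/
noncomputable def trSym (F : ι → H →L[ℂ] H) (z : ι → Bool) : H →L[ℂ] H := ∑ i, trSg (z i) • F i

namespace TrPou

theorem inner_self (hF : TrPou F) (i : ι) (ξ : H) : ⟪ξ, F i ξ⟫_ℂ = ((‖F i ξ‖ ^ 2 : ℝ) : ℂ) := by
  have h1 : F i = star (F i) * F i := by rw [hF.sa, hF.idem]
  have h2 : ⟪ξ, F i ξ⟫_ℂ = ⟪F i ξ, F i ξ⟫_ℂ := by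
    conv_lhs => rw [h1]
    rw [ContinuousLinearMap.star_eq_adjoint]
    change ⟪ξ, (ContinuousLinearMap.adjoint (F i)) (F i ξ)⟫_ℂ = _
    rw [ContinuousLinearMap.adjoint_inner_right]
  rw [h2, inner_self_eq_norm_sq_to_K]; norm_cast

/-- Pythagoras -/
theorem sum_norm_sq (hF : TrPou F) (ξ : H) : ∑ i, ‖F i ξ‖ ^ 2 = ‖ξ‖ ^ 2 := by
  have h : ((∑ i, ‖F i ξ‖ ^ 2 : ℝ) : ℂ) = ((‖ξ‖ ^ 2 : ℝ) : ℂ) := by
    push_cast
    have : ∀ i, ((‖F i ξ‖ : ℂ)) ^ 2 = ⟪ξ, F i ξ⟫_ℂ := fun i => by rw [hF.inner_self]; norm_cast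
    simp_rw [this]
    rw [← inner_sum]
    have h1 : ∑ i, F i ξ = ξ := by
      have := congrArg (fun T : H →L[ℂ] H => T ξ) hF.sum
      simpa using this
    rw [h1, inner_self_eq_norm_sq_to_K]; norm_cast
  exact_mod_cast h

theorem norm_apply_le (hF : TrPou F) (i : ι) (ξ : H) : ‖F i ξ‖ ≤ ‖ξ‖ := by
  have h := hF.sum_norm_sq ξ
  have h1 : ‖F i ξ‖ ^ 2 ≤ ∑ j, ‖F j ξ‖ ^ 2 :=
    Finset.single_le_sum (f := fun j => ‖F j ξ‖ ^ 2) (fun j _ => by positivity) (Finset.mem_univ i)
  rw [h] at h1
  exact le_of_sq_le_sq h1 (norm_nonneg _)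

theorem apply_self (hF : TrPou F) (i : ι) (ξ : H) : F i (F i ξ) = F i ξ :=
  congrArg (fun T : H →L[ℂ] H => T ξ) (hF.idem i)

theorem apply_ne (hF : TrPou F) {i j : ι} (h : i ≠ j) (ξ : H) : F i (F j ξ) = 0 :=
  congrArg (fun T : H →L[ℂ] H => T ξ) (hF.orth i j h)

/-- block diagonal sums are bounded by the norm of the middle operators -/
theorem norm_block_le (hF : TrPou F) (hG : TrPou G) (T : ι → H →L[ℂ] H) (C : ℝ) (hC : 0 ≤ C) (hT : ∀ i, ‖T i‖ ≤ C) :
    ‖∑ i, F i * T i * G i‖ ≤ C := by
  refine ContinuousLinearMap.opNorm_le_bound _ hC fun ξ => ?_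
  set η : H := (∑ i, F i * T i * G i) ξ with hη
  have h1 : ∀ j, F j η = F j (T j (G j ξ)) := by
    intro j
    have : η = ∑ i, F i (T i (G i ξ)) := by simp [hη]
    rw [this, map_sum]
    rw [Finset.sum_eq_single j]
    · rw [hF.apply_self]
    · intro i _ hij; rw [hF.apply_ne (fun e => hij e.symm)]
    · intro h; exact absurd (Finset.mem_univ j) h
  have h2 : ‖η‖ ^ 2 ≤ (C * ‖ξ‖) ^ 2 := by
    rw [← hF.sum_norm_sq η, mul_pow, ← hG.sum_norm_sq ξ, Finset.mul_sum]
    refine Finset.sum_le_sum fun j _ => ?_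
    rw [h1, ← mul_pow]
    have : ‖F j (T j (G j ξ))‖ ≤ C * ‖G j ξ‖ :=
      (hF.norm_apply_le j _).trans (((T j).le_opNorm _).trans (by gcongr; exact hT j))
    gcongr
  exact le_of_sq_le_sq h2 (by positivity)

theorem sym_star (hF : TrPou F) (z : ι → Bool) : star (trSym F z) = trSym F z := by
  simp [trSym, star_sum, hF.sa]

theorem sym_mul_self (hF : TrPou F) (z : ι → Bool) : trSym F z * trSym F z = 1 := by
  unfold trSym
  rw [Finset.sum_mul_sum]
  have : ∀ i, ∑ j, (trSg (z i) • F i) * (trSg (z j) • F j) = F i := by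
    intro i
    rw [Finset.sum_eq_single i]
    · rw [smul_mul_smul_comm, trSg_mul_self, hF.idem, one_smul]
    · intro j _ hj; rw [smul_mul_smul_comm, hF.orth _ _ (fun e => hj e.symm), smul_zero]
    · intro h; exact absurd (Finset.mem_univ i) h
  simp_rw [this]; exact hF.sum

theorem sym_norm_le (hF : TrPou F) (z : ι → Bool) : ‖trSym F z‖ ≤ 1 := by
  have h : ‖trSym F z‖ * ‖trSym F z‖ ≤ 1 := by
    rw [← CStarRing.norm_star_mul_self, hF.sym_star, hF.sym_mul_self]
    exact ContinuousLinearMap.norm_id_le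
  nlinarith [norm_nonneg (trSym F z)]

end TrPou

/-- the pinching is the average of the conjugations by the symmetries -/
theorem tr_sum_sym_conj [DecidableEq ι] (F : ι → H →L[ℂ] H) (X : H →L[ℂ] H) :
    ∑ z : ι → Bool, trSym F z * X * trSym F z = (Fintype.card (ι → Bool) : ℂ) • ∑ i, F i * X * F i := by
  have h1 : ∀ z : ι → Bool, trSym F z * X * trSym F z = ∑ i, ∑ j, (trSg (z i) * trSg (z j)) • (F i * X * F j) := by
    intro z
    unfold trSym
    rw [Finset.sum_mul, Finset.sum_mul]
    refine Finset.sum_congr rfl fun i _ => ?_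
    rw [Finset.mul_sum]
    refine Finset.sum_congr rfl fun j _ => ?_
    rw [smul_mul_assoc, smul_mul_assoc, mul_smul_comm, smul_smul]
  simp_rw [h1]
  rw [Finset.sum_comm]
  rw [Finset.smul_sum]
  refine Finset.sum_congr rfl fun i _ => ?_
  rw [Finset.sum_comm]
  simp_rw [← Finset.sum_smul]
  rw [Finset.sum_eq_single i]
  · rw [tr_sign_sum_self]
  · intro j _ hj; rw [tr_sign_sum_ne (fun e => hj e.symm), zero_smul]
  · intro h; exact absurd (Finset.mem_univ i) h

/-- an orthogonal family of projections, completed by the complement of its sum. -/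
theorem tr_pou_option {F : ι → H →L[ℂ] H} (hsa : ∀ i, star (F i) = F i) (hid : ∀ i, F i * F i = F i)
    (horth : ∀ i j, i ≠ j → F i * F j = 0) : TrPou (fun o : Option ι => o.elim (1 - ∑ i, F i) F) := by
  classical
  have h1 : ∀ i, (∑ j, F j) * F i = F i := by
    intro i
    rw [Finset.sum_mul, Finset.sum_eq_single i]
    · exact hid i
    · intro j _ hj; exact horth j i hj
    · intro h; exact absurd (Finset.mem_univ i) h
  have h2 : ∀ i, F i * (∑ j, F j) = F i := by
    intro i
    rw [Finset.mul_sum, Finset.sum_eq_single i]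
    · exact hid i
    · intro j _ hj; exact horth i j (fun e => hj e.symm)
    · intro h; exact absurd (Finset.mem_univ i) h
  have h3 : (∑ j, F j) * (∑ j, F j) = ∑ j, F j := by
    rw [Finset.mul_sum]; exact Finset.sum_congr rfl fun i _ => h1 i
  refine ⟨?_, ?_, ?_, ?_⟩
  · intro o
    cases o with
    | none => simp [star_sum, hsa]
    | some i => exact hsa i
  · intro o
    cases o with
    | none =>
      simp only [Option.elim_none]
      rw [mul_sub, sub_mul, sub_mul, h3]; simp
    | some i => exact hid i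
  · intro o o' hne
    cases o with
    | none =>
      cases o' with
      | none => exact absurd rfl hne
      | some j => simp only [Option.elim_none, Option.elim_some]; rw [sub_mul, h1, one_mul, sub_self]
    | some i =>
      cases o' with
      | none => simp only [Option.elim_none, Option.elim_some]; rw [mul_sub, h2, mul_one, sub_self]
      | some j => exact horth i j (fun e => hne (congrArg some e))
  · rw [Fintype.sum_option]; simp

/-- block diagonal bound for orthogonal families (sum not necessarily `1`). -/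
theorem tr_block_le {F G : ι → H →L[ℂ] H} (hFsa : ∀ i, star (F i) = F i) (hFid : ∀ i, F i * F i = F i)
    (hForth : ∀ i j, i ≠ j → F i * F j = 0) (hGsa : ∀ i, star (G i) = G i) (hGid : ∀ i, G i * G i = G i)
    (hGorth : ∀ i j, i ≠ j → G i * G j = 0) (T : ι → H →L[ℂ] H) (C : ℝ) (hC : 0 ≤ C) (hT : ∀ i, ‖T i‖ ≤ C) :
    ‖∑ i, F i * T i * G i‖ ≤ C := by
  have := (tr_pou_option hFsa hFid hForth).norm_block_le (tr_pou_option hGsa hGid hGorth)
    (fun o : Option ι => o.elim 0 T) C hC (by
      intro o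
      cases o with
      | none => simpa using hC
      | some i => exact hT i)
  rw [Fintype.sum_option] at this
  simpa using this

end Claimed.Agent.R302
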