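/-
R302 / TR / AbsA : abstract decoupling theorem, commutative algebra form (proved by helper255).  Imports only Mathlib.

 Setting: R commutative algebra, psi a linear functional, F o : C -> R orthogonal idempotents with sum 1 (o : O).
 P a = prod_o F o (a o) (a : O -> C) are orthogonal idempotents with sum 1 which diagonalise all F o e and Lam o z ("symbol calculus", IsDiag).
 T L X = sum over the a that satisfy the constraints a p.1 = a p.2 (p in L) of psi (X * P a),  L ANY finite set of pairs (no partitions, no representatives).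
 (1) parity lemma: E_eps prod_o sgn(eps (key o)) = [all fibres of key are even] = traPar (pairs of distinct occurrences with equal key).
 (2) Moebius inversion on the BOOLEAN lattice of sets of pairs: traPar R = sum_{L subset R} traMob L, and traMob L = 0 if some occurrence has no partner in L.
     Hence E word = sum_L traMob L * T L X over the sets of pairs L (equal digits) in which every occurrence has a partner.
 (3) T (insert p L) X = E_z T L (X * Lam p.1 z * Lam p.2 z): constraints may be added without destroying a uniform bound over G (redundant constraints are harmless).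
 (4) selection: a pair of L at minimal block distance; distance 0: (Hc); distance n+1: every interior block has an occurrence, its partner lies outside the arc: (Hd).
-/
import Mathlib

set_option autoImplicit false
set_option linter.unusedSectionVars false

namespace Claimed.Agent.R302

open Finset

/-- sign of a bit -/
def trSgn (b : Bool) : ℂ := if b then 1 else -1

theorem trSgn_mul_self (b : Bool) : trSgn b * trSgn b = 1 := by
  cases b <;> simp [trSgn]

theorem trSgn_not (b : Bool) : trSgn (!b) = -trSgn b := by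
  cases b <;> simp [trSgn]

theorem trSgn_pow_even (b : Bool) {k : ℕ} (hk : Even k) : trSgn b ^ k = 1 := by
  obtain ⟨j, rfl⟩ := hk
  rw [pow_add, ← mul_pow, trSgn_mul_self, one_pow]

theorem norm_trSgn (b : Bool) : ‖trSgn b‖ = 1 := by
  cases b <;> simp [trSgn]

section parity

variable {O X : Type*} [Fintype O] [Fintype X] [DecidableEq X]

/-- **Parity lemma**: expectation of a product of independent signs. -/
theorem tra_parity (key : O → X) :
    ∑ eps : X → Bool, ∏ o, trSgn (eps (key o)) =
      if ∀ x, Even (univ.filter fun o => key o = x).card then (Fintype.card (X → Bool) : ℂ) else 0 := by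
  classical
  split_ifs with h
  · have h1 : ∀ eps : X → Bool, ∏ o, trSgn (eps (key o)) = 1 := by
      intro eps
      rw [← Finset.prod_fiberwise univ key]
      refine Finset.prod_eq_one fun x _ => ?_
      rw [Finset.prod_congr rfl (g := fun _ => trSgn (eps x))]
      · rw [Finset.prod_const]
        exact trSgn_pow_even _ (h x)
      · intro o ho
        rw [(Finset.mem_filter.mp ho).2]
    simp [h1]
  · rw [not_forall] at h
    obtain ⟨x₀, hx₀⟩ := h
    let flip : (X → Bool) → (X → Bool) := fun eps => Function.update eps x₀ (!eps x₀)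
    have hinv : Function.Involutive flip := by
      intro eps
      simp [flip]
    have hneg : ∀ eps : X → Bool, ∏ o, trSgn (flip eps (key o)) = -∏ o, trSgn (eps (key o)) := by
      intro eps
      have h2 : ∀ o, trSgn (flip eps (key o)) =
          (if key o = x₀ then (-1 : ℂ) else 1) * trSgn (eps (key o)) := by
        intro o
        by_cases ho : key o = x₀
        · simp [flip, ho, trSgn_not]
        · simp [flip, ho]
      simp only [h2]
      rw [Finset.prod_mul_distrib, Finset.prod_ite, Finset.prod_const, Finset.prod_const_one, mul_one,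
        (Nat.not_even_iff_odd.mp hx₀).neg_one_pow, neg_one_mul]
    have h3 : ∑ eps : X → Bool, ∏ o, trSgn (eps (key o)) =
        -∑ eps : X → Bool, ∏ o, trSgn (eps (key o)) := by
      conv_lhs => rw [← Equiv.sum_comp hinv.toPerm]
      rw [← Finset.sum_neg_distrib]
      exact Finset.sum_congr rfl fun eps _ => hneg eps
    have h4 : (2 : ℂ) * ∑ eps : X → Bool, ∏ o, trSgn (eps (key o)) = 0 := by
      linear_combination h3
    simpa using h4

/-- two point version. -/
theorem tra_pair (x y : X) :
    ∑ z : X → Bool, trSgn (z x) * trSgn (z y) =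
      if x = y then (Fintype.card (X → Bool) : ℂ) else 0 := by
  classical
  have h := tra_parity (O := Bool) (fun b => if b then x else y)
  simp only [Fintype.prod_bool, if_true, Bool.false_eq_true, if_false] at h
  rw [h]
  by_cases hxy : x = y
  · subst hxy
    rw [if_pos rfl, if_pos]
    intro c
    by_cases hc : x = c
    · subst hc
      simp
    · simp [hc]
  · rw [if_neg hxy, if_neg]
    intro hcon
    have := hcon x
    have h5 : (univ.filter fun b : Bool => (if b then x else y) = x) = {true} := by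
      ext b
      cases b <;> simp [Ne.symm hxy]
    rw [h5] at this
    simp at this

end parity

section mobius

variable {α : Type*} [DecidableEq α]

/-- Moebius coefficients on the Boolean lattice of finite sets. -/
noncomputable def traMob (F : Finset α → ℂ) : Finset α → ℂ :=
  Finset.strongInduction fun L rec =>
    F L - ∑ L' ∈ L.ssubsets.attach, rec L'.1 (Finset.mem_ssubsets.mp L'.2)

theorem traMob_eq (F : Finset α → ℂ) (L : Finset α) :
    traMob F L = F L - ∑ L' ∈ L.ssubsets, traMob F L' := by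
  rw [traMob, Finset.strongInduction_eq, ← Finset.sum_attach L.ssubsets]

theorem traMob_sum (F : Finset α → ℂ) (R : Finset α) : ∑ L ∈ R.powerset, traMob F L = F R := by
  rw [← Finset.add_sum_erase R.powerset _ (Finset.mem_powerset_self R), traMob_eq F R]
  have : R.powerset.erase R = R.ssubsets := rfl
  rw [this]
  ring

theorem traMob_eq_zero (F : Finset α → ℂ) (L : Finset α) (h : ∀ L' ⊆ L, F L' = 0) :
    traMob F L = 0 := by
  induction L using Finset.strongInduction with
  | H L ih =>
    rw [traMob_eq, h L (Finset.Subset.refl L), zero_sub, neg_eq_zero]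
    refine Finset.sum_eq_zero fun L' hL' => ?_
    have hss := Finset.mem_ssubsets.mp hL'
    exact ih L' hss fun L'' hL'' => h L'' (hL''.trans hss.subset)

end mobius

/-- abstract system: for every occurrence a resolution of the identity by orthogonal idempotents of a
commutative algebra. -/
structure TraSys (R : Type*) [CommRing R] [Algebra ℂ R] (C : Type*) [Fintype C] [DecidableEq C]
    (O : Type*) where
  F : O → C → R
  F_sum : ∀ o, ∑ e, F o e = 1
  F_mul : ∀ o e e', F o e * F o e' = if e = e' then F o e else 0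

namespace TraSys

variable {R : Type*} [CommRing R] [Algebra ℂ R] {C : Type*} [Fintype C] [DecidableEq C]
  {O : Type*} [Fintype O] [DecidableEq O] (A : TraSys R C O)

/-- diagonal symmetry attached to a sign vector -/
def Lam (o : O) (z : C → Bool) : R := ∑ e, trSgn (z e) • A.F o e

/-- the joint idempotents -/
def P (a : O → C) : R := ∏ o, A.F o (a o)

theorem P_sum : ∑ a : O → C, A.P a = 1 := by
  have h := Finset.prod_univ_sum (fun _ : O => (univ : Finset C)) A.F
  rw [Fintype.piFinset_univ] at h
  unfold P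
  rw [← h]
  simp [A.F_sum]

theorem F_mul_P (o : O) (e : C) (a : O → C) :
    A.F o e * A.P a = if a o = e then A.P a else 0 := by
  unfold P
  rw [← Finset.mul_prod_erase univ (fun o => A.F o (a o)) (Finset.mem_univ o), ← mul_assoc, A.F_mul]
  by_cases h : a o = e
  · rw [if_pos h, if_pos h.symm, h]
  · rw [if_neg h, if_neg (Ne.symm h), zero_mul]

theorem Lam_mul_P (o : O) (z : C → Bool) (a : O → C) :
    A.Lam o z * A.P a = trSgn (z (a o)) • A.P a := by
  unfold Lam
  rw [Finset.sum_mul]
  simp only [smul_mul_assoc, A.F_mul_P]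
  rw [Finset.sum_eq_single (a o)]
  · rw [if_pos rfl]
  · intro e _ he
    rw [if_neg (Ne.symm he), smul_zero]
  · intro h
    exact (h (Finset.mem_univ _)).elim

/-- `D` acts on the joint idempotents by the scalars `d`. -/
def IsDiag (D : R) (d : (O → C) → ℂ) : Prop := ∀ a, D * A.P a = d a • A.P a

theorem isDiag_F (o : O) (e : C) : A.IsDiag (A.F o e) (fun a => if a o = e then 1 else 0) := by
  intro a
  rw [A.F_mul_P]
  by_cases h : a o = e <;> simp [h]

theorem isDiag_Lam (o : O) (z : C → Bool) : A.IsDiag (A.Lam o z) (fun a => trSgn (z (a o))) :=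
  fun a => A.Lam_mul_P o z a

theorem isDiag_one : A.IsDiag 1 (fun _ => 1) := fun a => by simp

variable {A}

theorem IsDiag.mul {D D' : R} {d d' : (O → C) → ℂ} (h : A.IsDiag D d) (h' : A.IsDiag D' d') :
    A.IsDiag (D * D') (fun a => d a * d' a) := by
  intro a
  rw [mul_assoc, h' a, mul_smul_comm, h a, smul_smul, mul_comm]

theorem isDiag_prod {κ : Type*} (s : Finset κ) (D : κ → R) (d : κ → (O → C) → ℂ)
    (h : ∀ k ∈ s, A.IsDiag (D k) (d k)) : A.IsDiag (∏ k ∈ s, D k) (fun a => ∏ k ∈ s, d k a) := by
  classical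
  induction s using Finset.induction_on with
  | empty => simpa using A.isDiag_one
  | insert k s hk ih =>
    simp only [Finset.prod_insert hk]
    exact (h k (Finset.mem_insert_self k s)).mul (ih fun j hj => h j (Finset.mem_insert_of_mem hj))

/-- expansion of a functional along the joint idempotents. -/
theorem IsDiag.psi {D : R} {d : (O → C) → ℂ} (h : A.IsDiag D d) (ψ : R →ₗ[ℂ] ℂ) (X : R) :
    ψ (X * D) = ∑ a, d a * ψ (X * A.P a) := by
  calc ψ (X * D) = ψ (∑ a, d a • (X * A.P a)) := by
        congr 1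
        calc X * D = X * (D * ∑ a, A.P a) := by rw [A.P_sum, mul_one]
          _ = ∑ a, d a • (X * A.P a) := by
              rw [Finset.mul_sum, Finset.mul_sum]
              refine Finset.sum_congr rfl fun a _ => ?_
              rw [h a, mul_smul_comm]
    _ = _ := by
        rw [map_sum]
        refine Finset.sum_congr rfl fun a _ => ?_
        rw [map_smul, smul_eq_mul]

variable (A)

/-- the constrained sums. -/
def T (ψ : R →ₗ[ℂ] ℂ) (L : Finset (O × O)) (X : R) : ℂ :=
  ∑ a : O → C, if ∀ p ∈ L, a p.1 = a p.2 then ψ (X * A.P a) else 0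

theorem T_congr (ψ : R →ₗ[ℂ] ℂ) {L L' : Finset (O × O)} (X : R)
    (h : ∀ a : O → C, (∀ p ∈ L, a p.1 = a p.2) ↔ ∀ p ∈ L', a p.1 = a p.2) :
    A.T ψ L X = A.T ψ L' X := by
  unfold T
  refine Finset.sum_congr rfl fun a _ => ?_
  simp only [h a]

/-- encoding of one constraint by an averaged sign vector. -/
theorem T_insert (ψ : R →ₗ[ℂ] ℂ) (p : O × O) (L : Finset (O × O)) (X : R) :
    A.T ψ (insert p L) X =
      (∑ z : C → Bool, A.T ψ L (X * A.Lam p.1 z * A.Lam p.2 z)) / (Fintype.card (C → Bool) : ℂ) := by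
  have hcard : (Fintype.card (C → Bool) : ℂ) ≠ 0 := by
    exact_mod_cast Fintype.card_ne_zero
  rw [eq_div_iff hcard]
  unfold T
  rw [Finset.sum_comm, Finset.sum_mul]
  refine Finset.sum_congr rfl fun a _ => ?_
  have h1 : ∀ z : C → Bool, ψ (X * A.Lam p.1 z * A.Lam p.2 z * A.P a) =
      (trSgn (z (a p.1)) * trSgn (z (a p.2))) * ψ (X * A.P a) := by
    intro z
    have : X * A.Lam p.1 z * A.Lam p.2 z * A.P a =
        (trSgn (z (a p.1)) * trSgn (z (a p.2))) • (X * A.P a) := by
      rw [mul_assoc, A.Lam_mul_P, mul_smul_comm, mul_assoc, A.Lam_mul_P, mul_smul_comm, smul_smul,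
        mul_comm (trSgn (z (a p.2)))]
    rw [this, map_smul, smul_eq_mul]
  simp only [h1]
  by_cases hL : ∀ q ∈ L, a q.1 = a q.2
  · have e1 : (∀ q ∈ insert p L, a q.1 = a q.2) ↔ a p.1 = a p.2 := by
      rw [Finset.forall_mem_insert]
      exact and_iff_left hL
    rw [if_congr e1 rfl rfl]
    simp only [if_pos hL]
    rw [← Finset.sum_mul, tra_pair]
    by_cases hp : a p.1 = a p.2
    · rw [if_pos hp, if_pos hp, mul_comm]
    · rw [if_neg hp, if_neg hp, zero_mul, zero_mul]
  · have : ¬ ∀ q ∈ insert p L, a q.1 = a q.2 := fun h =>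
      hL fun q hq => h q (Finset.mem_insert_of_mem hq)
    rw [if_neg this]
    simp only [if_neg hL]
    simp

/-- adding constraints does not destroy a uniform bound. -/
theorem norm_T_union_le (ψ : R →ₗ[ℂ] ℂ) (G : Set R) (hG : ∀ X ∈ G, ∀ o z, X * A.Lam o z ∈ G)
    {B : ℝ} (L₀ : Finset (O × O)) (h₀ : ∀ X ∈ G, ‖A.T ψ L₀ X‖ ≤ B) (L : Finset (O × O)) :
    ∀ X ∈ G, ‖A.T ψ (L ∪ L₀) X‖ ≤ B := by
  induction L using Finset.induction_on with
  | empty => simpa using h₀
  | insert p L _ ih =>
    intro X hX
    have hcard : (0 : ℝ) < Fintype.card (C → Bool) := by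
      exact_mod_cast Fintype.card_pos
    rw [Finset.insert_union, A.T_insert, norm_div, Complex.norm_natCast, div_le_iff₀ hcard]
    calc ‖∑ z : C → Bool, A.T ψ (L ∪ L₀) (X * A.Lam p.1 z * A.Lam p.2 z)‖
        ≤ ∑ z : C → Bool, ‖A.T ψ (L ∪ L₀) (X * A.Lam p.1 z * A.Lam p.2 z)‖ := norm_sum_le _ _
      _ ≤ ∑ _z : C → Bool, B :=
          Finset.sum_le_sum fun z _ => ih _ (hG _ (hG _ hX _ _) _ _)
      _ = B * Fintype.card (C → Bool) := by
          rw [Finset.sum_const, Finset.card_univ, nsmul_eq_mul, mul_comm]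

/-- one retained pair and `n` encoded pairs. -/
theorem T_arc (ψ : R →ₗ[ℂ] ℂ) (X : R) (n : ℕ) (o0 ol : O) (oi oi' : Fin n → O) :
    A.T ψ (insert (o0, ol) (univ.image fun i => (oi i, oi' i))) X =
      (∑ z : Fin n → C → Bool, ∑ e, ψ (X * A.F o0 e * A.F ol e *
        ∏ i, (A.Lam (oi i) (z i) * A.Lam (oi' i) (z i)))) / (Fintype.card (Fin n → C → Bool) : ℂ) := by
  have hcard : (Fintype.card (Fin n → C → Bool) : ℂ) ≠ 0 := by
    exact_mod_cast Fintype.card_ne_zero
  rw [eq_div_iff hcard]
  have h1 : ∀ (z : Fin n → C → Bool) (e : C), ψ (X * A.F o0 e * A.F ol e *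
      ∏ i, (A.Lam (oi i) (z i) * A.Lam (oi' i) (z i))) =
      ∑ a : O → C, ((if a o0 = e then 1 else 0) * (if a ol = e then 1 else 0) *
        ∏ i, (trSgn (z i (a (oi i))) * trSgn (z i (a (oi' i))))) * ψ (X * A.P a) := by
    intro z e
    have hd := ((A.isDiag_F o0 e).mul (A.isDiag_F ol e)).mul
      (isDiag_prod (A := A) univ (fun i => A.Lam (oi i) (z i) * A.Lam (oi' i) (z i))
        (fun i a => trSgn (z i (a (oi i))) * trSgn (z i (a (oi' i))))
        (fun i _ => (A.isDiag_Lam (oi i) (z i)).mul (A.isDiag_Lam (oi' i) (z i))))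
    rw [← hd.psi ψ X]
    congr 1
    ring
  simp only [h1]
  unfold T
  rw [Finset.sum_mul]
  have h2 : ∑ z : Fin n → C → Bool, ∑ e : C, ∑ a : O → C,
      ((if a o0 = e then 1 else 0) * (if a ol = e then 1 else 0) *
        ∏ i, (trSgn (z i (a (oi i))) * trSgn (z i (a (oi' i))))) * ψ (X * A.P a) =
      ∑ a : O → C, (∑ e : C, (if a o0 = e then (1 : ℂ) else 0) * (if a ol = e then 1 else 0)) *
        (∑ z : Fin n → C → Bool, ∏ i, (trSgn (z i (a (oi i))) * trSgn (z i (a (oi' i))))) *
          ψ (X * A.P a) := by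
    calc _ = ∑ z : Fin n → C → Bool, ∑ a : O → C, ∑ e : C,
          ((if a o0 = e then 1 else 0) * (if a ol = e then 1 else 0) *
            ∏ i, (trSgn (z i (a (oi i))) * trSgn (z i (a (oi' i))))) * ψ (X * A.P a) :=
          Finset.sum_congr rfl fun z _ => Finset.sum_comm
      _ = ∑ a : O → C, ∑ z : Fin n → C → Bool, ∑ e : C,
          ((if a o0 = e then 1 else 0) * (if a ol = e then 1 else 0) *
            ∏ i, (trSgn (z i (a (oi i))) * trSgn (z i (a (oi' i))))) * ψ (X * A.P a) :=
          Finset.sum_comm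
      _ = _ := by
          refine Finset.sum_congr rfl fun a _ => ?_
          rw [Finset.sum_mul_sum, Finset.sum_mul, Finset.sum_comm]
          refine Finset.sum_congr rfl fun e _ => ?_
          rw [Finset.sum_mul]
  rw [h2]
  refine Finset.sum_congr rfl fun a _ => ?_
  have h3 : ∑ e : C, (if a o0 = e then (1 : ℂ) else 0) * (if a ol = e then 1 else 0) =
      if a o0 = a ol then 1 else 0 := by
    rw [Finset.sum_eq_single (a o0)]
    · by_cases h : a o0 = a ol
      · simp [h]
      · simp [h, Ne.symm h]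
    · intro e _ he
      rw [if_neg (Ne.symm he), zero_mul]
    · intro h
      exact (h (Finset.mem_univ _)).elim
  have h4 : ∑ z : Fin n → C → Bool, ∏ i, (trSgn (z i (a (oi i))) * trSgn (z i (a (oi' i)))) =
      if ∀ i, a (oi i) = a (oi' i) then (Fintype.card (Fin n → C → Bool) : ℂ) else 0 := by
    have h5 := Finset.prod_univ_sum (fun _ : Fin n => (univ : Finset (C → Bool)))
      (fun i w => trSgn (w (a (oi i))) * trSgn (w (a (oi' i))))
    rw [Fintype.piFinset_univ] at h5
    rw [← h5]
    simp only [tra_pair]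
    by_cases h : ∀ i, a (oi i) = a (oi' i)
    · rw [if_pos h]
      simp only [h, if_true]
      rw [Finset.prod_const, Finset.card_univ, Fintype.card_fin, Fintype.card_pi_const]
      push_cast
      rfl
    · rw [if_neg h]
      rw [not_forall] at h
      obtain ⟨i, hi⟩ := h
      exact Finset.prod_eq_zero (Finset.mem_univ i) (if_neg hi)
  rw [h3, h4]
  have e1 : (∀ p ∈ insert (o0, ol) (univ.image fun i => (oi i, oi' i)), a p.1 = a p.2) ↔
      (a o0 = a ol ∧ ∀ i, a (oi i) = a (oi' i)) := by
    rw [Finset.forall_mem_insert]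
    simp
  rw [if_congr e1 rfl rfl]
  by_cases ha : a o0 = a ol
  · by_cases hb : ∀ i, a (oi i) = a (oi' i)
    · rw [if_pos ⟨ha, hb⟩, if_pos ha, if_pos hb]
      ring
    · rw [if_neg (fun h => hb h.2), if_neg hb]
      ring
  · rw [if_neg (fun h => ha h.1), if_neg ha]
    ring

/-- one retained pair. -/
theorem T_pair (ψ : R →ₗ[ℂ] ℂ) (X : R) (o o' : O) :
    A.T ψ {(o, o')} X = ∑ e, ψ (X * (A.F o e * A.F o' e)) := by
  have h := A.T_arc ψ X 0 o o' Fin.elim0 Fin.elim0
  simp only [Finset.univ_eq_empty, Finset.image_empty, Finset.prod_empty, mul_one] at h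
  rw [show ({(o, o')} : Finset (O × O)) = insert (o, o') ∅ from rfl, h]
  simp [mul_assoc]

end TraSys

section relation

variable {O : Type*} [Fintype O] [DecidableEq O]

/-- off-diagonal pairs -/
def traU (O : Type*) [Fintype O] [DecidableEq O] : Finset (O × O) := univ.filter fun p => p.1 ≠ p.2

/-- parity function on sets of pairs -/
def traPar (R : Finset (O × O)) : ℂ :=
  if ∀ o, Odd (univ.filter fun o' => (o, o') ∈ R).card then 1 else 0

/-- the pairs of distinct occurrences with equal keys -/
def traRel {X : Type*} [DecidableEq X] (key : O → X) : Finset (O × O) :=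
  univ.filter fun p => p.1 ≠ p.2 ∧ key p.1 = key p.2

theorem traRel_subset {X : Type*} [DecidableEq X] (key : O → X) : traRel key ⊆ traU O := by
  intro p hp
  simp only [traRel, traU, Finset.mem_filter, Finset.mem_univ, true_and] at hp ⊢
  exact hp.1

theorem tra_even_iff {X : Type*} [DecidableEq X] (key : O → X) :
    (∀ x, Even (univ.filter fun o => key o = x).card) ↔
      ∀ o, Odd (univ.filter fun o' => (o, o') ∈ traRel key).card := by
  have h1 : ∀ o, (univ.filter fun o' => (o, o') ∈ traRel key) =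
      (univ.filter fun o' => key o' = key o).erase o := by
    intro o
    ext o'
    simp only [traRel, Finset.mem_filter, Finset.mem_univ, true_and, Finset.mem_erase]
    constructor
    · rintro ⟨h, h'⟩
      exact ⟨Ne.symm h, h'.symm⟩
    · rintro ⟨h, h'⟩
      exact ⟨Ne.symm h, h'.symm⟩
  have h2 : ∀ o, o ∈ univ.filter fun o' => key o' = key o := by
    intro o
    simp
  constructor
  · intro h o
    rw [h1, Finset.card_erase_of_mem (h2 o)]
    have hpos : 0 < (univ.filter fun o' => key o' = key o).card := Finset.card_pos.mpr ⟨o, h2 o⟩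
    have := h (key o)
    exact Nat.Even.sub_odd hpos this odd_one
  · intro h x
    by_cases hx : ∃ o, key o = x
    · obtain ⟨o, rfl⟩ := hx
      have := h o
      rw [h1, Finset.card_erase_of_mem (h2 o)] at this
      have hpos : 0 < (univ.filter fun o' => key o' = key o).card := Finset.card_pos.mpr ⟨o, h2 o⟩
      have h3 : (univ.filter fun o' => key o' = key o).card =
          ((univ.filter fun o' => key o' = key o).card - 1) + 1 := by omega
      rw [h3]
      exact this.add_one
    · have : (univ.filter fun o => key o = x) = ∅ := by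
        ext o
        simp only [Finset.mem_filter, Finset.mem_univ, true_and, Finset.notMem_empty, iff_false]
        exact fun h => hx ⟨o, h⟩
      rw [this]
      simp

theorem traMob_traPar_eq_zero (L : Finset (O × O)) (o : O) (h : ∀ o', (o, o') ∉ L) :
    traMob traPar L = 0 := by
  apply traMob_eq_zero
  intro L' hL'
  unfold traPar
  rw [if_neg]
  intro hcon
  have h1 := hcon o
  have h2 : (univ.filter fun o' => (o, o') ∈ L') = ∅ := by
    ext o'
    simp only [Finset.mem_filter, Finset.mem_univ, true_and, Finset.notMem_empty, iff_false]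
    exact fun hm => h o' (hL' hm)
  rw [h2] at h1
  simp at h1

end relation

namespace TraSys

variable {R : Type*} [CommRing R] [Algebra ℂ R] {C : Type*} [Fintype C] [DecidableEq C]
  {O : Type*} [Fintype O] [DecidableEq O] (A : TraSys R C O) {D : Type*} [Fintype D] [DecidableEq D]

theorem sign_avg (dig : O → D) (a : O → C) :
    ∑ eps : C → D → Bool, ∏ o, trSgn (eps (a o) (dig o)) =
      (Fintype.card (C → D → Bool) : ℂ) * traPar (traRel fun o => (a o, dig o)) := by
  have h1 := tra_parity (fun o => (a o, dig o))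
  rw [← (Equiv.curry C D Bool).sum_comp]
  simp only [Equiv.curry_apply, Function.curry_apply]
  rw [h1, Fintype.card_congr (Equiv.curry C D Bool)]
  unfold traPar
  by_cases h : ∀ x, Even (univ.filter fun o => (a o, dig o) = x).card
  · rw [if_pos h, if_pos ((tra_even_iff _).mp h), mul_one]
  · rw [if_neg h, if_neg (fun h' => h ((tra_even_iff _).mpr h')), mul_zero]

/-- the expectation of the random word as a combination of constrained sums. -/
theorem avg_eq (ψ : R →ₗ[ℂ] ℂ) (X : R) (dig : O → D) :
    (∑ eps : C → D → Bool, ψ (X * ∏ o, A.Lam o (fun e => eps e (dig o)))) /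
        (Fintype.card (C → D → Bool) : ℂ) =
      ∑ L ∈ (traU O).powerset,
        traMob traPar L * (if ∀ p ∈ L, dig p.1 = dig p.2 then A.T ψ L X else 0) := by
  have hcard : (Fintype.card (C → D → Bool) : ℂ) ≠ 0 := by
    exact_mod_cast Fintype.card_ne_zero
  rw [div_eq_iff hcard]
  have h1 : ∀ eps : C → D → Bool, ψ (X * ∏ o, A.Lam o (fun e => eps e (dig o))) =
      ∑ a : O → C, (∏ o, trSgn (eps (a o) (dig o))) * ψ (X * A.P a) := by
    intro eps
    exact (isDiag_prod (A := A) univ (fun o => A.Lam o (fun e => eps e (dig o)))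
      (fun o a => trSgn (eps (a o) (dig o))) (fun o _ => A.isDiag_Lam o _)).psi ψ X
  simp only [h1]
  rw [Finset.sum_comm]
  simp only [← Finset.sum_mul, sign_avg]
  have h3 : ∀ a : O → C, traPar (traRel fun o => (a o, dig o)) =
      ∑ L ∈ (traU O).powerset, if (∀ p ∈ L, dig p.1 = dig p.2) ∧ (∀ p ∈ L, a p.1 = a p.2) then
        traMob traPar L else 0 := by
    intro a
    rw [← traMob_sum traPar, ← Finset.sum_filter]
    refine Finset.sum_congr ?_ fun _ _ => rfl
    ext L
    simp only [Finset.mem_powerset, Finset.mem_filter]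
    constructor
    · intro hL
      refine ⟨hL.trans (traRel_subset _), fun p hp => ?_, fun p hp => ?_⟩
      · have := hL hp
        simp only [traRel, Finset.mem_filter, Finset.mem_univ, true_and, Prod.mk.injEq] at this
        exact this.2.2
      · have := hL hp
        simp only [traRel, Finset.mem_filter, Finset.mem_univ, true_and, Prod.mk.injEq] at this
        exact this.2.1
    · rintro ⟨hU, hd, ha⟩ p hp
      have := hU hp
      simp only [traU, Finset.mem_filter, Finset.mem_univ, true_and] at this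
      simp only [traRel, Finset.mem_filter, Finset.mem_univ, true_and, Prod.mk.injEq]
      exact ⟨this, ha p hp, hd p hp⟩
  simp only [h3]
  rw [Finset.sum_mul]
  simp only [Finset.mul_sum, Finset.sum_mul]
  rw [Finset.sum_comm]
  refine Finset.sum_congr rfl fun L _ => ?_
  by_cases hd : ∀ p ∈ L, dig p.1 = dig p.2
  · rw [if_pos hd]
    unfold T
    rw [Finset.mul_sum, Finset.sum_mul]
    refine Finset.sum_congr rfl fun a _ => ?_
    by_cases ha : ∀ p ∈ L, a p.1 = a p.2
    · rw [if_pos ⟨hd, ha⟩, if_pos ha]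
      ring
    · rw [if_neg (fun h => ha h.2), if_neg ha]
      ring
  · rw [if_neg hd]
    simp only [mul_zero, zero_mul]
    refine Finset.sum_eq_zero fun a _ => ?_
    rw [if_neg (fun h => hd h.1)]
    ring

/-- abstract form of (Hc) -/
def HcA (ψ : R →ₗ[ℂ] ℂ) (b : O → ℕ) (dig : O → D) (G : Set R) (B : ℝ) : Prop :=
  ∀ X ∈ G, ∀ o o' : O, o ≠ o' → b o = b o' → dig o = dig o' →
    ‖∑ e, ψ (X * (A.F o e * A.F o' e))‖ ≤ B

/-- abstract form of (Hd) -/
def HdA (ψ : R →ₗ[ℂ] ℂ) (b : O → ℕ) (G : Set R) (B : ℝ) : Prop :=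
  ∀ X ∈ G, ∀ (n s : ℕ) (o0 ol : O) (oi oi' : Fin n → O),
    b o0 = s → b ol = s + n + 1 → (∀ i, b (oi i) = s + i + 1) →
    (∀ i, b (oi' i) < s ∨ s + n + 1 < b (oi' i)) →
    ‖(∑ z : Fin n → C → Bool, ∑ e, ψ (X * A.F o0 e * A.F ol e *
        ∏ i, (A.Lam (oi i) (z i) * A.Lam (oi' i) (z i)))) / (Fintype.card (Fin n → C → Bool) : ℂ)‖ ≤ B

/-- the arc case of the selection. -/
theorem norm_T_le_of_arc (ψ : R →ₗ[ℂ] ℂ) (b : O → ℕ) (G : Set R) {B : ℝ}
    (hG : ∀ X ∈ G, ∀ o z, X * A.Lam o z ∈ G) (hd : A.HdA ψ b G B) {m : ℕ} (hb : ∀ o, b o < m)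
    (hsurj : ∀ k, k < m → ∃ o, b o = k) (L : Finset (O × O)) (hcov : ∀ o, ∃ o', (o, o') ∈ L)
    (n : ℕ) (hmin : ∀ p ∈ L, n + 1 ≤ Nat.dist (b p.1) (b p.2)) (o0 ol : O)
    (hmem : (o0, ol) ∈ L ∨ (ol, o0) ∈ L) (hdist : b ol = b o0 + n + 1) :
    ∀ X ∈ G, ‖A.T ψ L X‖ ≤ B := by
  have h1 : ∀ i : Fin n, ∃ o, b o = b o0 + i + 1 := by
    intro i
    apply hsurj
    have := hb ol
    have := i.2
    omega
  choose oi hoi using h1
  choose mate hmate using hcov
  let oi' : Fin n → O := fun i => mate (oi i)
  have hout : ∀ i, b (oi' i) < b o0 ∨ b o0 + n + 1 < b (oi' i) := by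
    intro i
    have h2 := hmin _ (hmate (oi i))
    simp only [Nat.dist] at h2
    have h3 := hoi i
    have h4 := i.2
    simp only [oi']
    omega
  set L₀ : Finset (O × O) := insert (o0, ol) (univ.image fun i => (oi i, oi' i)) with hL₀
  have h₀ : ∀ X ∈ G, ‖A.T ψ L₀ X‖ ≤ B := by
    intro X hX
    rw [hL₀, A.T_arc]
    exact hd X hX n (b o0) o0 ol oi oi' rfl hdist hoi hout
  intro X hX
  have hcongr : A.T ψ L X = A.T ψ (L ∪ L₀) X := by
    apply A.T_congr
    intro a
    constructor
    · intro h p hp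
      rcases Finset.mem_union.mp hp with hp | hp
      · exact h p hp
      · rw [hL₀, Finset.mem_insert] at hp
        rcases hp with rfl | hp
        · rcases hmem with hm | hm
          · exact h _ hm
          · exact (h _ hm).symm
        · obtain ⟨i, -, rfl⟩ := Finset.mem_image.mp hp
          exact h _ (hmate (oi i))
    · intro h p hp
      exact h p (Finset.mem_union_left _ hp)
  rw [hcongr]
  exact A.norm_T_union_le ψ G hG L₀ h₀ L X hX

/-- **Selection**: every admissible constrained sum is bounded. -/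
theorem norm_T_le (ψ : R →ₗ[ℂ] ℂ) (b : O → ℕ) (dig : O → D) (G : Set R) {B : ℝ}
    (hG : ∀ X ∈ G, ∀ o z, X * A.Lam o z ∈ G) (hc : A.HcA ψ b dig G B) (hd : A.HdA ψ b G B)
    {m : ℕ} (hm : 0 < m) (hb : ∀ o, b o < m) (hsurj : ∀ k, k < m → ∃ o, b o = k)
    (L : Finset (O × O)) (hU : L ⊆ traU O) (hdig : ∀ p ∈ L, dig p.1 = dig p.2)
    (hcov : ∀ o, ∃ o', (o, o') ∈ L) : ∀ X ∈ G, ‖A.T ψ L X‖ ≤ B := by
  obtain ⟨o₁, -⟩ := hsurj 0 hm
  obtain ⟨o₂, ho₂⟩ := hcov o₁
  obtain ⟨p₀, hp₀, hmin⟩ := Finset.exists_min_image L (fun p => Nat.dist (b p.1) (b p.2)) ⟨_, ho₂⟩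
  have hne : p₀.1 ≠ p₀.2 := by
    have := hU hp₀
    simpa [traU] using this
  rcases Nat.eq_zero_or_pos (Nat.dist (b p₀.1) (b p₀.2)) with h0 | hpos
  · -- two related occurrences in one block
    have hbb : b p₀.1 = b p₀.2 := Nat.eq_of_dist_eq_zero h0
    have h₀ : ∀ X ∈ G, ‖A.T ψ {p₀} X‖ ≤ B := by
      intro X hX
      have : ({p₀} : Finset (O × O)) = {(p₀.1, p₀.2)} := rfl
      rw [this, A.T_pair]
      exact hc X hX _ _ hne hbb (hdig p₀ hp₀)
    intro X hX
    have hL : L = L ∪ {p₀} := by
      rw [Finset.union_singleton, Finset.insert_eq_self.mpr hp₀]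
    rw [hL]
    exact A.norm_T_union_le ψ G hG _ h₀ L X hX
  · obtain ⟨n, hn⟩ : ∃ n, Nat.dist (b p₀.1) (b p₀.2) = n + 1 := ⟨_, (Nat.succ_pred_eq_of_pos hpos).symm⟩
    have hmin' : ∀ p ∈ L, n + 1 ≤ Nat.dist (b p.1) (b p.2) := fun p hp => hn ▸ hmin p hp
    simp only [Nat.dist] at hn
    rcases lt_or_ge (b p₀.1) (b p₀.2) with hlt | hge
    · exact A.norm_T_le_of_arc ψ b G hG hd hb hsurj L hcov n hmin' p₀.1 p₀.2 (Or.inl hp₀) (by omega)
    · exact A.norm_T_le_of_arc ψ b G hG hd hb hsurj L hcov n hmin' p₀.2 p₀.1 (Or.inr hp₀) (by omega)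

/-- the constant of the decoupling theorem. -/
noncomputable def _root_.Claimed.Agent.R302.traK (O : Type*) [Fintype O] [DecidableEq O] : ℝ :=
  ∑ L ∈ (traU O).powerset, ‖traMob traPar L‖

/-- **Abstract decoupling theorem**, commutative algebra form. -/
theorem norm_avg_le (ψ : R →ₗ[ℂ] ℂ) (b : O → ℕ) (dig : O → D) (G : Set R) {B : ℝ} (hB : 0 ≤ B)
    (hG : ∀ X ∈ G, ∀ o z, X * A.Lam o z ∈ G) (hc : A.HcA ψ b dig G B) (hd : A.HdA ψ b G B)
    {m : ℕ} (hm : 0 < m) (hb : ∀ o, b o < m) (hsurj : ∀ k, k < m → ∃ o, b o = k) (X : R)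
    (hX : X ∈ G) :
    ‖(∑ eps : C → D → Bool, ψ (X * ∏ o, A.Lam o (fun e => eps e (dig o)))) /
        (Fintype.card (C → D → Bool) : ℂ)‖ ≤ traK O * B := by
  rw [A.avg_eq, traK, Finset.sum_mul]
  refine (norm_sum_le _ _).trans (Finset.sum_le_sum fun L hL => ?_)
  rw [norm_mul]
  by_cases hcov : ∀ o, ∃ o', (o, o') ∈ L
  · apply mul_le_mul_of_nonneg_left _ (norm_nonneg _)
    by_cases hdig : ∀ p ∈ L, dig p.1 = dig p.2
    · rw [if_pos hdig]
      exact A.norm_T_le ψ b dig G hG hc hd hm hb hsurj L (Finset.mem_powerset.mp hL) hdig hcov X hX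
    · rw [if_neg hdig, norm_zero]
      exact hB
  · rw [not_forall] at hcov
    obtain ⟨o, ho⟩ := hcov
    rw [traMob_traPar_eq_zero L o (fun o' h => ho ⟨o', h⟩)]
    simp

end TraSys

end Claimed.Agent.R302
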