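/-
R302 / TR / Abs : the COMBINATORIAL half of the vanishing theorem TR2, in an abstract commutative setting.   Owner: helper100; proved by helper255.

 AA commutative algebra ("A"), C finite type ("cells of the partition"), O finite type ("occurrences"), m blocks, t digits.
 E o : C -> AA orthogonal idempotents with sum 1 ("v_o e v_o*").   Lam o z = sum_e (+-1) E o e  for a sign vector z : C -> Bool.
 word eps = Psi (h |-> c h * prod_{o in block h} Lam o (eps . (dig o))),   eps : C -> Fin t -> Bool  iid signs.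
 CLAIM: |E_eps word| <= K * B, K depending only on O, if B bounds the two kinds of "retained" sums (Hc), (Hd).
 PROOF.  Pass to the tensor power algebra R = AA^(tensor m) (commutative), psi = lift Psi, F o e = 1 (x) .. E o e (in slot blk o) .. (x) 1, so that
 Psi (h |-> V h * at' b x h) = psi (tprod V * single b x); then apply TraSys.norm_avg_le of TR/AbsA.lean (proof sketch in its header).
-/
import Claimed.Agent.R302.TR.AbsA

set_option autoImplicit false
set_option linter.unusedSectionVars false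

namespace Claimed.Agent.R302

open Finset
open scoped TensorProduct

universe u v

/-- the abstract system -/
structure TrSys (AA : Type u) [CommRing AA] [Algebra ℂ AA] (C : Type v) [Fintype C] [DecidableEq C]
    (O : Type) (m t : ℕ) where
  blk : O → Fin m
  dig : O → Fin t
  E : O → C → AA
  E_sum : ∀ o, ∑ e, E o e = 1
  E_mul : ∀ o e e', E o e * E o e' = if e = e' then E o e else 0
  c : Fin m → AA
  Psi : MultilinearMap ℂ (fun _ : Fin m => AA) ℂ

variable {AA : Type u} [CommRing AA] [Algebra ℂ AA] {C : Type v} [Fintype C] [DecidableEq C]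
  {O : Type} [Fintype O] [DecidableEq O] {m t : ℕ}

namespace TrSys

variable (T : TrSys AA C O m t)

/-- diagonal symmetry attached to a sign vector -/
def Lam (o : O) (z : C → Bool) : AA := ∑ e, trSgn (z e) • T.E o e

/-- the random word -/
def word (eps : C → Fin t → Bool) : ℂ :=
  T.Psi fun h => T.c h * ∏ o ∈ univ.filter (fun o => T.blk o = h), T.Lam o (fun e => eps e (T.dig o))

/-- its expectation -/
noncomputable def avg : ℂ := (∑ eps : C → Fin t → Bool, T.word eps) / (Fintype.card (C → Fin t → Bool) : ℂ)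

/-- factor `x` inserted in block `h'` -/
def at' (h' : Fin m) (x : AA) (h : Fin m) : AA := if h' = h then x else 1

open PiTensorProduct in
/-- the system in the tensor power algebra. -/
noncomputable def toTra : TraSys (⨂[ℂ] (_ : Fin m), AA) C O where
  F o e := singleAlgHom (T.blk o) (T.E o e)
  F_sum o := by rw [← map_sum, T.E_sum, map_one]
  F_mul o e e' := by
    rw [← map_mul, T.E_mul]
    split_ifs
    · rfl
    · exact map_zero _

theorem at'_eq (b : Fin m) (x : AA) : (at' b x : Fin m → AA) = Pi.mulSingle b x := by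
  funext h
  rw [at', Pi.mulSingle_apply]
  by_cases hb : b = h
  · rw [if_pos hb, if_pos hb.symm]
  · rw [if_neg hb, if_neg (Ne.symm hb)]

open PiTensorProduct in
theorem tprod_at' (b : Fin m) (x : AA) :
    tprod ℂ (at' b x : Fin m → AA) = singleAlgHom (R := ℂ) (A := fun _ : Fin m => AA) b x := by
  rw [at'_eq, singleAlgHom_apply]
  rfl

open PiTensorProduct in
theorem toTra_Lam (o : O) (z : C → Bool) :
    T.toTra.Lam o z = tprod ℂ (at' (T.blk o) (T.Lam o z) : Fin m → AA) := by
  rw [tprod_at', TraSys.Lam, Lam, map_sum]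
  refine Finset.sum_congr rfl fun e _ => ?_
  rw [map_smul]
  rfl

open PiTensorProduct in
theorem toTra_F (o : O) (e : C) :
    T.toTra.F o e = tprod ℂ (at' (T.blk o) (T.E o e) : Fin m → AA) := by
  rw [tprod_at']
  rfl

/-- (Hc): retained pair in one block -/
def Hc (G : Set (Fin m → AA)) (B : ℝ) : Prop :=
  ∀ V ∈ G, ∀ o o' : O, o ≠ o' → T.blk o = T.blk o' → T.dig o = T.dig o' →
    ‖∑ e, T.Psi fun h => V h * at' (T.blk o) (T.E o e * T.E o' e) h‖ ≤ B

/-- (Hd): retained pair `o0`, `ol` at the ends of an arc of blocks `s, .., s+n+1`; in the interior block `s+i+1` the occurrence `oi i` carries the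
sign vector `z i`, which is shared with its mate `oi' i` sitting outside the arc; the `z i` are averaged. -/
def Hd (G : Set (Fin m → AA)) (B : ℝ) : Prop :=
  ∀ V ∈ G, ∀ (n s : ℕ) (o0 ol : O) (oi oi' : Fin n → O),
    (T.blk o0 : ℕ) = s → (T.blk ol : ℕ) = s + n + 1 → (∀ i, (T.blk (oi i) : ℕ) = s + i + 1) →
    (∀ i, (T.blk (oi' i) : ℕ) < s ∨ s + n + 1 < (T.blk (oi' i) : ℕ)) →
    ‖(∑ z : Fin n → C → Bool, ∑ e, T.Psi fun h =>
        V h * at' (T.blk o0) (T.E o0 e) h * at' (T.blk ol) (T.E ol e) h *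
          ∏ i, (at' (T.blk (oi i)) (T.Lam (oi i) (z i)) h * at' (T.blk (oi' i)) (T.Lam (oi' i) (z i)) h)) /
      (Fintype.card (Fin n → C → Bool) : ℂ)‖ ≤ B

open PiTensorProduct in
theorem word_eq (eps : C → Fin t → Bool) :
    T.word eps = lift T.Psi (tprod ℂ T.c * ∏ o, T.toTra.Lam o (fun e => eps e (T.dig o))) := by
  simp only [toTra_Lam]
  rw [← tprod_prod, tprod_mul_tprod, lift.tprod, word]
  congr 1
  funext h
  rw [Pi.mul_apply, Finset.prod_apply]
  congr 1
  simp only [at']
  rw [Finset.prod_filter]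

open PiTensorProduct in
theorem toTra_HcA {G : Set (Fin m → AA)} {B : ℝ} (hc : T.Hc G B) :
    T.toTra.HcA (lift T.Psi) (fun o => (T.blk o : ℕ)) T.dig (tprod ℂ '' G) B := by
  rintro X ⟨V, hV, rfl⟩ o o' hne hb hdig
  have hb' : T.blk o = T.blk o' := Fin.ext hb
  have h := hc V hV o o' hne hb' hdig
  have e1 : ∀ e, lift T.Psi (tprod ℂ V * (T.toTra.F o e * T.toTra.F o' e)) =
      T.Psi fun h => V h * at' (T.blk o) (T.E o e * T.E o' e) h := by
    intro e
    rw [toTra_F, toTra_F, ← hb', tprod_mul_tprod, tprod_mul_tprod, lift.tprod]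
    congr 1
    funext h
    simp only [Pi.mul_apply, at']
    split_ifs <;> simp
  simp only [e1]
  exact h

open PiTensorProduct in
theorem toTra_HdA {G : Set (Fin m → AA)} {B : ℝ} (hd : T.Hd G B) :
    T.toTra.HdA (lift T.Psi) (fun o => (T.blk o : ℕ)) (tprod ℂ '' G) B := by
  rintro X ⟨V, hV, rfl⟩ n s o0 ol oi oi' h0 hl hi hi'
  have h := hd V hV n s o0 ol oi oi' h0 hl hi hi'
  have e1 : ∀ (z : Fin n → C → Bool) (e : C), lift T.Psi (tprod ℂ V * T.toTra.F o0 e * T.toTra.F ol e *
      ∏ i, (T.toTra.Lam (oi i) (z i) * T.toTra.Lam (oi' i) (z i))) =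
      T.Psi fun h => V h * at' (T.blk o0) (T.E o0 e) h * at' (T.blk ol) (T.E ol e) h *
          ∏ i, (at' (T.blk (oi i)) (T.Lam (oi i) (z i)) h *
            at' (T.blk (oi' i)) (T.Lam (oi' i) (z i)) h) := by
    intro z e
    simp only [toTra_F, toTra_Lam, tprod_mul_tprod]
    rw [← tprod_prod, tprod_mul_tprod, lift.tprod]
    congr 1
    funext h
    simp only [Pi.mul_apply, Finset.prod_apply]
  simp only [e1]
  exact h

end TrSys

open PiTensorProduct in
/-- THE ABSTRACT DECOUPLING THEOREM. -/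
theorem tr_abs (O : Type) [Fintype O] [DecidableEq O] :
    ∃ K : ℝ, 0 ≤ K ∧ ∀ {AA : Type u} [CommRing AA] [Algebra ℂ AA] {C : Type v} [Fintype C] [DecidableEq C] {m t : ℕ}
      (T : TrSys AA C O m t) (G : Set (Fin m → AA)) (B : ℝ), 0 ≤ B → 0 < m → (∀ h, ∃ o, T.blk o = h) →
      T.c ∈ G → (∀ V ∈ G, ∀ o z, (fun h => V h * TrSys.at' (T.blk o) (T.Lam o z) h) ∈ G) →
      T.Hc G B → T.Hd G B → ‖T.avg‖ ≤ K * B := by
  refine ⟨traK O, Finset.sum_nonneg fun _ _ => norm_nonneg _, ?_⟩
  intro AA _ _ C _ _ m t T G B hB hm hsurj hcG hG hc hd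
  have h := T.toTra.norm_avg_le (lift T.Psi) (fun o => (T.blk o : ℕ)) T.dig (tprod ℂ '' G) hB ?_
    (T.toTra_HcA hc) (T.toTra_HdA hd) hm (fun o => (T.blk o).2) ?_ (tprod ℂ T.c) ⟨T.c, hcG, rfl⟩
  · simp only [← T.word_eq] at h
    exact h
  · rintro X ⟨V, hV, rfl⟩ o z
    refine ⟨_, hG V hV o z, ?_⟩
    rw [T.toTra_Lam, tprod_mul_tprod]
    rfl
  · intro k hk
    obtain ⟨o, ho⟩ := hsurj ⟨k, hk⟩
    exact ⟨o, by rw [ho]⟩

end Claimed.Agent.R302
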