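/-
R302 / TR / Cyl (TR0): algebra of cylinder functions, normal form.   Owner: helper100 (proofs: helper261).
Blueprint: Notes_helper100.lean Section 2, TR0.
The agreement projection comes from `st_fix`, `st_fix_inf` (ST/NormAlg) for the unitary normaliser `v'* v`.
Normal form: the class `TrNF` of functions `β + ∑ reduced monomials` is closed under sums, multiplication by `A` and multiplication by one site
(`tr_nf_site_step`: compare the new site with the old sites of the same digit one after the other, split by the agreement projection).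
-/
import Claimed.Agent.R302.TR.Hyp
import Claimed.Agent.R302.ST.NormAlg

set_option autoImplicit false
set_option linter.unusedVariables false
set_option linter.unusedSectionVars false

namespace Claimed.Agent.R302

open scoped InnerProductSpace ComplexOrder
open Filter Topology

universe u
variable {H : Type u} [NormedAddCommGroup H] [InnerProductSpace ℂ H] [CompleteSpace H]

/-- monomials with coefficient in `A` and unitary normalizer sites -/
def StData.IsMono (S : StData H) (d : OpMono H) : Prop := d.c ∈ S.A ∧ ∀ o ∈ d.occ, S.IsNormU o.1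

/-! ### unitary normalisers -/

theorem tr_normU_GN (S : StData H) {v : H →L[ℂ] H} (hv : S.IsNormU v) : S.IsGN v where
  mem := hv.1
  pisom := by rw [hv.2.2.1, one_mul]
  src := by rw [hv.2.1]; exact one_mem _
  rng := by rw [hv.2.2.1]; exact one_mem _
  conj := hv.2.2.2.1
  conj' := hv.2.2.2.2

theorem tr_normU_star (S : StData H) {v : H →L[ℂ] H} (hv : S.IsNormU v) : S.IsNormU (star v) :=
  ⟨star_mem hv.1, by rw [star_star]; exact hv.2.2.1, by rw [star_star]; exact hv.2.1,
    fun a ha => by rw [star_star]; exact hv.2.2.2.2 a ha,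
    fun a ha => by rw [star_star]; exact hv.2.2.2.1 a ha⟩

theorem tr_normU_mul (S : StData H) {v v' : H →L[ℂ] H} (hv : S.IsNormU v) (hv' : S.IsNormU v') :
    S.IsNormU (v * v') := by
  have hG := st_GN_mul S (tr_normU_GN S hv) (tr_normU_GN S hv')
  refine ⟨hG.mem, ?_, ?_, hG.conj, hG.conj'⟩
  · calc star (v * v') * (v * v') = star v' * (star v * v) * v' := by
          rw [star_mul]; simp only [mul_assoc]
      _ = 1 := by rw [hv.2.1, mul_one, hv'.2.1]
  · calc v * v' * star (v * v') = v * (v' * star v') * star v := by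
          rw [star_mul]; simp only [mul_assoc]
      _ = 1 := by rw [hv'.2.2.1, mul_one, hv.2.2.1]

/-! ### basic properties -/

theorem tr_rand_sym (S : StData H) (P : StPart S) (t : ℕ) (om : P.cells → Fin t → Bool) :
    S.IsSymFam (opRand P t om) := by
  intro k
  unfold opRand
  by_cases h : k < t
  · simp only [h, dif_pos]
    set s : P.cells → ℂ := fun e => if om e ⟨k, h⟩ then (1 : ℂ) else -1 with hs
    have hs1 : ∀ e, star (s e) = s e := by
      intro e; simp only [hs]; split_ifs <;> simp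
    have hs2 : ∀ e, s e * s e = 1 := by
      intro e; simp only [hs]; split_ifs <;> simp
    refine ⟨?_, ?_, ?_⟩
    · exact sum_mem fun e _ => S.A.smul_mem (P.proj e e.2).1 _
    · show star (∑ e : P.cells, s e • (e : H →L[ℂ] H)) = _
      rw [star_sum]
      refine Finset.sum_congr rfl fun e _ => ?_
      rw [star_smul, hs1, (P.proj e e.2).2.isSelfAdjoint.star_eq]
    · rw [Finset.sum_mul_sum]
      have h1 : ∀ e : P.cells, ∑ e' : P.cells, s e • (e : H →L[ℂ] H) * s e' • (e' : H →L[ℂ] H) =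
          (e : H →L[ℂ] H) := by
        intro e
        rw [Finset.sum_eq_single e]
        · rw [smul_mul_smul_comm, hs2, one_smul, (P.proj e e.2).2.isIdempotentElem.eq]
        · intro e' _ hne
          rw [smul_mul_smul_comm, P.orth e e.2 e' e'.2 (fun h => hne (Subtype.ext h.symm)), smul_zero]
        · intro h; exact absurd (Finset.mem_univ _) h
      rw [Finset.sum_congr rfl fun e _ => h1 e, Finset.sum_coe_sort P.cells (fun e => e)]
      exact P.sum_eq
  · simp only [h, dif_neg, not_false_eq_true]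
    exact ⟨one_mem _, IsSelfAdjoint.one _, one_mul 1⟩

theorem tr_cyl_mem (S : StData H) {b : (ℕ → H →L[ℂ] H) → H →L[ℂ] H} (hb : OpCyl S b)
    {w : ℕ → H →L[ℂ] H} (hw : S.IsSymFam w) : b w ∈ S.A := by
  induction hb with
  | const a ha => exact ha
  | site v hv k => exact hv.2.2.2.1 _ (hw k).1
  | add _ _ ih ih' => exact add_mem ih ih'
  | mul _ _ ih ih' => exact mul_mem ih ih'

theorem tr_sym_norm_le (S : StData H) {w : ℕ → H →L[ℂ] H} (hw : S.IsSymFam w) (k : ℕ) :
    ‖w k‖ ≤ 1 := by
  have h1 : ‖star (w k) * w k‖ = ‖w k‖ * ‖w k‖ := CStarRing.norm_star_mul_self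
  rw [(hw k).2.1.star_eq, (hw k).2.2] at h1
  have h2 : ‖(1 : H →L[ℂ] H)‖ ≤ 1 := ContinuousLinearMap.norm_id_le
  nlinarith [norm_nonneg (w k)]

theorem tr_cyl_bdd' (S : StData H) {b : (ℕ → H →L[ℂ] H) → H →L[ℂ] H} (hb : OpCyl S b) :
    ∃ C : ℝ, 0 ≤ C ∧ ∀ w, S.IsSymFam w → ‖b w‖ ≤ C := by
  induction hb with
  | const a ha => exact ⟨‖a‖, norm_nonneg _, fun _ _ => le_rfl⟩
  | site v hv k =>
    refine ⟨‖v‖ * 1 * ‖star v‖, by positivity, fun w hw => ?_⟩
    calc ‖v * w k * star v‖ ≤ ‖v * w k‖ * ‖star v‖ := norm_mul_le _ _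
      _ ≤ ‖v‖ * ‖w k‖ * ‖star v‖ := mul_le_mul_of_nonneg_right (norm_mul_le _ _) (norm_nonneg _)
      _ ≤ ‖v‖ * 1 * ‖star v‖ := by
          gcongr
          exact tr_sym_norm_le S hw k
  | add _ _ ih ih' =>
    obtain ⟨C, hC, h⟩ := ih
    obtain ⟨C', hC', h'⟩ := ih'
    exact ⟨C + C', add_nonneg hC hC', fun w hw =>
      (norm_add_le _ _).trans (add_le_add (h w hw) (h' w hw))⟩
  | mul _ _ ih ih' =>
    obtain ⟨C, hC, h⟩ := ih
    obtain ⟨C', hC', h'⟩ := ih'
    exact ⟨C * C', mul_nonneg hC hC', fun w hw =>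
      (norm_mul_le _ _).trans (mul_le_mul (h w hw) (h' w hw) (norm_nonneg _) hC)⟩

theorem tr_cyl_bdd (S : StData H) {b : (ℕ → H →L[ℂ] H) → H →L[ℂ] H} (hb : OpCyl S b) :
    ∃ C : ℝ, ∀ w, S.IsSymFam w → ‖b w‖ ≤ C := by
  obtain ⟨C, -, h⟩ := tr_cyl_bdd' S hb
  exact ⟨C, h⟩

theorem tr_cyl_star (S : StData H) {b : (ℕ → H →L[ℂ] H) → H →L[ℂ] H} (hb : OpCyl S b) :
    ∃ b', OpCyl S b' ∧ ∀ w, S.IsSymFam w → b' w = star (b w) := by
  induction hb with
  | const a ha => exact ⟨_, OpCyl.const (star a) (star_mem ha), fun _ _ => rfl⟩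
  | site v hv k =>
    refine ⟨_, OpCyl.site v hv k, fun w hw => ?_⟩
    rw [star_mul, star_mul, star_star, (hw k).2.1.star_eq, mul_assoc]
  | add _ _ ih ih' =>
    obtain ⟨c, hc, h⟩ := ih
    obtain ⟨c', hc', h'⟩ := ih'
    exact ⟨_, OpCyl.add hc hc', fun w hw => by rw [star_add, h w hw, h' w hw]⟩
  | mul _ _ ih ih' =>
    obtain ⟨c, hc, h⟩ := ih
    obtain ⟨c', hc', h'⟩ := ih'
    exact ⟨_, OpCyl.mul hc' hc, fun w hw => by rw [star_mul, h w hw, h' w hw]⟩

theorem tr_cyl_conj (S : StData H) {b : (ℕ → H →L[ℂ] H) → H →L[ℂ] H} (hb : OpCyl S b)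
    {v : H →L[ℂ] H} (hv : S.IsNormU v) :
    ∃ b', OpCyl S b' ∧ ∀ w, S.IsSymFam w → b' w = star v * b w * v := by
  induction hb with
  | const a ha => exact ⟨_, OpCyl.const _ (hv.2.2.2.2 a ha), fun _ _ => rfl⟩
  | site u hu k =>
    refine ⟨_, OpCyl.site (star v * u) (tr_normU_mul S (tr_normU_star S hv) hu) k, fun w hw => ?_⟩
    rw [star_mul, star_star]
    simp only [mul_assoc]
  | add _ _ ih ih' =>
    obtain ⟨c, hc, h⟩ := ih
    obtain ⟨c', hc', h'⟩ := ih'
    exact ⟨_, OpCyl.add hc hc', fun w hw => by rw [h w hw, h' w hw, mul_add, add_mul]⟩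
  | @mul b b' _ _ ih ih' =>
    obtain ⟨c, hc, h⟩ := ih
    obtain ⟨c', hc', h'⟩ := ih'
    refine ⟨_, OpCyl.mul hc hc', fun w hw => ?_⟩
    rw [h w hw, h' w hw]
    calc star v * b w * v * (star v * b' w * v) = star v * b w * (v * star v) * b' w * v := by
          simp only [mul_assoc]
      _ = star v * (b w * b' w) * v := by rw [hv.2.2.1, mul_one]; simp only [mul_assoc]

theorem tr_sites_cyl (S : StData H) (L : List ((H →L[ℂ] H) × ℕ)) (hL : ∀ o ∈ L, S.IsNormU o.1) :
    OpCyl S (fun w => (L.map fun o => o.1 * w o.2 * star o.1).prod) := by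
  induction L with
  | nil => simpa using OpCyl.const (S := S) 1 (one_mem _)
  | cons o L ih =>
    have := OpCyl.mul (OpCyl.site o.1 (hL o (List.mem_cons_self)) o.2)
      (ih fun o' ho' => hL o' (List.mem_cons_of_mem _ ho'))
    simpa using this

theorem tr_mono_cyl (S : StData H) {d : OpMono H} (hd : S.IsMono d) : OpCyl S d.eval :=
  OpCyl.mul (OpCyl.const d.c hd.1) (tr_sites_cyl S d.occ hd.2)

/-! ### the agreement projection -/

/-- the agreement projection of two sites: `f = inf_P sum_e (v e v*)(v' e v'*)`. -/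
theorem tr_agree (S : StData H) (hST : OpSTHyp S) {v v' : H →L[ℂ] H} (hv : S.IsNormU v) (hv' : S.IsNormU v') :
    ∃ f ∈ S.A, IsStarProjection f ∧ (∀ a ∈ S.A, v * a * star v * f = v' * a * star v' * f) ∧
      S.Sep (1 - f) v v' := by
  set u := star v' * v with hu
  have huN : S.IsNormU u := tr_normU_mul S (tr_normU_star S hv') hv
  have huG : S.IsGN u := tr_normU_GN S huN
  have hG' : S.IsGN v' := tr_normU_GN S hv'
  obtain ⟨f₀, hf₀, hf₀s, hc, hEA, -⟩ := st_fix S huG
  have hvu : v = v' * u := by rw [hu, ← mul_assoc, hv'.2.2.1, one_mul]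
  have hff : f₀ * f₀ = f₀ := hf₀.2.isIdempotentElem.eq
  have hfs : star f₀ = f₀ := hf₀.2.isSelfAdjoint.star_eq
  -- `u f₀ u* = f₀`
  have h1 : star (u * f₀) * (u * f₀) = f₀ := by
    rw [star_mul, hfs]
    calc f₀ * star u * (u * f₀) = (f₀ * (star u * u)) * f₀ := by simp only [mul_assoc]
      _ = f₀ := by rw [hf₀s, hff]
  have h2 : (u * f₀) * star (u * f₀) = f₀ := by
    rw [(st_A_comm S hc (star_mem hc)).eq, h1]
  -- `(u a u*) f₀ = a f₀`
  have h3 : ∀ a ∈ S.A, u * a * star u * f₀ = a * f₀ := by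
    intro a ha
    calc u * a * star u * f₀ = u * a * star u * ((u * f₀) * star (u * f₀)) := by rw [h2]
      _ = u * a * (star u * u) * f₀ * star (u * f₀) := by simp only [mul_assoc]
      _ = u * (a * f₀) * star (u * f₀) := by rw [huN.2.1, mul_one]; simp only [mul_assoc]
      _ = u * (f₀ * a) * star (u * f₀) := by rw [(st_A_comm S ha hf₀.1).eq]
      _ = ((u * f₀) * a) * star (u * f₀) := by simp only [mul_assoc]
      _ = (a * (u * f₀)) * star (u * f₀) := by rw [(st_A_comm S hc ha).eq]
      _ = a * f₀ := by rw [mul_assoc, h2]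
  have hfp := st_GN_conj_proj S hG' hf₀
  refine ⟨v' * f₀ * star v', hfp.1, hfp.2, ?_, ?_⟩
  · intro a ha
    calc v * a * star v * (v' * f₀ * star v')
        = v' * (u * a * star u * (star v' * v') * f₀) * star v' := by
          rw [hvu, star_mul]; simp only [mul_assoc]
      _ = v' * (u * a * star u * f₀) * star v' := by rw [hv'.2.1, mul_one]
      _ = v' * (a * f₀) * star v' := by rw [h3 a ha]
      _ = v' * (a * (star v' * v') * f₀) * star v' := by rw [hv'.2.1, mul_one]
      _ = v' * a * star v' * (v' * f₀ * star v') := by simp only [mul_assoc]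
  · intro ε hε
    obtain ⟨P, hP⟩ := st_evPart_exists S
      (st_fix_inf S huG hf₀ hEA hf₀s (star v' ((1 - v' * f₀ * star v') S.Om)) hε)
    refine ⟨P, ?_⟩
    have h4 : ∑ e ∈ P.cells, (v * e * star v) * (v' * e * star v') =
        v' * (∑ e ∈ P.cells, e * (u * e * star u)) * star v' := by
      rw [Finset.mul_sum, Finset.sum_mul]
      refine Finset.sum_congr rfl fun e he => ?_
      have heA : e ∈ S.A := (P.proj e he).1
      calc (v * e * star v) * (v' * e * star v')
          = v' * ((u * e * star u) * (star v' * v') * e) * star v' := by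
            rw [hvu, star_mul]; simp only [mul_assoc]
        _ = v' * ((u * e * star u) * e) * star v' := by rw [hv'.2.1, mul_one]
        _ = v' * (e * (u * e * star u)) * star v' := by
            rw [(st_A_comm S (huG.conj e heA) heA).eq]
    have h5 : f₀ (star v' ((1 - v' * f₀ * star v') S.Om)) = 0 := by
      have : f₀ * star v' * (1 - v' * f₀ * star v') = 0 := by
        calc f₀ * star v' * (1 - v' * f₀ * star v')
            = f₀ * star v' - f₀ * (star v' * v') * f₀ * star v' := by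
              rw [mul_sub, mul_one]; simp only [mul_assoc]
          _ = 0 := by rw [hv'.2.1, mul_one, hff, sub_self]
      have h6 := congrArg (fun T : H →L[ℂ] H => T S.Om) this
      simpa using h6
    have h7 : (∑ e ∈ P.cells, (v * e * star v) * (v' * e * star v')) ((1 - v' * f₀ * star v') S.Om) =
        v' (((∑ e ∈ P.cells, e * (u * e * star u)) - f₀)
          (star v' ((1 - v' * f₀ * star v') S.Om))) := by
      have h8 : ((∑ e ∈ P.cells, e * (u * e * star u)) - f₀)
          (star v' ((1 - v' * f₀ * star v') S.Om)) =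
          (∑ e ∈ P.cells, e * (u * e * star u)) (star v' ((1 - v' * f₀ * star v') S.Om)) := by
        generalize (1 - v' * f₀ * star v') S.Om = η at h5 ⊢
        rw [sub_apply, h5, sub_zero]
      rw [h4, h8]
      rfl
    rw [h7]
    refine lt_of_le_of_lt ((v'.le_opNorm _).trans ?_) hP
    exact mul_le_of_le_one_left (norm_nonneg _) (st_GN_norm_le S hG')

/-- separation is inherited by smaller coefficients -/
theorem tr_sep_mul (S : StData H) {a c v v' : H →L[ℂ] H} (ha : a ∈ S.A) (hv : S.IsNormU v)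
    (hv' : S.IsNormU v') (h : S.Sep c v v') : S.Sep (a * c) v v' := by
  intro ε hε
  obtain ⟨P, hP⟩ := h (ε / (‖a‖ + 1)) (by positivity)
  refine ⟨P, ?_⟩
  set T := ∑ e ∈ P.cells, (v * e * star v) * (v' * e * star v') with hT
  have hTA : T ∈ S.A := sum_mem fun e he =>
    mul_mem (hv.2.2.2.1 e (P.proj e he).1) (hv'.2.2.2.1 e (P.proj e he).1)
  have h1 : T ((a * c) S.Om) = a (T (c S.Om)) := by
    have : T * (a * c) = a * (T * c) := by
      rw [← mul_assoc, (st_A_comm S hTA ha).eq, mul_assoc]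
    exact congrArg (fun X : H →L[ℂ] H => X S.Om) this
  rw [h1]
  calc ‖a (T (c S.Om))‖ ≤ ‖a‖ * ‖T (c S.Om)‖ := a.le_opNorm _
    _ ≤ (‖a‖ + 1) * ‖T (c S.Om)‖ := by gcongr; linarith
    _ < (‖a‖ + 1) * (ε / (‖a‖ + 1)) := by gcongr
    _ = ε := by field_simp

/-! ### normal form -/

/-- product of the sites of a list of occurrences -/
noncomputable def trProd (L : List ((H →L[ℂ] H) × ℕ)) (w : ℕ → H →L[ℂ] H) : H →L[ℂ] H :=
  (L.map fun o => o.1 * w o.2 * star o.1).prod

theorem trProd_nil (w : ℕ → H →L[ℂ] H) : trProd [] w = 1 := rfl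

theorem trProd_cons (o : (H →L[ℂ] H) × ℕ) (L : List ((H →L[ℂ] H) × ℕ)) (w : ℕ → H →L[ℂ] H) :
    trProd (o :: L) w = (o.1 * w o.2 * star o.1) * trProd L w := by
  simp [trProd]

theorem trProd_append (L L' : List ((H →L[ℂ] H) × ℕ)) (w : ℕ → H →L[ℂ] H) :
    trProd (L ++ L') w = trProd L w * trProd L' w := by
  simp [trProd]

theorem trProd_mem (S : StData H) {L : List ((H →L[ℂ] H) × ℕ)} (hL : ∀ o ∈ L, S.IsNormU o.1)
    {w : ℕ → H →L[ℂ] H} (hw : S.IsSymFam w) : trProd L w ∈ S.A :=
  tr_cyl_mem S (tr_sites_cyl S L hL) hw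

theorem tr_eval_eq (d : OpMono H) (w : ℕ → H →L[ℂ] H) : d.eval w = d.c * trProd d.occ w := rfl

/-- functions with a normal form -/
def TrNF (S : StData H) (b : (ℕ → H →L[ℂ] H) → H →L[ℂ] H) : Prop :=
  ∃ β ∈ S.A, ∃ ds : List (OpMono H), (∀ d ∈ ds, S.IsRed d) ∧
    ∀ w, S.IsSymFam w → b w = β + (ds.map fun d => d.eval w).sum

theorem tr_nf_congr (S : StData H) {b b' : (ℕ → H →L[ℂ] H) → H →L[ℂ] H}
    (h : ∀ w, S.IsSymFam w → b w = b' w) (hb' : TrNF S b') : TrNF S b := by
  obtain ⟨β, hβ, ds, hds, hw⟩ := hb'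
  exact ⟨β, hβ, ds, hds, fun w hs => by rw [h w hs, hw w hs]⟩

theorem tr_nf_const (S : StData H) {a : H →L[ℂ] H} (ha : a ∈ S.A) : TrNF S (fun _ => a) :=
  ⟨a, ha, [], by simp, fun _ _ => by simp⟩

theorem tr_nf_add (S : StData H) {b b' : (ℕ → H →L[ℂ] H) → H →L[ℂ] H} (hb : TrNF S b)
    (hb' : TrNF S b') : TrNF S (fun w => b w + b' w) := by
  obtain ⟨β, hβ, ds, hds, hw⟩ := hb
  obtain ⟨β', hβ', ds', hds', hw'⟩ := hb'
  refine ⟨β + β', add_mem hβ hβ', ds ++ ds', ?_, fun w hs => ?_⟩
  · intro d hd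
    rcases List.mem_append.mp hd with h | h
    · exact hds d h
    · exact hds' d h
  · show b w + b' w = _
    rw [hw w hs, hw' w hs, List.map_append, List.sum_append]
    abel

theorem tr_red_mono (S : StData H) {d : OpMono H} (hd : S.IsRed d) : S.IsMono d := ⟨hd.1, hd.2.2.1⟩

theorem tr_nf_smulA (S : StData H) {a : H →L[ℂ] H} (ha : a ∈ S.A)
    {b : (ℕ → H →L[ℂ] H) → H →L[ℂ] H} (hb : TrNF S b) : TrNF S (fun w => a * b w) := by
  obtain ⟨β, hβ, ds, hds, hw⟩ := hb
  refine ⟨a * β, mul_mem ha hβ, ds.map fun d => ⟨a * d.c, d.occ⟩, ?_, fun w hs => ?_⟩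
  · intro d' hd'
    obtain ⟨d, hd, rfl⟩ := List.mem_map.mp hd'
    obtain ⟨h1, h2, h3, h4⟩ := hds d hd
    refine ⟨mul_mem ha h1, h2, h3, ?_⟩
    exact h4.imp_of_mem fun {o o'} ho ho' hR hk => tr_sep_mul S ha (h3 o ho) (h3 o' ho') (hR hk)
  · show a * b w = _
    rw [hw w hs, mul_add, List.map_map, ← List.sum_map_mul_left]
    congr 2

/-- separated data (possibly without sites) have a normal form -/
theorem tr_nf_mono (S : StData H) {c : H →L[ℂ] H} (hc : c ∈ S.A) {L : List ((H →L[ℂ] H) × ℕ)}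
    (hL : ∀ o ∈ L, S.IsNormU o.1) (hp : L.Pairwise (fun o o' => o.2 = o'.2 → S.Sep c o.1 o'.1)) :
    TrNF S (fun w => c * trProd L w) := by
  by_cases h : L = []
  · subst h
    exact tr_nf_congr S (fun w _ => by rw [trProd_nil, mul_one]) (tr_nf_const S hc)
  · refine ⟨0, zero_mem _, [⟨c, L⟩], ?_, fun w _ => by simp [tr_eval_eq]⟩
    intro d hd
    rw [List.mem_singleton] at hd
    subst hd
    exact ⟨hc, h, hL, hp⟩

/-- `A` is commutative -/
@[reducible] noncomputable def trCommRing (S : StData H) : CommRing S.A :=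
  { (inferInstance : Ring S.A) with
    mul_comm := fun a b => Subtype.ext (st_A_comm S a.2 b.2).eq }

theorem tr_cancel_aux (S : StData H) {f c sv pc so pr : H →L[ℂ] H} (hf : f ∈ S.A) (hc : c ∈ S.A)
    (hsv : sv ∈ S.A) (hpc : pc ∈ S.A) (hso : so ∈ S.A) (hpr : pr ∈ S.A) (h1 : sv * f = so * f)
    (h2 : so * so = 1) : f * c * (sv * (pc * (so * pr))) = f * c * (pc * pr) := by
  have key : ∀ (f c sv pc so pr : S.A), sv * f = so * f → so * so = 1 →
      f * c * (sv * (pc * (so * pr))) = f * c * (pc * pr) := by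
    let _ := trCommRing S
    intro f c sv pc so pr h1 h2
    linear_combination (c * pc * so * pr) * h1 + (f * c * pc * pr) * h2
  exact congrArg Subtype.val (key ⟨f, hf⟩ ⟨c, hc⟩ ⟨sv, hsv⟩ ⟨pc, hpc⟩ ⟨so, hso⟩ ⟨pr, hpr⟩
    (Subtype.ext h1) (Subtype.ext h2))

/-- multiplication of separated data by one more site -/
theorem tr_nf_site_step (S : StData H) (hST : OpSTHyp S) {v : H →L[ℂ] H} (hv : S.IsNormU v) (k : ℕ) :
    ∀ (rest checked : List ((H →L[ℂ] H) × ℕ)) (c : H →L[ℂ] H), c ∈ S.A →
      (∀ o ∈ checked ++ rest, S.IsNormU o.1) →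
      (checked ++ rest).Pairwise (fun o o' => o.2 = o'.2 → S.Sep c o.1 o'.1) →
      (∀ o ∈ checked, k = o.2 → S.Sep c v o.1) →
      TrNF S (fun w => c * ((v * w k * star v) * trProd (checked ++ rest) w)) := by
  intro rest
  induction rest with
  | nil =>
    intro checked c hc hN hp hs
    rw [List.append_nil] at hN hp ⊢
    have := tr_nf_mono S hc (L := (v, k) :: checked)
      (by
        intro o ho
        rcases List.mem_cons.mp ho with rfl | h
        · exact hv
        · exact hN o h)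
      (List.pairwise_cons.mpr ⟨fun o ho hk => hs o ho hk, hp⟩)
    exact tr_nf_congr S (fun w _ => by rw [trProd_cons]) this
  | cons o rest' ih =>
    intro checked c hc hN hp hs
    have e : checked ++ o :: rest' = (checked ++ [o]) ++ rest' := by simp
    have ho : S.IsNormU o.1 := hN o (by simp)
    by_cases hk : k = o.2
    · obtain ⟨f, hfA, hfp, hagree, hsep⟩ := tr_agree S hST hv ho
      have h1f : (1 - f) ∈ S.A := sub_mem (one_mem _) hfA
      have p1 := ih (checked ++ [o]) ((1 - f) * c) (mul_mem h1f hc) (by rw [← e]; exact hN)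
        (by
          rw [← e]
          exact hp.imp_of_mem fun {o₁ o₂} h₁ h₂ hR hk' =>
            tr_sep_mul S h1f (hN o₁ h₁) (hN o₂ h₂) (hR hk'))
        (by
          intro o' ho' hk'
          rcases List.mem_append.mp ho' with h | h
          · exact tr_sep_mul S h1f hv (hN o' (List.mem_append_left _ h)) (hs o' h hk')
          · rw [List.mem_singleton] at h
            subst h
            rw [(st_A_comm S h1f hc).eq]
            exact tr_sep_mul S hc hv ho hsep)
      have hsub : (checked ++ rest').Sublist (checked ++ o :: rest') :=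
        (List.Sublist.refl checked).append (List.sublist_cons_self o rest')
      have hN' : ∀ o' ∈ checked ++ rest', S.IsNormU o'.1 := fun o' h => hN o' (hsub.subset h)
      have p2 := tr_nf_mono S (mul_mem hfA hc) hN'
        ((hp.sublist hsub).imp_of_mem fun {o₁ o₂} h₁ h₂ hR hk' =>
          tr_sep_mul S hfA (hN' o₁ h₁) (hN' o₂ h₂) (hR hk'))
      refine tr_nf_congr S (fun w hw => ?_) (tr_nf_add S p1 p2)
      have hNc : ∀ o' ∈ checked, S.IsNormU o'.1 := fun o' h => hN o' (List.mem_append_left _ h)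
      have hNr : ∀ o' ∈ rest', S.IsNormU o'.1 := fun o' h =>
        hN o' (List.mem_append_right _ (List.mem_cons_of_mem _ h))
      have hso2 : (o.1 * w o.2 * star o.1) * (o.1 * w o.2 * star o.1) = 1 := by
        calc (o.1 * w o.2 * star o.1) * (o.1 * w o.2 * star o.1)
            = o.1 * (w o.2 * (star o.1 * o.1) * w o.2) * star o.1 := by simp only [mul_assoc]
          _ = 1 := by rw [ho.2.1, mul_one, (hw o.2).2.2, mul_one, ho.2.2.1]
      have hcan := tr_cancel_aux S hfA hc (hv.2.2.2.1 _ (hw k).1) (trProd_mem S hNc hw)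
        (ho.2.2.2.1 _ (hw o.2).1) (trProd_mem S hNr hw)
        (by rw [← hk]; exact hagree _ (hw k).1) hso2
      rw [← e, trProd_append checked (o :: rest'), trProd_cons, trProd_append checked rest', ← hcan]
      generalize v * w k * star v * (trProd checked w * (o.1 * w o.2 * star o.1 * trProd rest' w)) = X
      rw [mul_assoc, mul_assoc, ← add_mul, sub_add_cancel, one_mul]
    · rw [e]
      refine ih (checked ++ [o]) c hc (by rw [← e]; exact hN) (by rw [← e]; exact hp) ?_
      intro o' ho' hk'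
      rcases List.mem_append.mp ho' with h | h
      · exact hs o' h hk'
      · rw [List.mem_singleton] at h
        subst h
        exact absurd hk' hk

theorem tr_nf_site_mul (S : StData H) (hST : OpSTHyp S) {v : H →L[ℂ] H} (hv : S.IsNormU v) (k : ℕ)
    {b : (ℕ → H →L[ℂ] H) → H →L[ℂ] H} (hb : TrNF S b) :
    TrNF S (fun w => (v * w k * star v) * b w) := by
  obtain ⟨β, hβ, ds, hds, hw⟩ := hb
  have h0 : TrNF S (fun w => (v * w k * star v) * β) := by
    have := tr_nf_site_step S hST hv k [] [] β hβ (by simp) (by simp) (by simp)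
    refine tr_nf_congr S (fun w hs => ?_) this
    rw [List.append_nil, trProd_nil, mul_one]
    exact (st_A_comm S (hv.2.2.2.1 _ (hs k).1) hβ).eq
  have h1 : TrNF S (fun w => (v * w k * star v) * (ds.map fun d => d.eval w).sum) := by
    clear hw
    induction ds with
    | nil => exact tr_nf_congr S (fun w _ => by simp) (tr_nf_const S (zero_mem _))
    | cons d ds ih =>
      obtain ⟨hc, -, hN, hp⟩ := hds d (List.mem_cons_self)
      have p1 := tr_nf_site_step S hST hv k d.occ [] d.c hc (by simpa using hN) (by simpa using hp)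
        (by simp)
      have p2 := ih fun d' hd' => hds d' (List.mem_cons_of_mem _ hd')
      refine tr_nf_congr S (fun w hs => ?_) (tr_nf_add S p1 p2)
      rw [List.map_cons, List.sum_cons, mul_add, List.nil_append, tr_eval_eq, ← mul_assoc,
        (st_A_comm S (hv.2.2.2.1 _ (hs k).1) hc).eq, mul_assoc]
  exact tr_nf_congr S (fun w hs => by rw [hw w hs, mul_add]) (tr_nf_add S h0 h1)

theorem tr_nf_prod_mul (S : StData H) (hST : OpSTHyp S) {b : (ℕ → H →L[ℂ] H) → H →L[ℂ] H}
    (hb : TrNF S b) (L : List ((H →L[ℂ] H) × ℕ)) (hL : ∀ o ∈ L, S.IsNormU o.1) :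
    TrNF S (fun w => trProd L w * b w) := by
  induction L with
  | nil => exact tr_nf_congr S (fun w _ => by rw [trProd_nil, one_mul]) hb
  | cons o L ih =>
    have := tr_nf_site_mul S hST (hL o (List.mem_cons_self)) o.2
      (ih fun o' ho' => hL o' (List.mem_cons_of_mem _ ho'))
    exact tr_nf_congr S (fun w _ => by rw [trProd_cons, mul_assoc]) this

theorem tr_nf_mul (S : StData H) (hST : OpSTHyp S) {b b' : (ℕ → H →L[ℂ] H) → H →L[ℂ] H}
    (hb : TrNF S b) (hb' : TrNF S b') : TrNF S (fun w => b w * b' w) := by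
  obtain ⟨β, hβ, ds, hds, hw⟩ := hb
  have h1 : TrNF S (fun w => (ds.map fun d => d.eval w).sum * b' w) := by
    clear hw
    induction ds with
    | nil => exact tr_nf_congr S (fun w _ => by simp) (tr_nf_const S (zero_mem _))
    | cons d ds ih =>
      obtain ⟨hc, -, hN, -⟩ := hds d (List.mem_cons_self)
      have p1 := tr_nf_smulA S hc (tr_nf_prod_mul S hST hb' d.occ hN)
      have p2 := ih fun d' hd' => hds d' (List.mem_cons_of_mem _ hd')
      refine tr_nf_congr S (fun w _ => ?_) (tr_nf_add S p1 p2)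
      rw [List.map_cons, List.sum_cons, add_mul, tr_eval_eq, mul_assoc]
  exact tr_nf_congr S (fun w hs => by rw [hw w hs, add_mul])
    (tr_nf_add S (tr_nf_smulA S hβ hb') h1)

/-- TR0: normal form. -/
theorem tr_normal_form (S : StData H) (hST : OpSTHyp S) {b : (ℕ → H →L[ℂ] H) → H →L[ℂ] H} (hb : OpCyl S b) :
    ∃ β ∈ S.A, ∃ ds : List (OpMono H), (∀ d ∈ ds, S.IsRed d) ∧
      ∀ w, S.IsSymFam w → b w = β + (ds.map fun d => d.eval w).sum := by
  show TrNF S b
  induction hb with
  | const a ha => exact tr_nf_const S ha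
  | site v hv k =>
    exact tr_nf_congr S (fun w _ => by rw [mul_one])
      (tr_nf_site_mul S hST hv k (tr_nf_const S (one_mem _)))
  | add _ _ ih ih' => exact tr_nf_add S ih ih'
  | mul _ _ ih ih' => exact tr_nf_mul S hST ih ih'

end Claimed.Agent.R302
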