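/-
R302 / TR / Vanish (L7.3, TR1): state multipliers and commutant transport.   Owner: helper100.  (TR2 = Abs + Core + VanishMain.)
Blueprint: Notes_helper100.lean Section 2, TR1, TR2 (a)-(d).
LEAF TR-StateMult (helper275): SORRY-FREE (uses ST/Basic).
-/
import Claimed.Agent.R302.TR.Cyl
import Claimed.Agent.R302.ST.Basic

set_option autoImplicit false

namespace Claimed.Agent.R302

open scoped InnerProductSpace ComplexOrder
open Filter Topology

universe u
variable {H : Type u} [NormedAddCommGroup H] [InnerProductSpace ℂ H] [CompleteSpace H]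

/-- L7.3: uniform right multiplication in the state norm. -/
theorem tr_state_mult (S : StData H) (_hST : OpSTHyp S) (z : H →L[ℂ] H) (hz : z ∈ S.M) (C η : ℝ) (hη : 0 < η) :
    ∃ δ > 0, ∀ D ∈ S.M, ‖D‖ ≤ C → ‖D S.Om‖ < δ → ‖D (z S.Om)‖ < η :=
  st_mult S hz C hη

theorem tr_one_mem_M' (S : StData H) : (1 : H →L[ℂ] H) ∈ S.M' := fun x _ => Commute.one_left x

/-- the transported word lies in `M'` and is bounded independently of the contractions `D`. -/
theorem tr_transport_aux (S : StData H) (cs : List (H →L[ℂ] H)) (hcs : ∀ c ∈ cs, c ∈ S.M') :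
    ∀ Ds : List (H →L[ℂ] H), (∀ D ∈ Ds, D ∈ S.A ∧ ‖D‖ ≤ 1) →
      (List.zipWith (fun D c => c * S.rmul D) Ds cs).reverse.prod ∈ S.M' ∧
      ‖(List.zipWith (fun D c => c * S.rmul D) Ds cs).reverse.prod‖ ≤
        (cs.map fun c => ‖c‖ + 1).prod := by
  induction cs with
  | nil =>
    intro Ds _
    simp only [List.zipWith_nil_right, List.reverse_nil, List.prod_nil, List.map_nil]
    exact ⟨tr_one_mem_M' S, ContinuousLinearMap.norm_id_le⟩
  | cons c cs ih =>
    intro Ds hDs
    have hpos : ∀ l : List (H →L[ℂ] H), 1 ≤ (l.map fun c => ‖c‖ + 1).prod := by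
      intro l
      induction l with
      | nil => simp
      | cons a l ihl =>
        rw [List.map_cons, List.prod_cons]
        have : 1 ≤ ‖a‖ + 1 := by linarith [norm_nonneg a]
        nlinarith
    cases Ds with
    | nil =>
      simp only [List.zipWith_nil_left, List.reverse_nil, List.prod_nil]
      exact ⟨tr_one_mem_M' S, ContinuousLinearMap.norm_id_le.trans (hpos _)⟩
    | cons D Ds =>
      obtain ⟨h1, h2⟩ := ih (fun c' hc' => hcs c' (List.mem_cons_of_mem _ hc')) Ds
        (fun D' hD' => hDs D' (List.mem_cons_of_mem _ hD'))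
      have hD := hDs D List.mem_cons_self
      have hc := hcs c List.mem_cons_self
      rw [List.zipWith_cons_cons, List.reverse_cons, List.prod_append, List.prod_singleton,
        List.map_cons, List.prod_cons]
      refine ⟨st_M'_mul S h1 (st_M'_mul S hc (st_rmul_mem S (st_rbdd_A S hD.1))), ?_⟩
      have h3 : ‖c * S.rmul D‖ ≤ ‖c‖ + 1 := by
        refine (norm_mul_le _ _).trans ?_
        have : ‖S.rmul D‖ ≤ 1 := (st_rmul_A_norm S hD.1).trans hD.2
        nlinarith [norm_nonneg c, norm_nonneg (S.rmul D)]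
      calc ‖(List.zipWith (fun D c => c * S.rmul D) Ds cs).reverse.prod * (c * S.rmul D)‖
          ≤ ‖(List.zipWith (fun D c => c * S.rmul D) Ds cs).reverse.prod‖ * ‖c * S.rmul D‖ :=
            norm_mul_le _ _
        _ ≤ (cs.map fun c => ‖c‖ + 1).prod * (‖c‖ + 1) :=
            mul_le_mul h2 h3 (norm_nonneg _) (zero_le_one.trans (hpos _))
        _ = (‖c‖ + 1) * (cs.map fun c => ‖c‖ + 1).prod := mul_comm _ _

/-- TR1: `D_1 y_1 D_2 y_2 ... D_m y_m Om ~ c'_m rho(D_m) ... c'_1 rho(D_1) Om` uniformly in the contractions `D_k ∈ A`. -/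
theorem tr_transport (S : StData H) (_hST : OpSTHyp S) (ys : List (H →L[ℂ] H)) (hys : ∀ y ∈ ys, y ∈ S.M)
    (α : ℝ) (hα : 0 < α) :
    ∃ cs : List (H →L[ℂ] H), cs.length = ys.length ∧ (∀ c ∈ cs, c ∈ S.M') ∧
      ∀ Ds : List (H →L[ℂ] H), Ds.length = ys.length → (∀ D ∈ Ds, D ∈ S.A ∧ ‖D‖ ≤ 1) →
        ‖(List.zipWith (fun D y => D * y) Ds ys).prod S.Om
          - (List.zipWith (fun D c => c * S.rmul D) Ds cs).reverse.prod S.Om‖ ≤ α := by
  induction ys generalizing α with
  | nil =>
    refine ⟨[], rfl, by simp, fun Ds _ _ => ?_⟩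
    simp only [List.zipWith_nil_right, List.reverse_nil, List.prod_nil, sub_self, norm_zero]
    exact hα.le
  | cons y ys ih =>
    have hy : y ∈ S.M := hys y List.mem_cons_self
    obtain ⟨cs, hlen, hcs, hmain⟩ := ih (fun y' hy' => hys y' (List.mem_cons_of_mem _ hy'))
      (α / (2 * (‖y‖ + 1))) (by positivity)
    set B : ℝ := (cs.map fun c => ‖c‖ + 1).prod with hB
    have hB0 : 0 ≤ B := (norm_nonneg _).trans (tr_transport_aux S cs hcs [] (by simp)).2
    obtain ⟨c, hc, hcy⟩ := st_M'_dense S (y S.Om) (ε := α / (2 * (B + 1))) (by positivity)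
    refine ⟨c :: cs, by simp [hlen], ?_, ?_⟩
    · intro c' hc'
      rcases List.mem_cons.1 hc' with rfl | h
      · exact hc
      · exact hcs c' h
    · intro Ds hDlen hDs
      cases Ds with
      | nil => simp at hDlen
      | cons D Ds =>
        have hD := hDs D List.mem_cons_self
        have hDs' : ∀ D' ∈ Ds, D' ∈ S.A ∧ ‖D'‖ ≤ 1 := fun D' hD' => hDs D' (List.mem_cons_of_mem _ hD')
        have hlen' : Ds.length = ys.length := by simpa using hDlen
        have h1 := hmain Ds hlen' hDs'
        obtain ⟨hC'M, hC'B⟩ := tr_transport_aux S cs hcs Ds hDs'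
        set W := (List.zipWith (fun D y => D * y) Ds ys).prod with hW
        set C' := (List.zipWith (fun D c => c * S.rmul D) Ds cs).reverse.prod with hC'
        rw [List.zipWith_cons_cons, List.zipWith_cons_cons, List.prod_cons, List.reverse_cons,
          List.prod_append, List.prod_singleton]
        have hDM := st_A_le_M S hD.1
        have e1 : (C' * (c * S.rmul D)) S.Om = C' (D (c S.Om)) := by
          rw [vn_mul_apply, vn_mul_apply, st_rmul_Om S (st_rbdd_A S hD.1), ← vn_mul_apply c D,
            (hc D hDM).eq, vn_mul_apply]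
        have e2 : (D * y) (C' S.Om) = C' (D (y S.Om)) := by
          rw [← vn_mul_apply (D * y) C', ← (hC'M (D * y) (mul_mem hDM hy)).eq, vn_mul_apply,
            vn_mul_apply]
        have e3 : (D * y * W) S.Om - (C' * (c * S.rmul D)) S.Om =
            (D * y) (W S.Om - C' S.Om) + C' (D (y S.Om - c S.Om)) := by
          rw [e1, map_sub, e2, map_sub, map_sub, vn_mul_apply (D * y) W]
          abel
        rw [e3]
        have n1 : ‖(D * y) (W S.Om - C' S.Om)‖ ≤ (‖y‖ + 1) * (α / (2 * (‖y‖ + 1))) := by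
          refine ((D * y).le_opNorm _).trans (mul_le_mul ?_ h1 (norm_nonneg _) (by positivity))
          refine (norm_mul_le _ _).trans ?_
          nlinarith [norm_nonneg y, norm_nonneg D, hD.2]
        have n2 : ‖C' (D (y S.Om - c S.Om))‖ ≤ (B + 1) * (α / (2 * (B + 1))) := by
          refine (C'.le_opNorm _).trans (mul_le_mul (by linarith) ?_ (norm_nonneg _) (by positivity))
          refine (D.le_opNorm _).trans ?_
          calc ‖D‖ * ‖y S.Om - c S.Om‖ ≤ 1 * ‖y S.Om - c S.Om‖ :=
                mul_le_mul_of_nonneg_right hD.2 (norm_nonneg _)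
            _ ≤ α / (2 * (B + 1)) := by rw [one_mul]; exact hcy.le
        have f1 : (‖y‖ + 1) * (α / (2 * (‖y‖ + 1))) = α / 2 := by field_simp
        have f2 : (B + 1) * (α / (2 * (B + 1))) = α / 2 := by field_simp
        linarith [norm_add_le ((D * y) (W S.Om - C' S.Om)) (C' (D (y S.Om - c S.Om)))]

end Claimed.Agent.R302
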