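/-
R302 / TR / CoreC : proof of `tr_core_c` (retained pair in one block).   Owner: helper268.
 `trColl P v v' = ∑_e (v e v*)(v' e v'*)` is a projection of `A`, decreasing along refinement.
 The letters to the right of the block are moved into `M'` (tr_transport), the block itself is small by `tr_state_mult`.
 `tr_core_c_aux` is the statement of `tr_core_c` with `trPsi`, `trAt`, `IsCtr` unfolded.
-/
import Claimed.Agent.R302.TR.Vanish

set_option autoImplicit false

namespace Claimed.Agent.R302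

open scoped InnerProductSpace ComplexOrder
open Filter Topology

universe u
variable {H : Type u} [NormedAddCommGroup H] [InnerProductSpace ℂ H] [CompleteSpace H]

/-- one term of the collision projection -/
noncomputable def trCollT (v v' e : H →L[ℂ] H) : H →L[ℂ] H := (v * e * star v) * (v' * e * star v')

/-- the collision projection -/
noncomputable def trColl {S : StData H} (P : StPart S) (v v' : H →L[ℂ] H) : H →L[ℂ] H :=
  ∑ e ∈ P.cells, trCollT v v' e

theorem trc_conj_mul {v : H →L[ℂ] H} (hv : star v * v = 1) (a b : H →L[ℂ] H) :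
    (v * a * star v) * (v * b * star v) = v * (a * b) * star v := by
  calc (v * a * star v) * (v * b * star v) = v * a * (star v * v) * b * star v := by
        simp only [mul_assoc]
    _ = v * (a * b) * star v := by rw [hv]; simp only [mul_assoc, mul_one]

theorem trc_collT_zero (v v' : H →L[ℂ] H) : trCollT v v' 0 = 0 := by simp [trCollT]

section
variable (S : StData H) {v v' : H →L[ℂ] H} (hv : S.IsNormU v) (hv' : S.IsNormU v')
include hv hv'

theorem trc_collT_mem {e : H →L[ℂ] H} (he : e ∈ S.A) : trCollT v v' e ∈ S.A :=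
  mul_mem (hv.2.2.2.1 e he) (hv'.2.2.2.1 e he)

theorem trc_collT_mul {e f : H →L[ℂ] H} (he : e ∈ S.A) (hf : f ∈ S.A) :
    trCollT v v' e * trCollT v v' f = trCollT v v' (e * f) := by
  unfold trCollT
  have hc : Commute (v' * e * star v') (v * f * star v) :=
    st_A_comm S (hv'.2.2.2.1 e he) (hv.2.2.2.1 f hf)
  calc (v * e * star v) * (v' * e * star v') * ((v * f * star v) * (v' * f * star v'))
      = (v * e * star v) * ((v' * e * star v') * (v * f * star v)) * (v' * f * star v') := by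
        simp only [mul_assoc]
    _ = (v * e * star v) * ((v * f * star v) * (v' * e * star v')) * (v' * f * star v') := by
        rw [hc.eq]
    _ = ((v * e * star v) * (v * f * star v)) * ((v' * e * star v') * (v' * f * star v')) := by
        simp only [mul_assoc]
    _ = _ := by rw [trc_conj_mul hv.2.1, trc_conj_mul hv'.2.1]

theorem trc_collT_proj {e : H →L[ℂ] H} (he : S.IsProjA e) : IsStarProjection (trCollT v v' e) :=
  (vn_isStarProjection_conj hv.2.1 he.2).mul (vn_isStarProjection_conj hv'.2.1 he.2)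
    (st_A_comm S (hv.2.2.2.1 e he.1) (hv'.2.2.2.1 e he.1))

theorem trc_coll_mem (P : StPart S) : trColl P v v' ∈ S.A :=
  sum_mem fun e he => trc_collT_mem S hv hv' (P.proj e he).1

theorem trc_coll_proj (P : StPart S) : IsStarProjection (trColl P v v') := by
  refine vn_isStarProjection_sum _ _ (fun e he => trc_collT_proj S hv hv' (P.proj e he)) ?_
  intro e he f hf hef
  rw [trc_collT_mul S hv hv' (P.proj e he).1 (P.proj f hf).1, P.orth e he f hf hef,
    trc_collT_zero]

theorem trc_coll_mul {P₀ P : StPart S} (h : P₀ ≤ P) :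
    trColl P₀ v v' * trColl P v v' = trColl P v v' := by
  classical
  unfold trColl
  rw [Finset.mul_sum]
  refine Finset.sum_congr rfl fun f hf => ?_
  obtain ⟨e, he, hef⟩ := h f hf
  rw [Finset.sum_mul, Finset.sum_eq_single e]
  · rw [trc_collT_mul S hv hv' (P₀.proj e he).1 (P.proj f hf).1, hef]
  · intro e' he' hne
    rw [trc_collT_mul S hv hv' (P₀.proj e' he').1 (P.proj f hf).1, ← hef, ← mul_assoc,
      P₀.orth e' he' e he hne, zero_mul, trc_collT_zero]
  · intro h'; exact absurd he h'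

theorem trc_coll_norm_le {P₀ P : StPart S} (h : P₀ ≤ P) (ξ : H) :
    ‖trColl P v v' ξ‖ ≤ ‖trColl P₀ v v' ξ‖ := by
  have h1 : trColl P v v' * trColl P₀ v v' = trColl P v v' := by
    rw [(st_A_comm S (trc_coll_mem S hv hv' P) (trc_coll_mem S hv hv' P₀)).eq,
      trc_coll_mul S hv hv' h]
  calc ‖trColl P v v' ξ‖ = ‖trColl P v v' (trColl P₀ v v' ξ)‖ := by
        rw [← vn_mul_apply, h1]
    _ ≤ ‖trColl P v v'‖ * ‖trColl P₀ v v' ξ‖ := (trColl P v v').le_opNorm _
    _ ≤ 1 * ‖trColl P₀ v v' ξ‖ := by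
        gcongr
        exact vn_proj_norm_le (trc_coll_proj S hv hv' P)
    _ = _ := one_mul _

/-- list form of Core-c -/
theorem trc_main (hST : OpSTHyp S) {c0 z : H →L[ℂ] H} (hc0 : c0 ∈ S.A) (hz : z ∈ S.M)
    (ys : List (H →L[ℂ] H)) (hys : ∀ y ∈ ys, y ∈ S.M) (hsep : S.Sep c0 v v') (K : ℝ) (hK : 0 ≤ K)
    (ε : ℝ) (hε : 0 < ε) :
    ∀ᶠ P : StPart S in atTop, ∀ L : H →L[ℂ] H, ‖L‖ ≤ K → ∀ u ∈ S.A, ‖u‖ ≤ 1 →
      ∀ Ds : List (H →L[ℂ] H), Ds.length = ys.length → (∀ D ∈ Ds, D ∈ S.A ∧ ‖D‖ ≤ 1) →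
        ‖S.phi (L * (c0 * u * trColl P v v') * z * (List.zipWith (fun D y => D * y) Ds ys).prod)‖
          ≤ ε := by
  set Ωn := ‖S.Om‖ with hΩn
  have hΩ0 : 0 ≤ Ωn := norm_nonneg _
  set α : ℝ := ε / (2 * ((K + 1) * (‖c0‖ + 1) * (‖z‖ + 1) * (Ωn + 1))) with hα
  have hαpos : 0 < α := by positivity
  obtain ⟨cs, -, hcs, htr⟩ := tr_transport S hST ys hys α hαpos
  set B : ℝ := (cs.map fun c => ‖c‖ + 1).prod with hB
  have hB0 : 0 ≤ B := (norm_nonneg _).trans (tr_transport_aux S cs hcs [] (by simp)).2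
  set η : ℝ := ε / (2 * ((K + 1) * (B + 1) * (Ωn + 1))) with hη
  have hηpos : 0 < η := by positivity
  obtain ⟨δ, hδ, hmult⟩ := tr_state_mult S hST z hz ‖c0‖ η hηpos
  obtain ⟨P₀, hP₀⟩ := hsep δ hδ
  filter_upwards [eventually_ge_atTop P₀] with P hP L hL u hu hu1 Ds hlen hDs
  set p := trColl P v v' with hp
  have hpA : p ∈ S.A := trc_coll_mem S hv hv' P
  have hp1 : ‖p‖ ≤ 1 := vn_proj_norm_le (trc_coll_proj S hv hv' P)
  set D := p * c0 with hD
  have hDA : D ∈ S.A := mul_mem hpA hc0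
  have hDn : ‖D‖ ≤ ‖c0‖ := by
    calc ‖D‖ ≤ ‖p‖ * ‖c0‖ := norm_mul_le _ _
      _ ≤ 1 * ‖c0‖ := by gcongr
      _ = _ := one_mul _
  have hDΩ : ‖D S.Om‖ < δ := by
    rw [hD, vn_mul_apply]
    exact lt_of_le_of_lt (trc_coll_norm_le S hv hv' hP _) hP₀
  have hDz : ‖D (z S.Om)‖ < η := hmult D (st_A_le_M S hDA) hDn hDΩ
  set W := (List.zipWith (fun D y => D * y) Ds ys).prod with hW
  set C' := (List.zipWith (fun D c => c * S.rmul D) Ds cs).reverse.prod with hC'
  obtain ⟨hC'M, hC'B⟩ := tr_transport_aux S cs hcs Ds hDs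
  have hWC : ‖W S.Om - C' S.Om‖ ≤ α := htr Ds hlen hDs
  have hX : c0 * u * p = u * D := by
    rw [hD, (st_A_comm S hc0 hu).eq, mul_assoc, (st_A_comm S hc0 hpA).eq]
  have hXn : ‖u * D‖ ≤ ‖c0‖ := by
    calc ‖u * D‖ ≤ ‖u‖ * ‖D‖ := norm_mul_le _ _
      _ ≤ 1 * ‖c0‖ := by gcongr
      _ = _ := one_mul _
  have hXzM : u * D * z ∈ S.M := mul_mem (mul_mem (st_A_le_M S hu) (st_A_le_M S hDA)) hz
  have e1 : (u * D * z) (C' S.Om) = C' (u (D (z S.Om))) := by
    rw [← vn_mul_apply (u * D * z) C', ← (hC'M _ hXzM).eq]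
    rfl
  have e2 : (L * (c0 * u * p) * z * W) S.Om
      = L ((u * D * z) (W S.Om - C' S.Om) + C' (u (D (z S.Om)))) := by
    rw [hX, ← e1, ← map_add, sub_add_cancel]
    rfl
  have n1 : ‖(u * D * z) (W S.Om - C' S.Om)‖ ≤ (‖c0‖ + 1) * (‖z‖ + 1) * α := by
    refine ((u * D * z).le_opNorm _).trans ?_
    have : ‖u * D * z‖ ≤ (‖c0‖ + 1) * (‖z‖ + 1) := by
      refine (norm_mul_le _ _).trans ?_
      have := norm_nonneg z
      have := norm_nonneg c0
      gcongr <;> linarith
    gcongr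
  have n2 : ‖C' (u (D (z S.Om)))‖ ≤ (B + 1) * η := by
    refine (C'.le_opNorm _).trans ?_
    have h1 : ‖u (D (z S.Om))‖ ≤ η := by
      refine (u.le_opNorm _).trans ?_
      calc ‖u‖ * ‖D (z S.Om)‖ ≤ 1 * η := by gcongr
        _ = η := one_mul _
    have h2 : ‖C'‖ ≤ B + 1 := by linarith
    gcongr
  have n3 : ‖(L * (c0 * u * p) * z * W) S.Om‖
      ≤ (K + 1) * ((‖c0‖ + 1) * (‖z‖ + 1) * α + (B + 1) * η) := by
    rw [e2]
    refine (L.le_opNorm _).trans ?_
    have h1 : ‖L‖ ≤ K + 1 := by linarith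
    have h2 := norm_add_le ((u * D * z) (W S.Om - C' S.Om)) (C' (u (D (z S.Om))))
    gcongr
    linarith
  refine (st_phi_norm_le S _).trans ?_
  have f1 : (K + 1) * ((‖c0‖ + 1) * (‖z‖ + 1) * α) * (Ωn + 1) = ε / 2 := by
    rw [hα]; field_simp
  have f2 : (K + 1) * ((B + 1) * η) * (Ωn + 1) = ε / 2 := by
    rw [hη]; field_simp
  calc ‖(L * (c0 * u * p) * z * W) S.Om‖ * ‖S.Om‖
      ≤ ((K + 1) * ((‖c0‖ + 1) * (‖z‖ + 1) * α + (B + 1) * η)) * (Ωn + 1) := by
        gcongr
        linarith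
    _ = (K + 1) * ((‖c0‖ + 1) * (‖z‖ + 1) * α) * (Ωn + 1) + (K + 1) * ((B + 1) * η) * (Ωn + 1) := by
        ring
    _ = ε := by rw [f1, f2]; ring

end

omit [CompleteSpace H] in
theorem trc_zipWith_map {ι : Type*} (t : List ι) (U Y : ι → H →L[ℂ] H) :
    List.zipWith (fun D y => D * y) (t.map U) (t.map Y) = t.map fun i => U i * Y i := by
  induction t with
  | nil => simp
  | cons a t ih => simp [ih]

theorem trc_norm_prod_le {ι : Type*} (s : List ι) (G : ι → H →L[ℂ] H) (b : ι → ℝ)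
    (hb : ∀ i ∈ s, ‖G i‖ ≤ b i) : ‖(s.map G).prod‖ ≤ (s.map b).prod ∧ 0 ≤ (s.map b).prod := by
  induction s with
  | nil =>
    simp only [List.map_nil, List.prod_nil]
    exact ⟨ContinuousLinearMap.norm_id_le, zero_le_one⟩
  | cons a s ih =>
    obtain ⟨h1, h2⟩ := ih fun i hi => hb i (List.mem_cons_of_mem _ hi)
    have ha := hb a List.mem_cons_self
    have ha0 : 0 ≤ b a := (norm_nonneg _).trans ha
    rw [List.map_cons, List.prod_cons, List.map_cons, List.prod_cons]
    exact ⟨(norm_mul_le _ _).trans (mul_le_mul ha h1 (norm_nonneg _) ha0), mul_nonneg ha0 h2⟩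

/-- Core-c, with `trPsi`, `trAt`, `IsCtr` unfolded. -/
theorem tr_core_c_aux (S : StData H) (hST : OpSTHyp S) {m : ℕ} (y0 : H →L[ℂ] H)
    (y c : Fin m → H →L[ℂ] H) (_hy0 : y0 ∈ S.M) (hy : ∀ i, y i ∈ S.M) (hc : ∀ i, c i ∈ S.A)
    (h0 : Fin m) (v v' : H →L[ℂ] H) (hv : S.IsNormU v) (hv' : S.IsNormU v')
    (hsep : S.Sep (c h0) v v') (ε : ℝ) (hε : 0 < ε) :
    ∀ᶠ P : StPart S in atTop, ∀ U : Fin m → H →L[ℂ] H, (∀ h, U h ∈ S.A ∧ ‖U h‖ ≤ 1) →
      ‖∑ e ∈ P.cells, S.phi (y0 * (List.ofFn fun i =>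
        (c i * U i * (if h0 = i then (v * e * star v) * (v' * e * star v') else 1)) * y i).prod)‖
        ≤ ε := by
  obtain ⟨s, t, hst⟩ := List.append_of_mem (List.mem_finRange h0)
  have hnd : (s ++ h0 :: t).Nodup := hst ▸ List.nodup_finRange m
  have hs : ∀ i ∈ s, h0 ≠ i := by
    intro i hi h
    subst h
    have := (List.nodup_append.1 hnd).2.2 h0 hi h0 List.mem_cons_self
    exact this rfl
  have ht : ∀ i ∈ t, h0 ≠ i := by
    intro i hi h
    subst h
    exact (List.nodup_cons.1 (List.nodup_append.1 hnd).2.1).1 hi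
  set K : ℝ := ‖y0‖ * (s.map fun i => ‖c i‖ * ‖y i‖).prod with hK
  have hK0 : 0 ≤ K :=
    mul_nonneg (norm_nonneg _)
      (trc_norm_prod_le s (fun _ => (0 : H →L[ℂ] H)) (fun i => ‖c i‖ * ‖y i‖)
        (fun i _ => by simp only [norm_zero]; positivity)).2
  have hmain := trc_main S hv hv' hST (hc h0) (hy h0) (t.map fun i => c i * y i)
    (by
      intro w hw
      obtain ⟨i, -, rfl⟩ := List.mem_map.1 hw
      exact mul_mem (st_A_le_M S (hc i)) (hy i))
    hsep K hK0 ε hε
  filter_upwards [hmain] with P hP U hU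
  set G : Fin m → H →L[ℂ] H := fun i => U i * (c i * y i) with hG
  have hterm : ∀ e : H →L[ℂ] H, (List.ofFn fun i =>
        (c i * U i * (if h0 = i then (v * e * star v) * (v' * e * star v') else 1)) * y i).prod
      = (s.map G).prod * ((c h0 * U h0 * trCollT v v' e) * y h0 * (t.map G).prod) := by
    intro e
    have hcongr : ∀ i, h0 ≠ i →
        (c i * U i * (if h0 = i then (v * e * star v) * (v' * e * star v') else 1)) * y i = G i := by
      intro i hi
      rw [if_neg hi, mul_one, (st_A_comm S (hc i) (hU i).1).eq, hG, mul_assoc]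
    rw [List.ofFn_eq_map, hst, List.map_append, List.map_cons, List.prod_append, List.prod_cons,
      if_pos rfl, List.map_congr_left fun i hi => hcongr i (hs i hi),
      List.map_congr_left fun i hi => hcongr i (ht i hi)]
    rfl
  have hsum : ∑ e ∈ P.cells, S.phi (y0 * (List.ofFn fun i =>
        (c i * U i * (if h0 = i then (v * e * star v) * (v' * e * star v') else 1)) * y i).prod)
      = S.phi ((y0 * (s.map G).prod) * (c h0 * U h0 * trColl P v v') * y h0 *
          (List.zipWith (fun D y => D * y) (t.map U) (t.map fun i => c i * y i)).prod) := by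
    rw [trc_zipWith_map, trColl, Finset.mul_sum, Finset.mul_sum, Finset.sum_mul, Finset.sum_mul,
      st_phi_sum]
    refine Finset.sum_congr rfl fun e _ => ?_
    rw [hterm e]
    simp only [mul_assoc, hG]
  rw [hsum]
  refine hP _ ?_ (U h0) (hU h0).1 (hU h0).2 (t.map U) (by simp) ?_
  · refine (norm_mul_le _ _).trans ?_
    rw [hK]
    gcongr
    refine (trc_norm_prod_le s G (fun i => ‖c i‖ * ‖y i‖) fun i _ => ?_).1
    calc ‖G i‖ ≤ ‖U i‖ * ‖c i * y i‖ := norm_mul_le _ _
      _ ≤ 1 * (‖c i‖ * ‖y i‖) := by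
          gcongr
          · exact (hU i).2
          · exact norm_mul_le _ _
      _ = _ := one_mul _
  · intro D hD
    obtain ⟨i, -, rfl⟩ := List.mem_map.1 hD
    exact hU i

end Claimed.Agent.R302
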