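/-
R302 / TR / Words (TR1 in set form): sets of vectors which are uniformly approximable by `M' Om`; words `D_1 y_1 D_2 y_2 ... D_k y_k r`.   Owner: helper100.
-/
import Claimed.Agent.R302.ST.Hyp

set_option autoImplicit false

namespace Claimed.Agent.R302

open scoped InnerProductSpace ComplexOrder
open Filter Topology

attribute [-instance] WithCStarModule.instCStarModuleComplex

universe u
variable {H : Type u} [NormedAddCommGroup H] [InnerProductSpace ℂ H] [CompleteSpace H]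

/-- `R` is uniformly approximable by `c Om`, `c ∈ M'` bounded. -/
def StData.UApprox (S : StData H) (R : Set H) : Prop :=
  ∀ α > 0, ∃ C : ℝ, ∀ r ∈ R, ∃ c ∈ S.M', ‖c‖ ≤ C ∧ ‖r - c S.Om‖ ≤ α

/-- one more block and letter on the left -/
def trStep (S : StData H) (y : H →L[ℂ] H) (R : Set H) : Set H :=
  {ξ | ∃ D ∈ S.A, ‖D‖ ≤ 1 ∧ ∃ r ∈ R, ξ = D (y r)}

/-- the vectors `D_1 y_1 D_2 y_2 ... D_k y_k r`, `r ∈ B0`, `D_i` contractions of `A`. -/
def trWords (S : StData H) (B0 : Set H) : List (H →L[ℂ] H) → Set H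
  | [] => B0
  | y :: ys => trStep S y (trWords S B0 ys)

/-- `{a Om}`, `a` a contraction of `A`. -/
def StData.ballA (S : StData H) : Set H := {ξ | ∃ a ∈ S.A, ‖a‖ ≤ 1 ∧ ξ = a S.Om}

theorem tr_uapprox_ballA (S : StData H) : S.UApprox S.ballA := by
  intro α hα
  refine ⟨1, ?_⟩
  rintro r ⟨a, ha, ha1, rfl⟩
  refine ⟨S.rmul a, st_rmul_mem S (st_rbdd_A S ha), (st_rmul_A_norm S ha).trans ha1, ?_⟩
  rw [st_rmul_Om S (st_rbdd_A S ha), sub_self, norm_zero]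
  exact hα.le

theorem tr_uapprox_mono (S : StData H) {R R' : Set H} (h : R' ⊆ R) (hR : S.UApprox R) : S.UApprox R' := by
  intro α hα
  obtain ⟨C, hC⟩ := hR α hα
  exact ⟨C, fun r hr => hC r (h hr)⟩

theorem tr_uapprox_step (S : StData H) {R : Set H} (hR : S.UApprox R) {y : H →L[ℂ] H} (hy : y ∈ S.M) :
    S.UApprox (trStep S y R) := by
  intro α hα
  have h1 : 0 < α / (2 * (‖y‖ + 1)) := by positivity
  obtain ⟨C1, hC1⟩ := hR _ h1
  have h2 : 0 < α / (2 * (|C1| + 1)) := by positivity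
  obtain ⟨c2, hc2, hc2e⟩ := st_M'_dense S (y S.Om) h2
  refine ⟨|C1| * ‖c2‖, ?_⟩
  rintro ξ ⟨D, hD, hD1, r, hr, rfl⟩
  obtain ⟨c1, hc1, hc1n, hc1e⟩ := hC1 r hr
  have hDM : D ∈ S.M := st_A_le_M S hD
  have hρ := st_rmul_mem S (st_rbdd_A S hD)
  refine ⟨c1 * c2 * S.rmul D, st_M'_mul S (st_M'_mul S hc1 hc2) hρ, ?_, ?_⟩
  · calc ‖c1 * c2 * S.rmul D‖ ≤ ‖c1‖ * ‖c2‖ * ‖S.rmul D‖ :=
          (norm_mul_le _ _).trans (mul_le_mul_of_nonneg_right (norm_mul_le _ _) (norm_nonneg _))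
      _ ≤ |C1| * ‖c2‖ * 1 := by
          have : ‖S.rmul D‖ ≤ 1 := (st_rmul_A_norm S hD).trans hD1
          have h3 : ‖c1‖ ≤ |C1| := hc1n.trans (le_abs_self _)
          gcongr
      _ = |C1| * ‖c2‖ := mul_one _
  · have e1 : (c1 * c2 * S.rmul D) S.Om = c1 (D (c2 S.Om)) := by
      have : c2 (D S.Om) = D (c2 S.Om) := by
        have := hc2 D hDM
        exact congrArg (fun T : H →L[ℂ] H => T S.Om) this
      change c1 (c2 (S.rmul D S.Om)) = _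
      rw [st_rmul_Om S (st_rbdd_A S hD), this]
    have e2 : D (y (c1 S.Om)) = c1 (D (y S.Om)) := by
      have := hc1 (D * y) (mul_mem hDM hy)
      exact (congrArg (fun T : H →L[ℂ] H => T S.Om) this).symm
    have e3 : D (y r) - (c1 * c2 * S.rmul D) S.Om = D (y (r - c1 S.Om)) + c1 (D (y S.Om - c2 S.Om)) := by
      rw [e1]; simp only [map_sub]; rw [e2]; abel
    rw [e3]
    have n1 : ‖D (y (r - c1 S.Om))‖ ≤ ‖y‖ * (α / (2 * (‖y‖ + 1))) := by
      calc ‖D (y (r - c1 S.Om))‖ ≤ ‖D‖ * ‖y (r - c1 S.Om)‖ := D.le_opNorm _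
        _ ≤ 1 * (‖y‖ * ‖r - c1 S.Om‖) := by
            gcongr
            exact y.le_opNorm _
        _ ≤ ‖y‖ * (α / (2 * (‖y‖ + 1))) := by rw [one_mul]; gcongr
    have n2 : ‖c1 (D (y S.Om - c2 S.Om))‖ ≤ |C1| * (α / (2 * (|C1| + 1))) := by
      calc ‖c1 (D (y S.Om - c2 S.Om))‖ ≤ ‖c1‖ * ‖D (y S.Om - c2 S.Om)‖ := c1.le_opNorm _
        _ ≤ |C1| * (1 * ‖y S.Om - c2 S.Om‖) := by
            have h3 : ‖c1‖ ≤ |C1| := hc1n.trans (le_abs_self _)
            gcongr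
            exact (D.le_opNorm _).trans (by gcongr)
        _ ≤ |C1| * (α / (2 * (|C1| + 1))) := by rw [one_mul]; gcongr
    have m1 : ‖y‖ * (α / (2 * (‖y‖ + 1))) ≤ α / 2 := by
      have : 0 ≤ ‖y‖ := norm_nonneg _
      rw [mul_div_assoc', div_le_div_iff₀ (by positivity) (by positivity)]
      nlinarith
    have m2 : |C1| * (α / (2 * (|C1| + 1))) ≤ α / 2 := by
      have : 0 ≤ |C1| := abs_nonneg _
      rw [mul_div_assoc', div_le_div_iff₀ (by positivity) (by positivity)]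
      nlinarith
    calc _ ≤ ‖D (y (r - c1 S.Om))‖ + ‖c1 (D (y S.Om - c2 S.Om))‖ := norm_add_le _ _
      _ ≤ α / 2 + α / 2 := add_le_add (n1.trans m1) (n2.trans m2)
      _ = α := by ring

theorem tr_uapprox_words (S : StData H) {B0 : Set H} (hB : S.UApprox B0) (ys : List (H →L[ℂ] H))
    (hys : ∀ y ∈ ys, y ∈ S.M) : S.UApprox (trWords S B0 ys) := by
  induction ys with
  | nil => exact hB
  | cons y ys ih =>
    exact tr_uapprox_step S (ih fun z hz => hys z (List.mem_cons_of_mem _ hz)) (hys y List.mem_cons_self)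

theorem tr_words_bdd (S : StData H) {B0 : Set H} {C0 : ℝ} (hB : ∀ r ∈ B0, ‖r‖ ≤ C0) (ys : List (H →L[ℂ] H)) :
    ∀ r ∈ trWords S B0 ys, ‖r‖ ≤ (ys.map fun y => ‖y‖).prod * C0 := by
  induction ys with
  | nil => intro r hr; simpa using hB r hr
  | cons y ys ih =>
    rintro ξ ⟨D, -, hD1, r, hr, rfl⟩
    have := ih r hr
    calc ‖D (y r)‖ ≤ ‖D‖ * ‖y r‖ := D.le_opNorm _
      _ ≤ 1 * (‖y‖ * ‖r‖) := by gcongr; exact y.le_opNorm _
      _ ≤ 1 * (‖y‖ * ((ys.map fun y => ‖y‖).prod * C0)) := by gcongr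
      _ = _ := by simp [mul_assoc]

/-- uniform state multipliers (L7.3 for a uniformly approximable set). -/
theorem tr_uapprox_small (S : StData H) {R : Set H} (hR : S.UApprox R) (C η : ℝ) (hη : 0 < η) :
    ∃ δ > 0, ∀ Δ ∈ S.M, ‖Δ‖ ≤ C → ‖Δ S.Om‖ < δ → ∀ r ∈ R, ‖Δ r‖ ≤ η := by
  have h1 : 0 < η / (2 * (|C| + 1)) := by positivity
  obtain ⟨C1, hC1⟩ := hR _ h1
  refine ⟨η / (2 * (|C1| + 1)), by positivity, ?_⟩
  intro Δ hΔ hΔC hΔΩ r hr
  obtain ⟨c, hc, hcn, hce⟩ := hC1 r hr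
  have e1 : Δ (c S.Om) = c (Δ S.Om) := (congrArg (fun T : H →L[ℂ] H => T S.Om) (hc Δ hΔ)).symm
  have e2 : Δ r = Δ (r - c S.Om) + c (Δ S.Om) := by rw [map_sub, e1]; abel
  rw [e2]
  have n1 : ‖Δ (r - c S.Om)‖ ≤ |C| * (η / (2 * (|C| + 1))) := by
    calc _ ≤ ‖Δ‖ * ‖r - c S.Om‖ := Δ.le_opNorm _
      _ ≤ _ := by
        have : ‖Δ‖ ≤ |C| := hΔC.trans (le_abs_self _)
        gcongr
  have n2 : ‖c (Δ S.Om)‖ ≤ |C1| * (η / (2 * (|C1| + 1))) := by
    calc _ ≤ ‖c‖ * ‖Δ S.Om‖ := c.le_opNorm _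
      _ ≤ _ := by
        have : ‖c‖ ≤ |C1| := hcn.trans (le_abs_self _)
        gcongr
  have m1 : |C| * (η / (2 * (|C| + 1))) ≤ η / 2 := by
    have : 0 ≤ |C| := abs_nonneg _
    rw [mul_div_assoc', div_le_div_iff₀ (by positivity) (by positivity)]
    nlinarith
  have m2 : |C1| * (η / (2 * (|C1| + 1))) ≤ η / 2 := by
    have : 0 ≤ |C1| := abs_nonneg _
    rw [mul_div_assoc', div_le_div_iff₀ (by positivity) (by positivity)]
    nlinarith
  calc _ ≤ ‖Δ (r - c S.Om)‖ + ‖c (Δ S.Om)‖ := norm_add_le _ _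
    _ ≤ η / 2 + η / 2 := add_le_add (n1.trans m1) (n2.trans m2)
    _ = η := by ring

end Claimed.Agent.R302
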