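/-
R302 / TR / Nest : translated pinchings, nested (conjugation, pinching) maps, and their limit behaviour (the analytic heart of TR2 (d)).   Owner: helper100.
-/
import Claimed.Agent.R302.TR.Words
import Claimed.Agent.R302.TR.Pou

set_option autoImplicit false

namespace Claimed.Agent.R302

open scoped InnerProductSpace
open Filter Topology

universe u
variable {H : Type u} [NormedAddCommGroup H] [InnerProductSpace ℂ H] [CompleteSpace H]

/-- translated cells `v e v*`, indexed by the cells of `P`. -/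
noncomputable def trCell {S : StData H} (P : StPart S) (v : H →L[ℂ] H) : P.cells → H →L[ℂ] H :=
  fun e => v * (e : H →L[ℂ] H) * star v

theorem tr_cell_pou {S : StData H} (P : StPart S) {v : H →L[ℂ] H} (hv : S.IsNormU v) : TrPou (trCell P v) where
  sa := fun e => by
    have := (P.proj e e.2).2.isSelfAdjoint.star_eq
    simp only [trCell, star_mul, star_star, this, mul_assoc]
  idem := fun e => by
    have h1 := (P.proj e e.2).2.isIdempotentElem.eq
    have h2 := hv.2.1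
    calc v * (e : H →L[ℂ] H) * star v * (v * (e : H →L[ℂ] H) * star v)
        = v * (e : H →L[ℂ] H) * (star v * v) * (e : H →L[ℂ] H) * star v := by simp only [mul_assoc]
      _ = v * ((e : H →L[ℂ] H) * (e : H →L[ℂ] H)) * star v := by rw [h2]; simp only [mul_assoc, mul_one]
      _ = _ := by rw [h1]; rfl
  orth := fun e e' hne => by
    have h1 := P.orth e e.2 e' e'.2 (fun h => hne (Subtype.ext h))
    have h2 := hv.2.1
    calc v * (e : H →L[ℂ] H) * star v * (v * (e' : H →L[ℂ] H) * star v)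
        = v * (e : H →L[ℂ] H) * (star v * v) * (e' : H →L[ℂ] H) * star v := by simp only [mul_assoc]
      _ = v * ((e : H →L[ℂ] H) * (e' : H →L[ℂ] H)) * star v := by rw [h2]; simp only [mul_assoc, mul_one]
      _ = 0 := by rw [h1]; simp
  sum := by
    have h1 : ∑ e : P.cells, (e : H →L[ℂ] H) = 1 := by
      rw [Finset.sum_coe_sort P.cells (fun e => e)]; exact P.sum_eq
    simp only [trCell]
    rw [← Finset.sum_mul, ← Finset.mul_sum, h1, mul_one]
    exact hv.2.2.1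

theorem tr_cell_mem {S : StData H} (P : StPart S) {v : H →L[ℂ] H} (hv : S.IsNormU v) (e : P.cells) :
    trCell P v e ∈ S.A := hv.2.2.2.1 _ (P.proj e e.2).1

/-- translated diagonal symmetry of a sign vector on the cells of `P` -/
noncomputable def trLam {S : StData H} (P : StPart S) (v : H →L[ℂ] H) (z : P.cells → Bool) : H →L[ℂ] H :=
  trSym (trCell P v) z

theorem tr_lam_mem {S : StData H} (P : StPart S) {v : H →L[ℂ] H} (hv : S.IsNormU v) (z : P.cells → Bool) :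
    trLam P v z ∈ S.A :=
  sum_mem fun e _ => S.A.smul_mem (tr_cell_mem P hv e) _

theorem tr_lam_norm {S : StData H} (P : StPart S) {v : H →L[ℂ] H} (hv : S.IsNormU v) (z : P.cells → Bool) :
    ‖trLam P v z‖ ≤ 1 := (tr_cell_pou P hv).sym_norm_le z

theorem tr_lam_star {S : StData H} (P : StPart S) {v : H →L[ℂ] H} (hv : S.IsNormU v) (z : P.cells → Bool) :
    star (trLam P v z) = trLam P v z := (tr_cell_pou P hv).sym_star z

/-- translated pinching -/
noncomputable def trPinch {S : StData H} (P : StPart S) (v G : H →L[ℂ] H) : H →L[ℂ] H :=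
  ∑ e : P.cells, trCell P v e * G * trCell P v e

theorem tr_pinch_eq {S : StData H} (P : StPart S) (v G : H →L[ℂ] H) :
    trPinch P v G = ∑ e ∈ P.cells, (v * e * star v) * G * (v * e * star v) := by
  unfold trPinch trCell
  rw [Finset.sum_coe_sort P.cells (fun e => (v * e * star v) * G * (v * e * star v))]

open Classical in
theorem tr_pinch_avg {S : StData H} (P : StPart S) (v G : H →L[ℂ] H) :
    ∑ z : P.cells → Bool, trLam P v z * G * trLam P v z = (Fintype.card (P.cells → Bool) : ℂ) • trPinch P v G :=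
  tr_sum_sym_conj _ _

theorem tr_pinch_add {S : StData H} (P : StPart S) (v G G' : H →L[ℂ] H) :
    trPinch P v (G + G') = trPinch P v G + trPinch P v G' := by
  simp [trPinch, mul_add, add_mul, Finset.sum_add_distrib]

theorem tr_pinch_nonneg {S : StData H} (P : StPart S) {v : H →L[ℂ] H} (hv : S.IsNormU v) {G : H →L[ℂ] H} (hG : 0 ≤ G) :
    0 ≤ trPinch P v G := by
  refine Finset.sum_nonneg fun e _ => ?_
  have := star_left_conjugate_nonneg hG (trCell P v e)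
  rwa [(tr_cell_pou P hv).sa] at this

theorem tr_pinch_mem {S : StData H} (P : StPart S) {v : H →L[ℂ] H} (hv : S.IsNormU v) {G : H →L[ℂ] H} (hG : G ∈ S.M) :
    trPinch P v G ∈ S.M :=
  sum_mem fun e _ => mul_mem (mul_mem (st_A_le_M S (tr_cell_mem P hv e)) hG) (st_A_le_M S (tr_cell_mem P hv e))

theorem tr_pinch_norm_le {S : StData H} (P : StPart S) {v : H →L[ℂ] H} (hv : S.IsNormU v) (G : H →L[ℂ] H) :
    ‖trPinch P v G‖ ≤ ‖G‖ :=
  (tr_cell_pou P hv).norm_block_le (tr_cell_pou P hv) (fun _ => G) _ (norm_nonneg _) fun _ => le_rfl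

/-- nested maps: `x = (v, U, y)` acts by `G ↦ (U y)* C_{v P v*}(G) (U y)`; the head of the list acts first. -/
noncomputable def trNest {S : StData H} (P : StPart S) :
    List ((H →L[ℂ] H) × (H →L[ℂ] H) × (H →L[ℂ] H)) → (H →L[ℂ] H) → (H →L[ℂ] H)
  | [], G => G
  | x :: t, G => trNest P t (star (x.2.1 * x.2.2) * trPinch P x.1 G * (x.2.1 * x.2.2))

theorem tr_nest_add {S : StData H} (P : StPart S) (t : List ((H →L[ℂ] H) × (H →L[ℂ] H) × (H →L[ℂ] H))) :
    ∀ G G' : H →L[ℂ] H, trNest P t (G + G') = trNest P t G + trNest P t G' := by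
  induction t with
  | nil => intro G G'; rfl
  | cons x t ih =>
    intro G G'
    simp only [trNest]
    rw [tr_pinch_add, mul_add, add_mul, ih]

theorem tr_nest_nonneg {S : StData H} (P : StPart S) (t : List ((H →L[ℂ] H) × (H →L[ℂ] H) × (H →L[ℂ] H)))
    (ht : ∀ x ∈ t, S.IsNormU x.1) : ∀ G : H →L[ℂ] H, 0 ≤ G → 0 ≤ trNest P t G := by
  induction t with
  | nil => intro G hG; exact hG
  | cons x t ih =>
    intro G hG
    simp only [trNest]
    exact ih (fun z hz => ht z (List.mem_cons_of_mem _ hz)) _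
      (star_left_conjugate_nonneg (tr_pinch_nonneg P (ht x List.mem_cons_self) hG) _)

theorem tr_nest_mono {S : StData H} (P : StPart S) (t : List ((H →L[ℂ] H) × (H →L[ℂ] H) × (H →L[ℂ] H)))
    (ht : ∀ x ∈ t, S.IsNormU x.1) {G G' : H →L[ℂ] H} (h : G ≤ G') : trNest P t G ≤ trNest P t G' := by
  have h1 := tr_nest_nonneg P t ht (G' - G) (sub_nonneg.2 h)
  have h2 := tr_nest_add P t G (G' - G)
  rw [add_sub_cancel] at h2
  rw [h2]; exact le_add_of_nonneg_right h1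

theorem tr_nest_mem {S : StData H} (P : StPart S) (t : List ((H →L[ℂ] H) × (H →L[ℂ] H) × (H →L[ℂ] H)))
    (ht : ∀ x ∈ t, S.IsNormU x.1 ∧ x.2.1 ∈ S.M ∧ x.2.2 ∈ S.M) : ∀ G : H →L[ℂ] H, G ∈ S.M → trNest P t G ∈ S.M := by
  induction t with
  | nil => intro G hG; exact hG
  | cons x t ih =>
    intro G hG
    simp only [trNest]
    obtain ⟨h1, h2, h3⟩ := ht x List.mem_cons_self
    exact ih (fun z hz => ht z (List.mem_cons_of_mem _ hz)) _
      (mul_mem (mul_mem (star_mem (mul_mem h2 h3)) (tr_pinch_mem P h1 hG)) (mul_mem h2 h3))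

theorem tr_inner_conj (a X : H →L[ℂ] H) (ξ : H) : ⟪ξ, (star a * X * a) ξ⟫_ℂ = ⟪a ξ, X (a ξ)⟫_ℂ := by
  change ⟪ξ, (star a) (X (a ξ))⟫_ℂ = _
  rw [ContinuousLinearMap.star_eq_adjoint, ContinuousLinearMap.adjoint_inner_right]

open Classical in
/-- quadratic forms of a pinched operator are averages of quadratic forms. -/
theorem tr_pinch_form_le {S : StData H} (P : StPart S) {v : H →L[ℂ] H} (hv : S.IsNormU v) (W : H →L[ℂ] H) (η : H) (B : ℝ)
    (hB : ∀ z : P.cells → Bool, ‖⟪trLam P v z η, W (trLam P v z η)⟫_ℂ‖ ≤ B) : ‖⟪η, trPinch P v W η⟫_ℂ‖ ≤ B := by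
  have h1 := congrArg (fun T : H →L[ℂ] H => ⟪η, T η⟫_ℂ) (tr_pinch_avg P v W)
  simp only [sum_apply, inner_sum, smul_apply, inner_smul_right] at h1
  have h2 : ∀ z : P.cells → Bool, ⟪η, (trLam P v z * W * trLam P v z) η⟫_ℂ = ⟪trLam P v z η, W (trLam P v z η)⟫_ℂ := by
    intro z
    have := tr_inner_conj (trLam P v z) W η
    rwa [tr_lam_star P hv] at this
  simp_rw [h2] at h1
  have hc : (0 : ℝ) < (Fintype.card (P.cells → Bool) : ℝ) := by exact_mod_cast Fintype.card_pos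
  have h3 : (Fintype.card (P.cells → Bool) : ℝ) * ‖⟪η, trPinch P v W η⟫_ℂ‖ ≤ (Fintype.card (P.cells → Bool) : ℝ) * B := by
    calc (Fintype.card (P.cells → Bool) : ℝ) * ‖⟪η, trPinch P v W η⟫_ℂ‖
        = ‖(Fintype.card (P.cells → Bool) : ℂ) * ⟪η, trPinch P v W η⟫_ℂ‖ := by
          rw [norm_mul]; simp
      _ = ‖∑ z : P.cells → Bool, ⟪trLam P v z η, W (trLam P v z η)⟫_ℂ‖ := by rw [h1]
      _ ≤ ∑ z : P.cells → Bool, ‖⟪trLam P v z η, W (trLam P v z η)⟫_ℂ‖ := norm_sum_le _ _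
      _ ≤ ∑ _z : P.cells → Bool, B := Finset.sum_le_sum fun z _ => hB z
      _ = _ := by simp
  exact le_of_mul_le_mul_left h3 hc

/-- a bound for the quadratic forms of `W` on all words gives a bound for the nested map. -/
theorem tr_nest_bound {S : StData H} (P : StPart S) (B0 : Set H) (B : ℝ)
    (t : List ((H →L[ℂ] H) × (H →L[ℂ] H) × (H →L[ℂ] H)))
    (ht : ∀ x ∈ t, S.IsNormU x.1 ∧ x.2.1 ∈ S.A ∧ ‖x.2.1‖ ≤ 1) :
    ∀ W : H →L[ℂ] H, (∀ ζ ∈ trWords S B0 (t.map fun x => x.2.2), ‖⟪ζ, W ζ⟫_ℂ‖ ≤ B) →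
      ∀ ξ ∈ B0, ‖⟪ξ, trNest P t W ξ⟫_ℂ‖ ≤ B := by
  induction t with
  | nil => intro W hW ξ hξ; exact hW ξ hξ
  | cons x t ih =>
    intro W hW ξ hξ
    simp only [trNest]
    obtain ⟨h1, h2, h3⟩ := ht x List.mem_cons_self
    refine ih (fun z hz => ht z (List.mem_cons_of_mem _ hz)) _ ?_ ξ hξ
    intro ζ hζ
    rw [tr_inner_conj]
    refine tr_pinch_form_le P h1 W _ B fun z => ?_
    refine hW _ ?_
    simp only [List.map_cons, trWords]
    refine ⟨trLam P x.1 z * x.2.1, mul_mem (tr_lam_mem P h1 z) h2, ?_, ζ, hζ, rfl⟩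
    calc ‖trLam P x.1 z * x.2.1‖ ≤ ‖trLam P x.1 z‖ * ‖x.2.1‖ := norm_mul_le _ _
      _ ≤ 1 * 1 := mul_le_mul (tr_lam_norm P h1 z) h3 (norm_nonneg _) zero_le_one
      _ = 1 := one_mul 1

/-! ### auxiliary inequalities -/

theorem tr_contr_conj_le {g U : H →L[ℂ] H} (hg : 0 ≤ g) (hU : ‖U‖ ≤ 1) (h1 : Commute g U) (h2 : Commute g (star U)) :
    star U * g * U ≤ g := by
  have h3 : star U * U ≤ 1 := by
    refine (CStarAlgebra.star_mul_le_algebraMap_norm_sq (a := U)).trans ?_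
    have : ‖U‖ ^ 2 ≤ 1 := by nlinarith [norm_nonneg U]
    calc algebraMap ℝ (H →L[ℂ] H) (‖U‖ ^ 2) ≤ algebraMap ℝ (H →L[ℂ] H) 1 := algebraMap_mono _ this
      _ = 1 := map_one _
  have h4 : 0 ≤ g * (1 - star U * U) :=
    Commute.mul_nonneg hg (sub_nonneg.2 h3) ((Commute.one_right g).sub_right (h2.mul_right h1))
  have h5 : g * (1 - star U * U) = g - star U * g * U := by
    rw [mul_sub, mul_one, ← mul_assoc, h2.eq]
  rw [h5] at h4
  exact sub_nonneg.1 h4

theorem tr_phi_conj (S : StData H) (a X : H →L[ℂ] H) : S.phi (star a * X * a) = ⟪a S.Om, X (a S.Om)⟫_ℂ :=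
  tr_inner_conj a X S.Om

theorem tr_phi_re_mono (S : StData H) {x y : H →L[ℂ] H} (h : x ≤ y) : (S.phi x).re ≤ (S.phi y).re := by
  have h1 := (st_phi_nonneg S (sub_nonneg.2 h)).1
  rw [st_phi_sub, Complex.sub_re] at h1
  linarith

theorem tr_phi_A_mono_left (S : StData H) {x x' b : H →L[ℂ] H} (hx : x ∈ S.M) (hx' : x' ∈ S.M) (h : x ≤ x')
    (hb : b ∈ S.A) (hb0 : 0 ≤ b) : (S.phi (x * b)).re ≤ (S.phi (x' * b)).re := by
  have h1 := (st_phi_mul_A_nonneg S (sub_mem hx' hx) (sub_nonneg.2 h) hb hb0).1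
  rw [sub_mul, st_phi_sub, Complex.sub_re] at h1
  linarith

theorem tr_phi_A_mono_right (S : StData H) {x b b' : H →L[ℂ] H} (hx : x ∈ S.M) (hx0 : 0 ≤ x)
    (hb : b ∈ S.A) (hb' : b' ∈ S.A) (h : b ≤ b') : (S.phi (x * b)).re ≤ (S.phi (x * b')).re := by
  have h1 := (st_phi_mul_A_nonneg S hx hx0 (sub_mem hb' hb) (sub_nonneg.2 h)).1
  rw [mul_sub, st_phi_sub, Complex.sub_re] at h1
  linarith

/-- base case of the nested estimate -/
theorem tr_nest_base (S : StData H) (Q : Finset (H →L[ℂ] H)) (G a : (H →L[ℂ] H) → (H →L[ℂ] H)) (g : H →L[ℂ] H)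
    (hG : ∀ k ∈ Q, G k ∈ S.M ∧ S.EA (G k) ≤ g) (hg : g ∈ S.A) (hg0 : 0 ≤ g) (ha : ∀ k ∈ Q, a k ∈ S.A)
    (hsum : ∑ k ∈ Q, a k * star (a k) ≤ 1) :
    ∑ k ∈ Q, (S.phi (star (a k) * G k * a k)).re ≤ (S.phi g).re := by
  have h1 : ∀ k ∈ Q, (S.phi (star (a k) * G k * a k)).re ≤ (S.phi (g * (a k * star (a k)))).re := by
    intro k hk
    have hak := ha k hk
    have hb : a k * star (a k) ∈ S.A := mul_mem hak (star_mem hak)
    have e1 : S.phi (star (a k) * G k * a k) = S.phi (S.EA (G k) * (a k * star (a k))) := by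
      rw [st_EA_spec S (hG k hk).1 hb, mul_assoc, st_phi_central S (star_mem hak) (mul_mem (hG k hk).1 (st_A_le_M S hak)),
        mul_assoc]
    rw [e1]
    exact tr_phi_A_mono_left S (st_A_le_M S (st_EA_mem S (hG k hk).1)) (st_A_le_M S hg) (hG k hk).2 hb
      (mul_star_self_nonneg _)
  refine (Finset.sum_le_sum h1).trans ?_
  have e2 : ∑ k ∈ Q, (S.phi (g * (a k * star (a k)))).re = (S.phi (g * ∑ k ∈ Q, a k * star (a k))).re := by
    rw [Finset.mul_sum, st_phi_sum, Complex.re_sum]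
  rw [e2]
  have := tr_phi_A_mono_right S (st_A_le_M S hg) hg0 (sum_mem fun k hk => mul_mem (ha k hk) (star_mem (ha k hk)))
    S.A.one_mem hsum
  rwa [mul_one] at this

/-- `phi (y* g y)` is small if `phi g` is small, `g ∈ A` positive and bounded. -/
theorem tr_conj_small (S : StData H) {y : H →L[ℂ] H} (hy : y ∈ S.M) (C δ' : ℝ) (hδ' : 0 < δ') :
    ∃ δ > 0, ∀ g ∈ S.A, 0 ≤ g → ‖g‖ ≤ C → (S.phi g).re < δ → (S.phi (star y * g * y)).re < δ' := by
  have hη : 0 < δ' / (‖y S.Om‖ + 1) := by positivity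
  obtain ⟨δ0, hδ0, hmul⟩ := st_mult S hy C hη
  refine ⟨δ0 ^ 2 / (|C| + 1), by positivity, ?_⟩
  intro g hg hg0 hgC hgφ
  have hsa : star g = g := (IsSelfAdjoint.of_nonneg hg0).star_eq
  have h1 : ‖g S.Om‖ ^ 2 ≤ ‖g‖ * (S.phi g).re := by
    have e := st_phi_star_mul_self S g
    rw [hsa] at e
    have := (st_phi_mul_A_nonneg S (st_A_le_M S hg) hg0 hg hg0).2.2
    rw [e, Complex.ofReal_re] at this
    exact this
  have h2 : ‖g S.Om‖ ^ 2 < δ0 ^ 2 := by
    have hφ0 := (st_phi_nonneg S hg0).1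
    calc ‖g S.Om‖ ^ 2 ≤ ‖g‖ * (S.phi g).re := h1
      _ ≤ |C| * (S.phi g).re := by
          have : ‖g‖ ≤ |C| := hgC.trans (le_abs_self _)
          gcongr
      _ ≤ |C| * (δ0 ^ 2 / (|C| + 1)) := by gcongr
      _ < δ0 ^ 2 := by
          have h0 : 0 ≤ |C| := abs_nonneg _
          rw [mul_div_assoc', div_lt_iff₀ (by positivity)]
          nlinarith [sq_nonneg δ0, pow_pos hδ0 2]
  have h3 : ‖g S.Om‖ < δ0 := lt_of_pow_lt_pow_left₀ 2 hδ0.le h2
  have h4 := hmul g (st_A_le_M S hg) hgC h3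
  rw [tr_phi_conj]
  calc (⟪y S.Om, g (y S.Om)⟫_ℂ).re ≤ ‖⟪y S.Om, g (y S.Om)⟫_ℂ‖ := Complex.re_le_norm _
    _ ≤ ‖y S.Om‖ * ‖g (y S.Om)‖ := norm_inner_le_norm _ _
    _ ≤ ‖y S.Om‖ * (δ' / (‖y S.Om‖ + 1)) := by gcongr
    _ < δ' := by
        have h0 : 0 ≤ ‖y S.Om‖ := norm_nonneg _
        rw [mul_div_assoc', div_lt_iff₀ (by positivity)]
        nlinarith

/-- one step of the nested estimate: replace the innermost pinching by `E_A`. -/
theorem tr_nest_step (S : StData H) (P : StPart S) {v U y G a : H →L[ℂ] H}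
    (tU : List ((H →L[ℂ] H) × (H →L[ℂ] H) × (H →L[ℂ] H)))
    (htU : ∀ x ∈ tU, S.IsNormU x.1 ∧ x.2.1 ∈ S.A ∧ ‖x.2.1‖ ≤ 1)
    (hU : U ∈ S.A) (hU1 : ‖U‖ ≤ 1) (hG : G ∈ S.M) (hG0 : 0 ≤ G)
    (ha : a ∈ S.A) (ha1 : ‖a‖ ≤ 1) (B : ℝ)
    (hB : ∀ r ∈ trWords S S.ballA (y :: tU.map fun x => x.2.2), ‖⟪r, (trPinch P v G - S.EA G) r⟫_ℂ‖ ≤ B) :
    (S.phi (star a * trNest P ((v, U, y) :: tU) G * a)).re
      ≤ (S.phi (star a * trNest P tU (star y * S.EA G * y) * a)).re + B := by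
  have hE : S.EA G ∈ S.A := st_EA_mem S hG
  have hE0 : 0 ≤ S.EA G := st_EA_nonneg S hG hG0
  have e1 : trNest P ((v, U, y) :: tU) G
      = trNest P tU (star (U * y) * S.EA G * (U * y)) + trNest P tU (star (U * y) * (trPinch P v G - S.EA G) * (U * y)) := by
    rw [← tr_nest_add, ← add_mul, ← mul_add, add_sub_cancel]
    rfl
  rw [e1, mul_add, add_mul, st_phi_add, Complex.add_re]
  refine add_le_add ?_ ?_
  · refine tr_phi_re_mono S (star_left_conjugate_le_conjugate (tr_nest_mono P tU (fun x hx => (htU x hx).1) ?_) a)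
    have h1 : star (U * y) * S.EA G * (U * y) = star y * (star U * S.EA G * U) * y := by
      rw [star_mul]; simp only [mul_assoc]
    rw [h1]
    exact star_left_conjugate_le_conjugate
      (tr_contr_conj_le hE0 hU1 (st_A_comm S hE hU) (st_A_comm S hE (star_mem hU))) y
  · rw [tr_phi_conj]
    refine (Complex.re_le_norm _).trans ?_
    refine tr_nest_bound P S.ballA B tU htU _ ?_ (a S.Om) ⟨a, ha, ha1, rfl⟩
    intro ζ hζ
    rw [tr_inner_conj]
    exact hB _ ⟨U, hU, hU1, ζ, hζ, rfl⟩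

theorem tr_norm_le_one_of_sum (Q : Finset (H →L[ℂ] H)) (a : (H →L[ℂ] H) → (H →L[ℂ] H))
    (hsum : ∑ k ∈ Q, a k * star (a k) ≤ 1) {k : H →L[ℂ] H} (hk : k ∈ Q) : ‖a k‖ ≤ 1 := by
  have h1 : a k * star (a k) ≤ 1 :=
    (Finset.single_le_sum (f := fun k => a k * star (a k)) (fun i _ => mul_star_self_nonneg _) hk).trans hsum
  have h2 : ‖a k * star (a k)‖ ≤ ‖(1 : H →L[ℂ] H)‖ :=
    CStarAlgebra.norm_le_norm_of_nonneg_of_le (mul_star_self_nonneg _) h1
  have h3 : ‖a k‖ * ‖a k‖ ≤ 1 := by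
    rw [← CStarRing.norm_self_mul_star]
    exact h2.trans ContinuousLinearMap.norm_id_le
  nlinarith [norm_nonneg (a k)]

/-- THE NESTED ESTIMATE.  `t` = list of (site, letter). -/
theorem tr_nest_small (S : StData H) (t : List ((H →L[ℂ] H) × (H →L[ℂ] H))) (ht : ∀ p ∈ t, S.IsNormU p.1 ∧ p.2 ∈ S.M) :
    ∀ (C η : ℝ), 0 < η → ∃ δ > 0, ∀ (Q : Finset (H →L[ℂ] H)) (G : (H →L[ℂ] H) → (H →L[ℂ] H)) (g : H →L[ℂ] H),
      (∀ k ∈ Q, G k ∈ S.M ∧ 0 ≤ G k ∧ ‖G k‖ ≤ C ∧ S.EA (G k) ≤ g) → g ∈ S.A → 0 ≤ g → ‖g‖ ≤ C → (S.phi g).re < δ →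
      ∀ᶠ P : StPart S in atTop, ∀ tU : List ((H →L[ℂ] H) × (H →L[ℂ] H) × (H →L[ℂ] H)),
        tU.map (fun x => (x.1, x.2.2)) = t → (∀ x ∈ tU, x.2.1 ∈ S.A ∧ ‖x.2.1‖ ≤ 1) →
        ∀ a : (H →L[ℂ] H) → (H →L[ℂ] H), (∀ k ∈ Q, a k ∈ S.A) → ∑ k ∈ Q, a k * star (a k) ≤ 1 →
          ∑ k ∈ Q, (S.phi (star (a k) * trNest P tU (G k) * a k)).re ≤ η := by
  induction t with
  | nil =>
    intro C η hη
    refine ⟨η, hη, ?_⟩
    intro Q G g hG hg hg0 _ hgφ
    refine Filter.Eventually.of_forall fun P tU htU _ a ha hsum => ?_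
    have : tU = [] := by simpa using htU
    subst this
    exact (tr_nest_base S Q G a g (fun k hk => ⟨(hG k hk).1, (hG k hk).2.2.2⟩) hg hg0 ha hsum).trans hgφ.le
  | cons p t ih =>
    intro C η hη
    obtain ⟨hv, hy⟩ := ht p List.mem_cons_self
    obtain ⟨v, y⟩ := p
    simp only at hv hy
    have ht' : ∀ p ∈ t, S.IsNormU p.1 ∧ p.2 ∈ S.M := fun q hq => ht q (List.mem_cons_of_mem _ hq)
    obtain ⟨δ', hδ', H'⟩ := ih ht' (‖y‖ ^ 2 * |C|) (η / 2) (by positivity)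
    obtain ⟨δ, hδ, Hδ⟩ := tr_conj_small S hy C δ' hδ'
    refine ⟨δ, hδ, ?_⟩
    intro Q G g hG hg hg0 hgC hgφ
    -- the data of the next level
    have hnorm : ∀ X : H →L[ℂ] H, ‖X‖ ≤ C → ‖star y * X * y‖ ≤ ‖y‖ ^ 2 * |C| := by
      intro X hX
      calc ‖star y * X * y‖ ≤ ‖star y‖ * ‖X‖ * ‖y‖ :=
            (norm_mul_le _ _).trans (mul_le_mul_of_nonneg_right (norm_mul_le _ _) (norm_nonneg _))
        _ ≤ ‖y‖ * |C| * ‖y‖ := by
            rw [norm_star]
            have : ‖X‖ ≤ |C| := hX.trans (le_abs_self _)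
            gcongr
        _ = _ := by ring
    have hgM : g ∈ S.M := st_A_le_M S hg
    have hyg : star y * g * y ∈ S.M := mul_mem (mul_mem (star_mem hy) hgM) hy
    have ev1 := H' Q (fun k => star y * S.EA (G k) * y) (S.EA (star y * g * y))
      (fun k hk => by
        obtain ⟨h1, h2, h3, h4⟩ := hG k hk
        have hE := st_A_le_M S (st_EA_mem S h1)
        refine ⟨mul_mem (mul_mem (star_mem hy) hE) hy, star_left_conjugate_nonneg (st_EA_nonneg S h1 h2) y,
          hnorm _ ((st_EA_norm_le S h1).trans h3), ?_⟩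
        exact st_EA_mono S (mul_mem (mul_mem (star_mem hy) hE) hy) hyg (star_left_conjugate_le_conjugate h4 y))
      (st_EA_mem S hyg) (st_EA_nonneg S hyg (star_left_conjugate_nonneg hg0 y))
      ((st_EA_norm_le S hyg).trans (hnorm g hgC))
      (by rw [st_phi_EA S hyg]; exact Hδ g hg hg0 hgC hgφ)
    -- the error
    set ys : List (H →L[ℂ] H) := y :: t.map Prod.snd with hys
    have hysM : ∀ z ∈ ys, z ∈ S.M := by
      intro z hz
      rcases List.mem_cons.1 hz with rfl | hz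
      · exact hy
      · obtain ⟨q, hq, rfl⟩ := List.mem_map.1 hz
        exact (ht' q hq).2
    have hR : S.UApprox (trWords S S.ballA ys) := tr_uapprox_words S (tr_uapprox_ballA S) ys hysM
    set Cw : ℝ := (ys.map fun y => ‖y‖).prod * ‖S.Om‖ with hCw
    have hCw0 : 0 ≤ Cw := by
      refine mul_nonneg (List.prod_nonneg ?_) (norm_nonneg _)
      intro x hx
      obtain ⟨z, _, rfl⟩ := List.mem_map.1 hx
      exact norm_nonneg _
    have hbdd : ∀ r ∈ trWords S S.ballA ys, ‖r‖ ≤ Cw := by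
      refine tr_words_bdd S (C0 := ‖S.Om‖) ?_ ys
      rintro r ⟨a, _, ha1, rfl⟩
      calc ‖a S.Om‖ ≤ ‖a‖ * ‖S.Om‖ := a.le_opNorm _
        _ ≤ 1 * ‖S.Om‖ := by gcongr
        _ = _ := one_mul _
    have hη2 : 0 < η / (2 * ((Q.card : ℝ) + 1) * (Cw + 1)) := by positivity
    obtain ⟨δ1, hδ1, Hδ1⟩ := tr_uapprox_small S hR (2 * |C|) _ hη2
    have ev2 : ∀ᶠ P : StPart S in atTop, ∀ k ∈ Q, ‖(trPinch P v (G k) - S.EA (G k)) S.Om‖ < δ1 := by
      rw [Filter.eventually_all_finset]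
      intro k hk
      obtain ⟨P0, hP0⟩ := st_pinch_GN S (st_normU_GN S hv) (hG k hk).1 S.Om hδ1
      filter_upwards [Filter.eventually_ge_atTop P0] with P hP
      have := hP0 P hP
      simp only at this
      rwa [← tr_pinch_eq, hv.2.2.1, one_mul] at this
    filter_upwards [ev1, ev2] with P h1 h2
    intro tU htU hU a ha hsum
    obtain ⟨x, tU', rfl⟩ : ∃ x tU', tU = x :: tU' := by
      cases tU with
      | nil => simp at htU
      | cons x tU' => exact ⟨x, tU', rfl⟩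
    obtain ⟨v', U, y'⟩ := x
    simp only [List.map_cons, List.cons.injEq, Prod.mk.injEq] at htU
    obtain ⟨⟨rfl, rfl⟩, htU'⟩ := htU
    have hU' : ∀ x ∈ tU', S.IsNormU x.1 ∧ x.2.1 ∈ S.A ∧ ‖x.2.1‖ ≤ 1 := by
      intro x hx
      have h3 : (x.1, x.2.2) ∈ t := by rw [← htU']; exact List.mem_map_of_mem hx
      exact ⟨(ht' _ h3).1, hU x (List.mem_cons_of_mem _ hx)⟩
    have hmap : (tU'.map fun x => x.2.2) = t.map Prod.snd := by
      rw [← htU', List.map_map]; rfl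
    obtain ⟨hUA, hU1⟩ := hU (v', U, y') List.mem_cons_self
    simp only at hUA hU1
    have key : ∀ k ∈ Q, (S.phi (star (a k) * trNest P ((v', U, y') :: tU') (G k) * a k)).re
        ≤ (S.phi (star (a k) * trNest P tU' (star y' * S.EA (G k) * y') * a k)).re
          + Cw * (η / (2 * ((Q.card : ℝ) + 1) * (Cw + 1))) := by
      intro k hk
      obtain ⟨g1, g2, g3, g4⟩ := hG k hk
      refine tr_nest_step S P tU' hU' hUA hU1 g1 g2 (ha k hk) (tr_norm_le_one_of_sum Q a hsum hk) _ ?_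
      rw [hmap]
      intro r hr
      have hΔM : trPinch P v' (G k) - S.EA (G k) ∈ S.M := sub_mem (tr_pinch_mem P hv g1) (st_A_le_M S (st_EA_mem S g1))
      have hΔn : ‖trPinch P v' (G k) - S.EA (G k)‖ ≤ 2 * |C| := by
        calc _ ≤ ‖trPinch P v' (G k)‖ + ‖S.EA (G k)‖ := norm_sub_le _ _
          _ ≤ ‖G k‖ + ‖G k‖ := add_le_add (tr_pinch_norm_le P hv _) (st_EA_norm_le S g1)
          _ ≤ |C| + |C| := by
              have : ‖G k‖ ≤ |C| := g3.trans (le_abs_self _)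
              gcongr
          _ = _ := by ring
      calc ‖⟪r, (trPinch P v' (G k) - S.EA (G k)) r⟫_ℂ‖ ≤ ‖r‖ * ‖(trPinch P v' (G k) - S.EA (G k)) r‖ :=
            norm_inner_le_norm _ _
        _ ≤ Cw * (η / (2 * ((Q.card : ℝ) + 1) * (Cw + 1))) :=
            mul_le_mul (hbdd r hr) (Hδ1 _ hΔM hΔn (h2 k hk) r hr) (norm_nonneg _) hCw0
    calc ∑ k ∈ Q, (S.phi (star (a k) * trNest P ((v', U, y') :: tU') (G k) * a k)).re
        ≤ ∑ k ∈ Q, ((S.phi (star (a k) * trNest P tU' (star y' * S.EA (G k) * y') * a k)).re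
          + Cw * (η / (2 * ((Q.card : ℝ) + 1) * (Cw + 1)))) := Finset.sum_le_sum key
      _ = ∑ k ∈ Q, (S.phi (star (a k) * trNest P tU' (star y' * S.EA (G k) * y') * a k)).re
          + (Q.card : ℝ) * (Cw * (η / (2 * ((Q.card : ℝ) + 1) * (Cw + 1)))) := by
          rw [Finset.sum_add_distrib, Finset.sum_const, nsmul_eq_mul]
      _ ≤ η / 2 + η / 2 := by
          refine add_le_add (h1 tU' htU' (fun x hx => hU x (List.mem_cons_of_mem _ hx)) a ha hsum) ?_
          have hq : (0 : ℝ) ≤ (Q.card : ℝ) := Nat.cast_nonneg _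
          rw [mul_div_assoc', mul_div_assoc', div_le_div_iff₀ (by positivity) (by positivity)]
          nlinarith [mul_nonneg hq hCw0, mul_nonneg (mul_nonneg hq hCw0) hη.le, hη.le, mul_nonneg hq hη.le,
            mul_nonneg hCw0 hη.le]
      _ = η := by ring

end Claimed.Agent.R302
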