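/-
R302 / TR / CoreD : the analytic core of TR2 (d) in SPLIT form.   Owner: helper100.
 word = L_z * [ E0(e) U0 y0 (prod_i Lam_i(z_i) U_i y_i) Ul El(e) ] r_z,   r_z in a uniformly M'-approximable set, L_z bounded in M, y0 in Mo.
-/
import Claimed.Agent.R302.TR.Nest

set_option autoImplicit false

namespace Claimed.Agent.R302

open scoped InnerProductSpace
open Filter Topology

universe u
variable {H : Type u} [NormedAddCommGroup H] [InnerProductSpace ℂ H] [CompleteSpace H]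

theorem tr_sum_fin_succ {X : Type*} [Fintype X] {M : Type*} [AddCommMonoid M] (n : ℕ) (f : (Fin (n + 1) → X) → M) :
    ∑ z, f z = ∑ x : X, ∑ z' : Fin n → X, f (Fin.cons x z') := by
  rw [← Equiv.sum_comp (Fin.consEquiv fun _ => X) f, Fintype.sum_prod_type]
  rfl

/-- the middle word `prod_i Lam_i(z_i) U_i y_i` -/
noncomputable def trMid {S : StData H} (P : StPart S) {n : ℕ} (v U y : Fin n → H →L[ℂ] H)
    (z : Fin n → P.cells → Bool) : H →L[ℂ] H :=
  (List.ofFn fun i => trLam P (v i) (z i) * (U i * y i)).prod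

open Classical in
/-- (N1): averaging the conjugation by the middle word gives the nested map. -/
theorem tr_mid_avg {S : StData H} (P : StPart S) : ∀ {n : ℕ} (v U y : Fin n → H →L[ℂ] H) (_hv : ∀ i, S.IsNormU (v i))
    (G : H →L[ℂ] H),
    ∑ z : Fin n → P.cells → Bool, star (trMid P v U y z) * G * trMid P v U y z
      = ((Fintype.card (P.cells → Bool) : ℂ) ^ n) • trNest P (List.ofFn fun i => (v i, U i, y i)) G := by
  intro n
  induction n with
  | zero =>
    intro v U y _ G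
    simp [trMid, trNest]
  | succ n ih =>
    intro v U y hv G
    rw [tr_sum_fin_succ]
    have h1 : ∀ (x : P.cells → Bool) (z' : Fin n → P.cells → Bool),
        star (trMid P v U y (Fin.cons x z')) * G * trMid P v U y (Fin.cons x z')
          = star (trMid P (fun i => v i.succ) (fun i => U i.succ) (fun i => y i.succ) z')
            * (star (U 0 * y 0) * (trLam P (v 0) x * G * trLam P (v 0) x) * (U 0 * y 0))
            * trMid P (fun i => v i.succ) (fun i => U i.succ) (fun i => y i.succ) z' := by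
      intro x z'
      have : trMid P v U y (Fin.cons x z')
          = trLam P (v 0) x * (U 0 * y 0) * trMid P (fun i => v i.succ) (fun i => U i.succ) (fun i => y i.succ) z' := by
        simp [trMid, List.ofFn_succ]
      rw [this, star_mul, star_mul, tr_lam_star P (hv 0)]
      simp only [mul_assoc]
    simp_rw [h1]
    rw [Finset.sum_comm]
    have h2 : ∀ z' : Fin n → P.cells → Bool,
        ∑ x : P.cells → Bool, star (trMid P (fun i => v i.succ) (fun i => U i.succ) (fun i => y i.succ) z')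
            * (star (U 0 * y 0) * (trLam P (v 0) x * G * trLam P (v 0) x) * (U 0 * y 0))
            * trMid P (fun i => v i.succ) (fun i => U i.succ) (fun i => y i.succ) z'
          = (Fintype.card (P.cells → Bool) : ℂ) •
            (star (trMid P (fun i => v i.succ) (fun i => U i.succ) (fun i => y i.succ) z')
            * (star (U 0 * y 0) * trPinch P (v 0) G * (U 0 * y 0))
            * trMid P (fun i => v i.succ) (fun i => U i.succ) (fun i => y i.succ) z') := by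
      intro z'
      rw [← Finset.sum_mul, ← Finset.mul_sum, ← Finset.sum_mul, ← Finset.mul_sum, tr_pinch_avg]
      simp only [mul_smul_comm, smul_mul_assoc]
    simp_rw [h2]
    rw [← Finset.smul_sum, ih _ _ _ (fun i => hv i.succ), smul_smul, ← pow_succ']
    simp [List.ofFn_succ, trNest]

/-- summing over a partition of unity of `A` on the right of `x ∈ M`. -/
theorem tr_sum_right (S : StData H) {ι : Type*} [Fintype ι] {F : ι → H →L[ℂ] H} (hF : TrPou F) (hFA : ∀ i, F i ∈ S.A)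
    {x : H →L[ℂ] H} (hx : x ∈ S.M) : ∑ i, ‖x (F i S.Om)‖ ^ 2 = ‖x S.Om‖ ^ 2 := by
  have h : ((∑ i, ‖x (F i S.Om)‖ ^ 2 : ℝ) : ℂ) = ((‖x S.Om‖ ^ 2 : ℝ) : ℂ) := by
    rw [← st_phi_star_mul_self S x, Complex.ofReal_sum]
    have h1 : ∀ i, ((‖x (F i S.Om)‖ ^ 2 : ℝ) : ℂ) = S.phi (star x * x * F i) := by
      intro i
      have e := st_phi_star_mul_self S (x * F i)
      change _ = ((‖x (F i S.Om)‖ ^ 2 : ℝ) : ℂ) at e
      rw [← e, star_mul, hF.sa, mul_assoc,
        st_phi_central S (hFA i) (mul_mem (star_mem hx) (mul_mem hx (st_A_le_M S (hFA i))))]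
      congr 1
      calc star x * (x * F i) * F i = star x * x * (F i * F i) := by simp only [mul_assoc]
        _ = _ := by rw [hF.idem]
    simp_rw [h1]
    rw [← st_phi_sum, ← Finset.mul_sum, hF.sum, mul_one]
  exact_mod_cast h

theorem tr_normU_norm_le {S : StData H} {v : H →L[ℂ] H} (hv : S.IsNormU v) : ‖v‖ ≤ 1 := by
  have h : ‖v‖ * ‖v‖ ≤ 1 := by
    rw [← CStarRing.norm_star_mul_self, hv.2.1]
    exact ContinuousLinearMap.norm_id_le
  nlinarith [norm_nonneg v]

theorem tr_proj_norm_sq {p : H →L[ℂ] H} (hsa : star p = p) (hid : p * p = p) (ξ : H) :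
    ‖p ξ‖ ^ 2 = (⟪ξ, p ξ⟫_ℂ).re := by
  have h1 : ⟪ξ, p ξ⟫_ℂ = ⟪p ξ, p ξ⟫_ℂ := by
    have := tr_inner_conj p 1 ξ
    rw [hsa, mul_one, hid] at this
    simpa using this
  rw [h1, inner_self_eq_norm_sq_to_K]
  norm_cast

open Classical in
/-- Step C: the square sum of the middle words tends to `0`, uniformly in the contractions. -/
theorem tr_core_d_sq (S : StData H) (hST : OpSTHyp S) (hAK : OpAK S) {n : ℕ} (y0 : H →L[ℂ] H) (hy0 : y0 ∈ S.Mo)
    (v0 vl : H →L[ℂ] H) (hv0 : S.IsNormU v0) (hvl : S.IsNormU vl) (v y : Fin n → H →L[ℂ] H)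
    (hv : ∀ i, S.IsNormU (v i)) (hy : ∀ i, y i ∈ S.M) (η : ℝ) (hη : 0 < η) :
    ∀ᶠ P : StPart S in atTop, ∀ (U0 Ul : H →L[ℂ] H) (U : Fin n → H →L[ℂ] H), U0 ∈ S.A → ‖U0‖ ≤ 1 → Ul ∈ S.A → ‖Ul‖ ≤ 1 →
      (∀ i, U i ∈ S.A ∧ ‖U i‖ ≤ 1) →
      ∑ z : Fin n → P.cells → Bool, ∑ e : P.cells,
        ‖(trCell P v0 e * (U0 * y0 * trMid P v U y z * Ul) * trCell P vl e) S.Om‖ ^ 2
        ≤ (Fintype.card (P.cells → Bool) : ℝ) ^ n * η := by
  have hy0M : y0 ∈ S.M := hy0.1
  obtain ⟨δ, hδ, Hδ⟩ := tr_nest_small S (List.ofFn fun i => (v i, y i))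
    (by
      intro p hp
      obtain ⟨i, rfl⟩ := (List.mem_ofFn' _ _).1 hp
      exact ⟨hv i, hy i⟩) (‖y0‖ ^ 2) η hη
  have hMo : star v0 * y0 ∈ S.Mo := hST.Mo_mul_left _ (hST.N_star _ (hST.normU_mem_NN v0 hv0)) _ hy0
  obtain ⟨Q, g, hg, hg0, hgn, hgle, hgφ⟩ := hAK _ hMo δ hδ
  have hgn' : ‖g‖ ≤ ‖y0‖ ^ 2 := by
    refine hgn.trans ?_
    have : ‖star v0 * y0‖ ≤ ‖y0‖ := by
      calc ‖star v0 * y0‖ ≤ ‖star v0‖ * ‖y0‖ := norm_mul_le _ _
        _ ≤ 1 * ‖y0‖ := by rw [norm_star]; gcongr; exact tr_normU_norm_le hv0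
        _ = _ := one_mul _
    gcongr
  have hQ0 := tr_cell_pou Q hv0
  have hQl := tr_cell_pou Q hvl
  have sa0 : ∀ k ∈ Q.cells, star (v0 * k * star v0) = v0 * k * star v0 := fun k hk => hQ0.sa ⟨k, hk⟩
  have id0 : ∀ k ∈ Q.cells, (v0 * k * star v0) * (v0 * k * star v0) = v0 * k * star v0 := fun k hk => hQ0.idem ⟨k, hk⟩
  have sal : ∀ k ∈ Q.cells, star (vl * k * star vl) = vl * k * star vl := fun k hk => hQl.sa ⟨k, hk⟩
  have idl : ∀ k ∈ Q.cells, (vl * k * star vl) * (vl * k * star vl) = vl * k * star vl := fun k hk => hQl.idem ⟨k, hk⟩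
  set G : (H →L[ℂ] H) → (H →L[ℂ] H) := fun k => star y0 * (v0 * k * star v0) * y0 with hGdef
  have hGk : ∀ k ∈ Q.cells, G k ∈ S.M ∧ 0 ≤ G k ∧ ‖G k‖ ≤ ‖y0‖ ^ 2 ∧ S.EA (G k) ≤ g := by
    intro k hk
    have hkA : v0 * k * star v0 ∈ S.A := tr_cell_mem Q hv0 ⟨k, hk⟩
    have hk0 : 0 ≤ v0 * k * star v0 := by
      rw [← id0 k hk]; nth_rewrite 1 [← sa0 k hk]; exact star_mul_self_nonneg _
    have hk1 : ‖v0 * k * star v0‖ ≤ 1 := by
      refine ContinuousLinearMap.opNorm_le_bound _ zero_le_one fun ξ => ?_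
      rw [one_mul]; exact hQ0.norm_apply_le ⟨k, hk⟩ ξ
    refine ⟨mul_mem (mul_mem (star_mem hy0M) (st_A_le_M S hkA)) hy0M, star_left_conjugate_nonneg hk0 _, ?_, ?_⟩
    · calc ‖star y0 * (v0 * k * star v0) * y0‖ ≤ ‖star y0‖ * ‖v0 * k * star v0‖ * ‖y0‖ :=
            (norm_mul_le _ _).trans (mul_le_mul_of_nonneg_right (norm_mul_le _ _) (norm_nonneg _))
        _ ≤ ‖y0‖ * 1 * ‖y0‖ := by rw [norm_star]; gcongr
        _ = _ := by ring
    · have := hgle k hk
      have e : star (star v0 * y0) * k * (star v0 * y0) = G k := by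
        simp only [hGdef, star_mul, star_star, mul_assoc]
      rwa [e] at this
  have ev := Hδ Q.cells G g hGk hg hg0 hgn' hgφ
  filter_upwards [ev, Filter.eventually_ge_atTop Q] with P hP hQP
  intro U0 Ul U hU0 hU01 hUl hUl1 hU
  have hP0 := tr_cell_pou P hv0
  have hPl := tr_cell_pou P hvl
  set a : (H →L[ℂ] H) → (H →L[ℂ] H) := fun k => Ul * (vl * k * star vl) with hadef
  have haA : ∀ k ∈ Q.cells, a k ∈ S.A := fun k hk => mul_mem hUl (tr_cell_mem Q hvl ⟨k, hk⟩)
  have hasum : ∑ k ∈ Q.cells, a k * star (a k) ≤ 1 := by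
    have e1 : ∀ k ∈ Q.cells, a k * star (a k) = Ul * (vl * k * star vl) * star Ul := by
      intro k hk
      have h2 := idl k hk
      simp only [hadef]
      rw [star_mul, sal k hk]
      calc Ul * (vl * k * star vl) * ((vl * k * star vl) * star Ul)
          = Ul * ((vl * k * star vl) * (vl * k * star vl)) * star Ul := by simp only [mul_assoc]
        _ = _ := by rw [h2]
    rw [Finset.sum_congr rfl e1, ← Finset.sum_mul, ← Finset.mul_sum]
    have e2 : ∑ k ∈ Q.cells, vl * k * star vl = 1 := by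
      have : ∑ k : Q.cells, vl * (k : H →L[ℂ] H) * star vl = 1 := hQl.sum
      rwa [Finset.sum_coe_sort Q.cells (fun k => vl * k * star vl)] at this
    rw [e2, mul_one]
    refine (CStarAlgebra.mul_star_le_algebraMap_norm_sq (a := Ul)).trans ?_
    have : ‖Ul‖ ^ 2 ≤ 1 := by nlinarith [norm_nonneg Ul]
    calc algebraMap ℝ (H →L[ℂ] H) (‖Ul‖ ^ 2) ≤ algebraMap ℝ (H →L[ℂ] H) 1 := algebraMap_mono _ this
      _ = 1 := map_one _
  have hmain := hP (List.ofFn fun i => (v i, U i, y i)) (by simp [List.map_ofFn, Function.comp_def])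
    (by
      intro x hx
      obtain ⟨i, rfl⟩ := (List.mem_ofFn' _ _).1 hx
      exact hU i) a haA hasum
  -- the operators `w k z`
  set w : (H →L[ℂ] H) → (Fin n → P.cells → Bool) → (H →L[ℂ] H) :=
    fun k z => (v0 * k * star v0) * (y0 * (trMid P v U y z * a k)) with hwdef
  have hMidM : ∀ z, trMid P v U y z ∈ S.M := by
    intro z
    refine list_prod_mem ?_
    intro x hx
    obtain ⟨i, rfl⟩ := (List.mem_ofFn' _ _).1 hx
    exact mul_mem (st_A_le_M S (tr_lam_mem P (hv i) (z i))) (mul_mem (st_A_le_M S (hU i).1) (hy i))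
  have hwM : ∀ k ∈ Q.cells, ∀ z, w k z ∈ S.M := fun k hk z =>
    mul_mem (st_A_le_M S (tr_cell_mem Q hv0 ⟨k, hk⟩)) (mul_mem hy0M (mul_mem (hMidM z) (st_A_le_M S (haA k hk))))
  -- pointwise domination
  have step1 : ∀ (z : Fin n → P.cells → Bool) (e : P.cells),
      ‖(trCell P v0 e * (U0 * y0 * trMid P v U y z * Ul) * trCell P vl e) S.Om‖ ^ 2
        ≤ ∑ k ∈ Q.cells, ‖w k z (trCell P vl e S.Om)‖ ^ 2 := by
    intro z e
    obtain ⟨k, hk, hke⟩ := hQP e e.2
    have hek : (e : H →L[ℂ] H) * k = e := by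
      have := congrArg star hke
      rwa [star_mul, (P.proj e e.2).2.isSelfAdjoint.star_eq, (Q.proj k hk).2.isSelfAdjoint.star_eq] at this
    have e1 : trCell P v0 e = trCell P v0 e * (v0 * k * star v0) := by
      calc trCell P v0 e = v0 * ((e : H →L[ℂ] H) * k) * star v0 := by rw [hek]; rfl
        _ = v0 * (e : H →L[ℂ] H) * (star v0 * v0) * k * star v0 := by rw [hv0.2.1]; simp only [mul_assoc, one_mul]
        _ = _ := by simp only [trCell, mul_assoc]
    have e2 : trCell P vl e = (vl * k * star vl) * trCell P vl e := by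
      calc trCell P vl e = vl * (k * (e : H →L[ℂ] H)) * star vl := by rw [hke]; rfl
        _ = vl * k * (star vl * vl) * (e : H →L[ℂ] H) * star vl := by rw [hvl.2.1]; simp only [mul_assoc, one_mul]
        _ = _ := by simp only [trCell, mul_assoc]
    have hcomm : (v0 * k * star v0) * U0 = U0 * (v0 * k * star v0) := (st_A_comm S (tr_cell_mem Q hv0 ⟨k, hk⟩) hU0).eq
    have e3 : trCell P v0 e * (U0 * y0 * trMid P v U y z * Ul) * trCell P vl e
        = trCell P v0 e * U0 * w k z * trCell P vl e := by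
      conv_lhs => rw [e1, e2]
      simp only [hwdef, hadef]
      calc trCell P v0 e * (v0 * k * star v0) * (U0 * y0 * trMid P v U y z * Ul) * ((vl * k * star vl) * trCell P vl e)
          = trCell P v0 e * ((v0 * k * star v0) * U0) * (y0 * (trMid P v U y z * (Ul * (vl * k * star vl)))) * trCell P vl e := by
            simp only [mul_assoc]
        _ = _ := by rw [hcomm]; simp only [mul_assoc]
    have h4 : ‖(trCell P v0 e * (U0 * y0 * trMid P v U y z * Ul) * trCell P vl e) S.Om‖ ≤ ‖w k z (trCell P vl e S.Om)‖ := by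
      rw [e3]
      change ‖trCell P v0 e (U0 (w k z (trCell P vl e S.Om)))‖ ≤ _
      calc _ ≤ ‖U0 (w k z (trCell P vl e S.Om))‖ := hP0.norm_apply_le e _
        _ ≤ ‖U0‖ * ‖w k z (trCell P vl e S.Om)‖ := U0.le_opNorm _
        _ ≤ 1 * ‖w k z (trCell P vl e S.Om)‖ := by gcongr
        _ = _ := one_mul _
    calc _ ≤ ‖w k z (trCell P vl e S.Om)‖ ^ 2 := by gcongr
      _ ≤ _ := Finset.single_le_sum (f := fun k => ‖w k z (trCell P vl e S.Om)‖ ^ 2) (fun i _ => by positivity) hk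
  -- evaluation of `‖w k z Om‖²`
  have step2 : ∀ k ∈ Q.cells, ∀ z : Fin n → P.cells → Bool,
      ‖w k z S.Om‖ ^ 2 = (⟪a k S.Om, (star (trMid P v U y z) * G k * trMid P v U y z) (a k S.Om)⟫_ℂ).re := by
    intro k hk z
    change ‖(v0 * k * star v0) (y0 (trMid P v U y z (a k S.Om)))‖ ^ 2 = _
    rw [tr_proj_norm_sq (sa0 k hk) (id0 k hk), tr_inner_conj]
    simp only [hGdef]
    rw [tr_inner_conj]
  calc ∑ z : Fin n → P.cells → Bool, ∑ e : P.cells,
        ‖(trCell P v0 e * (U0 * y0 * trMid P v U y z * Ul) * trCell P vl e) S.Om‖ ^ 2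
      ≤ ∑ z : Fin n → P.cells → Bool, ∑ e : P.cells, ∑ k ∈ Q.cells, ‖w k z (trCell P vl e S.Om)‖ ^ 2 :=
        Finset.sum_le_sum fun z _ => Finset.sum_le_sum fun e _ => step1 z e
    _ = ∑ z : Fin n → P.cells → Bool, ∑ k ∈ Q.cells, ‖w k z S.Om‖ ^ 2 := by
        refine Finset.sum_congr rfl fun z _ => ?_
        rw [Finset.sum_comm]
        exact Finset.sum_congr rfl fun k hk => tr_sum_right S hPl (tr_cell_mem P hvl) (hwM k hk z)
    _ = ∑ k ∈ Q.cells, ∑ z : Fin n → P.cells → Bool,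
          (⟪a k S.Om, (star (trMid P v U y z) * G k * trMid P v U y z) (a k S.Om)⟫_ℂ).re := by
        rw [Finset.sum_comm]
        exact Finset.sum_congr rfl fun k hk => Finset.sum_congr rfl fun z _ => step2 k hk z
    _ = ∑ k ∈ Q.cells, (Fintype.card (P.cells → Bool) : ℝ) ^ n *
          (S.phi (star (a k) * trNest P (List.ofFn fun i => (v i, U i, y i)) (G k) * a k)).re := by
        refine Finset.sum_congr rfl fun k _ => ?_
        rw [← Complex.re_sum, ← inner_sum, ← sum_apply, tr_mid_avg P v U y hv, smul_apply, inner_smul_right, tr_phi_conj]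
        have : ((Fintype.card (P.cells → Bool) : ℂ) ^ n) = (((Fintype.card (P.cells → Bool) : ℝ) ^ n : ℝ) : ℂ) := by
          push_cast; rfl
        rw [this, Complex.re_ofReal_mul]
    _ = (Fintype.card (P.cells → Bool) : ℝ) ^ n *
          ∑ k ∈ Q.cells, (S.phi (star (a k) * trNest P (List.ofFn fun i => (v i, U i, y i)) (G k) * a k)).re := by
        rw [Finset.mul_sum]
    _ ≤ _ := by gcongr

theorem tr_mid_norm_le {S : StData H} (P : StPart S) : ∀ {n : ℕ} (v U y : Fin n → H →L[ℂ] H) (_hv : ∀ i, S.IsNormU (v i))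
    (_hU : ∀ i, ‖U i‖ ≤ 1) (z : Fin n → P.cells → Bool), ‖trMid P v U y z‖ ≤ ∏ i, ‖y i‖ := by
  intro n
  induction n with
  | zero =>
    intro v U y _ _ z
    simp only [trMid, List.ofFn_zero, List.prod_nil, Finset.univ_eq_empty, Finset.prod_empty]
    exact ContinuousLinearMap.norm_id_le
  | succ n ih =>
    intro v U y hv hU z
    have e : trMid P v U y z = trLam P (v 0) (z 0) * (U 0 * y 0)
        * trMid P (fun i => v i.succ) (fun i => U i.succ) (fun i => y i.succ) (fun i => z i.succ) := by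
      simp [trMid, List.ofFn_succ]
    rw [e, Fin.prod_univ_succ]
    have h1 : ‖trLam P (v 0) (z 0) * (U 0 * y 0)‖ ≤ ‖y 0‖ := by
      calc _ ≤ ‖trLam P (v 0) (z 0)‖ * (‖U 0‖ * ‖y 0‖) :=
            (norm_mul_le _ _).trans (mul_le_mul_of_nonneg_left (norm_mul_le _ _) (norm_nonneg _))
        _ ≤ 1 * (1 * ‖y 0‖) := by
            gcongr
            · exact tr_lam_norm P (hv 0) _
            · exact hU 0
        _ = _ := by ring
    exact (norm_mul_le _ _).trans (mul_le_mul h1 (ih _ _ _ (fun i => hv i.succ) (fun i => hU i.succ) _)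
      (norm_nonneg _) (norm_nonneg _))

theorem tr_young (a b τ : ℝ) (hτ : 0 < τ) : a * b ≤ τ / 2 * a ^ 2 + b ^ 2 / (2 * τ) := by
  rw [← sub_nonneg]
  have : τ / 2 * a ^ 2 + b ^ 2 / (2 * τ) - a * b = (τ * a - b) ^ 2 / (2 * τ) := by field_simp; ring
  rw [this]; positivity

open Classical in
/-- THE ANALYTIC CORE (d), split form. -/
theorem tr_core_d_split (S : StData H) (hST : OpSTHyp S) (hAK : OpAK S) (CL : ℝ) (R : Set H) (hR : S.UApprox R) {n : ℕ}
    (y0 : H →L[ℂ] H) (hy0 : y0 ∈ S.Mo) (v0 vl : H →L[ℂ] H) (hv0 : S.IsNormU v0) (hvl : S.IsNormU vl)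
    (v y : Fin n → H →L[ℂ] H) (hv : ∀ i, S.IsNormU (v i)) (hy : ∀ i, y i ∈ S.M) (ε : ℝ) (hε : 0 < ε) :
    ∀ᶠ P : StPart S in atTop, ∀ (L : (Fin n → P.cells → Bool) → H →L[ℂ] H) (r : (Fin n → P.cells → Bool) → H)
      (U0 Ul : H →L[ℂ] H) (U : Fin n → H →L[ℂ] H),
      (∀ z, L z ∈ S.M ∧ ‖L z‖ ≤ CL) → (∀ z, r z ∈ R) → U0 ∈ S.A → ‖U0‖ ≤ 1 → Ul ∈ S.A → ‖Ul‖ ≤ 1 →
      (∀ i, U i ∈ S.A ∧ ‖U i‖ ≤ 1) →
      ‖(∑ z : Fin n → P.cells → Bool, ∑ e : P.cells,
          ⟪S.Om, (L z * (trCell P v0 e * (U0 * y0 * trMid P v U y z * Ul) * trCell P vl e)) (r z)⟫_ℂ) /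
        (Fintype.card (Fin n → P.cells → Bool) : ℂ)‖ ≤ ε := by
  set CT : ℝ := ‖y0‖ * ∏ i, ‖y i‖ with hCT
  have hCT0 : 0 ≤ CT := mul_nonneg (norm_nonneg _) (Finset.prod_nonneg fun i _ => norm_nonneg _)
  set K1 : ℝ := ‖S.Om‖ * |CL| * CT with hK1
  have hK10 : 0 ≤ K1 := mul_nonneg (mul_nonneg (norm_nonneg _) (abs_nonneg _)) hCT0
  have hα : 0 < ε / (2 * (K1 + 1)) := by positivity
  obtain ⟨CR, hCR⟩ := hR _ hα
  set Cβ : ℝ := |CL| * |CR| * ‖S.Om‖ with hCβ
  have hCβ0 : 0 ≤ Cβ := mul_nonneg (mul_nonneg (abs_nonneg _) (abs_nonneg _)) (norm_nonneg _)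
  set τ : ℝ := ε / (2 * (Cβ ^ 2 + 1)) with hτdef
  have hτ : 0 < τ := by positivity
  have hη : 0 < τ * ε / 2 := by positivity
  filter_upwards [tr_core_d_sq S hST hAK y0 hy0 v0 vl hv0 hvl v y hv hy _ hη] with P hP
  intro L r U0 Ul U hL hr hU0 hU01 hUl hUl1 hU
  have hsq := hP U0 Ul U hU0 hU01 hUl hUl1 hU
  have hP0 := tr_cell_pou P hv0
  have hPl := tr_cell_pou P hvl
  choose c hcM hcn hce using fun z => hCR (r z) (hr z)
  set T : (Fin n → P.cells → Bool) → H →L[ℂ] H := fun z => U0 * y0 * trMid P v U y z * Ul with hT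
  have hTn : ∀ z, ‖T z‖ ≤ CT := by
    intro z
    calc ‖U0 * y0 * trMid P v U y z * Ul‖ ≤ ‖U0‖ * ‖y0‖ * ‖trMid P v U y z‖ * ‖Ul‖ := by
          refine (norm_mul_le _ _).trans (mul_le_mul_of_nonneg_right ?_ (norm_nonneg _))
          refine (norm_mul_le _ _).trans (mul_le_mul_of_nonneg_right (norm_mul_le _ _) (norm_nonneg _))
      _ ≤ 1 * ‖y0‖ * (∏ i, ‖y i‖) * 1 := by
          gcongr
          exact tr_mid_norm_le P v U y hv (fun i => (hU i).2) z
      _ = CT := by rw [hCT]; ring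
  have hTM : ∀ z, T z ∈ S.M := by
    intro z
    have hMid : trMid P v U y z ∈ S.M := by
      refine list_prod_mem ?_
      intro x hx
      obtain ⟨i, rfl⟩ := (List.mem_ofFn' _ _).1 hx
      exact mul_mem (st_A_le_M S (tr_lam_mem P (hv i) (z i))) (mul_mem (st_A_le_M S (hU i).1) (hy i))
    exact mul_mem (mul_mem (mul_mem (st_A_le_M S hU0) hy0.1) hMid) (st_A_le_M S hUl)
  set X : P.cells → (Fin n → P.cells → Bool) → H →L[ℂ] H := fun e z => trCell P v0 e * T z * trCell P vl e with hX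
  have hXM : ∀ e z, X e z ∈ S.M := fun e z =>
    mul_mem (mul_mem (st_A_le_M S (tr_cell_mem P hv0 e)) (hTM z)) (st_A_le_M S (tr_cell_mem P hvl e))
  have hLn : ∀ z, ‖L z‖ ≤ |CL| := fun z => (hL z).2.trans (le_abs_self _)
  -- part A
  have hA : ∀ z, ‖∑ e : P.cells, ⟪S.Om, (L z * X e z) (r z - c z S.Om)⟫_ℂ‖ ≤ ε / 2 := by
    intro z
    have e1 : ∑ e : P.cells, ⟪S.Om, (L z * X e z) (r z - c z S.Om)⟫_ℂ
        = ⟪S.Om, L z ((∑ e : P.cells, X e z) (r z - c z S.Om))⟫_ℂ := by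
      rw [sum_apply, map_sum, inner_sum]; rfl
    rw [e1]
    have h1 : ‖∑ e : P.cells, X e z‖ ≤ CT := hP0.norm_block_le hPl (fun _ => T z) CT hCT0 fun _ => hTn z
    calc _ ≤ ‖S.Om‖ * ‖L z ((∑ e : P.cells, X e z) (r z - c z S.Om))‖ := norm_inner_le_norm _ _
      _ ≤ ‖S.Om‖ * (|CL| * (CT * (ε / (2 * (K1 + 1))))) := by
          gcongr
          calc _ ≤ ‖L z‖ * ‖(∑ e : P.cells, X e z) (r z - c z S.Om)‖ := (L z).le_opNorm _
            _ ≤ |CL| * (CT * (ε / (2 * (K1 + 1)))) := by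
                gcongr
                · exact hLn z
                · calc _ ≤ ‖∑ e : P.cells, X e z‖ * ‖r z - c z S.Om‖ := ContinuousLinearMap.le_opNorm _ _
                    _ ≤ _ := by
                      gcongr
                      exact hce z
      _ = K1 * (ε / (2 * (K1 + 1))) := by rw [hK1]; ring
      _ ≤ ε / 2 := by
          rw [mul_div_assoc', div_le_div_iff₀ (by positivity) (by positivity)]
          nlinarith
  -- part B
  have hB : ∀ z, ‖∑ e : P.cells, ⟪S.Om, (L z * X e z) (c z S.Om)⟫_ℂ‖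
      ≤ τ / 2 * Cβ ^ 2 + (∑ e : P.cells, ‖X e z S.Om‖ ^ 2) / (2 * τ) := by
    intro z
    set β : H := star (L z) (star (c z) S.Om) with hβ
    have hβn : ‖β‖ ≤ Cβ := by
      calc ‖β‖ ≤ ‖star (L z)‖ * ‖star (c z) S.Om‖ := (star (L z)).le_opNorm _
        _ ≤ ‖star (L z)‖ * (‖star (c z)‖ * ‖S.Om‖) := by gcongr; exact (star (c z)).le_opNorm _
        _ ≤ |CL| * (|CR| * ‖S.Om‖) := by
            rw [norm_star, norm_star]
            gcongr
            · exact hLn z
            · exact (hcn z).trans (le_abs_self _)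
        _ = Cβ := by rw [hCβ]; ring
    have e1 : ∀ e : P.cells, ⟪S.Om, (L z * X e z) (c z S.Om)⟫_ℂ = ⟪trCell P v0 e β, X e z S.Om⟫_ℂ := by
      intro e
      have h1 : (L z * X e z) (c z S.Om) = c z (L z (X e z S.Om)) :=
        (congrArg (fun W : H →L[ℂ] H => W S.Om) (hcM z _ (mul_mem (hL z).1 (hXM e z)))).symm
      have h2 : X e z S.Om = trCell P v0 e (X e z S.Om) := by
        change _ = (trCell P v0 e * X e z) S.Om
        have : trCell P v0 e * X e z = X e z := by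
          change trCell P v0 e * (trCell P v0 e * T z * trCell P vl e) = trCell P v0 e * T z * trCell P vl e
          rw [← mul_assoc, ← mul_assoc, hP0.idem]
        rw [this]
      rw [h1]
      conv_lhs => rw [h2]
      rw [hβ]
      have sa := hP0.sa e
      simp only [ContinuousLinearMap.star_eq_adjoint] at sa ⊢
      rw [← ContinuousLinearMap.adjoint_inner_left (c z), ← ContinuousLinearMap.adjoint_inner_left (L z),
        ← ContinuousLinearMap.adjoint_inner_left (trCell P v0 e), sa]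
    calc ‖∑ e : P.cells, ⟪S.Om, (L z * X e z) (c z S.Om)⟫_ℂ‖
        ≤ ∑ e : P.cells, ‖⟪S.Om, (L z * X e z) (c z S.Om)⟫_ℂ‖ := norm_sum_le _ _
      _ ≤ ∑ e : P.cells, (τ / 2 * ‖trCell P v0 e β‖ ^ 2 + ‖X e z S.Om‖ ^ 2 / (2 * τ)) := by
          refine Finset.sum_le_sum fun e _ => ?_
          rw [e1]
          exact (norm_inner_le_norm _ _).trans (tr_young _ _ τ hτ)
      _ = τ / 2 * ‖β‖ ^ 2 + (∑ e : P.cells, ‖X e z S.Om‖ ^ 2) / (2 * τ) := by
          rw [Finset.sum_add_distrib, ← Finset.mul_sum, hP0.sum_norm_sq, Finset.sum_div]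
      _ ≤ _ := by gcongr
  -- assembly
  set N : ℝ := (Fintype.card (Fin n → P.cells → Bool) : ℝ) with hN
  have hN0 : 0 < N := by rw [hN]; exact_mod_cast Fintype.card_pos
  have hNpow : (Fintype.card (P.cells → Bool) : ℝ) ^ n = N := by
    rw [hN]; simp [Fintype.card_pi_const]
  have hsplit : ∀ z, ∑ e : P.cells, ⟪S.Om, (L z * X e z) (r z)⟫_ℂ
      = ∑ e : P.cells, ⟪S.Om, (L z * X e z) (r z - c z S.Om)⟫_ℂ + ∑ e : P.cells, ⟪S.Om, (L z * X e z) (c z S.Om)⟫_ℂ := by
    intro z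
    rw [← Finset.sum_add_distrib]
    refine Finset.sum_congr rfl fun e _ => ?_
    rw [← inner_add_right, ← map_add, sub_add_cancel]
  have htot : ‖∑ z : Fin n → P.cells → Bool, ∑ e : P.cells, ⟪S.Om, (L z * X e z) (r z)⟫_ℂ‖ ≤ N * ε := by
    calc _ ≤ ∑ z : Fin n → P.cells → Bool, ‖∑ e : P.cells, ⟪S.Om, (L z * X e z) (r z)⟫_ℂ‖ := norm_sum_le _ _
      _ ≤ ∑ z : Fin n → P.cells → Bool, (ε / 2 + (τ / 2 * Cβ ^ 2 + (∑ e : P.cells, ‖X e z S.Om‖ ^ 2) / (2 * τ))) := by
          refine Finset.sum_le_sum fun z _ => ?_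
          rw [hsplit]
          exact (norm_add_le _ _).trans (add_le_add (hA z) (hB z))
      _ = N * (ε / 2 + τ / 2 * Cβ ^ 2) + (∑ z : Fin n → P.cells → Bool, ∑ e : P.cells, ‖X e z S.Om‖ ^ 2) / (2 * τ) := by
          simp only [← add_assoc]
          rw [Finset.sum_add_distrib, Finset.sum_const, Finset.card_univ, nsmul_eq_mul, Finset.sum_div]
      _ ≤ N * (ε / 2 + τ / 2 * Cβ ^ 2) + (N * (τ * ε / 2)) / (2 * τ) := by
          rw [hNpow] at hsq
          gcongr
      _ = N * (ε / 2 + τ / 2 * Cβ ^ 2 + ε / 4) := by field_simp; ring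
      _ ≤ N * ε := by
          have h1 : τ / 2 * Cβ ^ 2 ≤ ε / 4 := by
            rw [hτdef]
            rw [div_div, div_mul_eq_mul_div, div_le_div_iff₀ (by positivity) (by positivity)]
            nlinarith [sq_nonneg Cβ]
          gcongr
          linarith
  rw [norm_div]
  have : ‖(Fintype.card (Fin n → P.cells → Bool) : ℂ)‖ = N := by rw [hN]; simp
  rw [this, div_le_iff₀ hN0, mul_comm]
  exact htot

end Claimed.Agent.R302
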