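/-
R302 / TR / CoreD2 : bookkeeping: from words indexed by `Fin (s + (n+2) + m')` to the split form of TR/CoreD.lean.   Owner: helper100.
-/
import Claimed.Agent.R302.TR.CoreD

set_option autoImplicit false

namespace Claimed.Agent.R302

open scoped InnerProductSpace
open Filter Topology

universe u
variable {H : Type u} [NormedAddCommGroup H] [InnerProductSpace ℂ H] [CompleteSpace H]

theorem tr_ofFn_prod_one {M : Type*} [Monoid M] {n : ℕ} (g : Fin n → M) (h : ∀ i, g i = 1) : (List.ofFn g).prod = 1 := by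
  refine List.prod_eq_one ?_
  intro x hx
  obtain ⟨i, rfl⟩ := List.mem_ofFn.1 hx
  exact h i

theorem tr_ofFn_prod_single {M : Type*} [Monoid M] : ∀ {n : ℕ} (g : Fin n → M) (j : Fin n), (∀ i, i ≠ j → g i = 1) →
    (List.ofFn g).prod = g j := by
  intro n
  induction n with
  | zero => intro g j; exact j.elim0
  | succ n ih =>
    intro g j hj
    rw [List.ofFn_succ, List.prod_cons]
    induction j using Fin.cases with
    | zero => rw [tr_ofFn_prod_one _ (fun i => hj _ (Fin.succ_ne_zero i)), mul_one]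
    | succ j' =>
      rw [hj 0 (Fin.succ_ne_zero j').symm, one_mul]
      exact ih (fun i => g i.succ) j' (fun i hi => hj _ (fun h => hi (Fin.succ_injective _ h)))

theorem tr_word_mem (S : StData H) (B0 : Set H) : ∀ {k : ℕ} (D y : Fin k → H →L[ℂ] H), (∀ i, D i ∈ S.A ∧ ‖D i‖ ≤ 1) →
    ∀ ξ ∈ B0, (List.ofFn fun i => D i * y i).prod ξ ∈ trWords S B0 (List.ofFn y) := by
  intro k
  induction k with
  | zero => intro D y _ ξ hξ; simpa [trWords] using hξ
  | succ k ih =>
    intro D y hD ξ hξ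
    rw [List.ofFn_succ, List.ofFn_succ, List.prod_cons]
    exact ⟨D 0, (hD 0).1, (hD 0).2, _, ih (fun i => D i.succ) (fun i => y i.succ) (fun i => hD i.succ) ξ hξ, rfl⟩

theorem tr_word_norm_le : ∀ {k : ℕ} (D y : Fin k → H →L[ℂ] H), (∀ i, ‖D i‖ ≤ 1) →
    ‖(List.ofFn fun i => D i * y i).prod‖ ≤ ∏ i, ‖y i‖ := by
  intro k
  induction k with
  | zero =>
    intro D y _
    simp only [List.ofFn_zero, List.prod_nil, Finset.univ_eq_empty, Finset.prod_empty]
    exact ContinuousLinearMap.norm_id_le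
  | succ k ih =>
    intro D y hD
    rw [List.ofFn_succ, List.prod_cons, Fin.prod_univ_succ]
    have h1 : ‖D 0 * y 0‖ ≤ ‖y 0‖ := by
      calc _ ≤ ‖D 0‖ * ‖y 0‖ := norm_mul_le _ _
        _ ≤ 1 * ‖y 0‖ := by gcongr; exact hD 0
        _ = _ := one_mul _
    exact (norm_mul_le _ _).trans (mul_le_mul h1 (ih (fun i => D i.succ) (fun i => y i.succ) (fun i => hD i.succ))
      (norm_nonneg _) (norm_nonneg _))

theorem tr_uapprox_singleton (S : StData H) : S.UApprox {S.Om} := by
  intro α hα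
  refine ⟨1, ?_⟩
  rintro r rfl
  refine ⟨1, fun x _ => Commute.one_left x, ContinuousLinearMap.norm_id_le, ?_⟩
  simpa using hα.le

open Classical in
/-- (d) for words indexed by `Fin (s + (n+2) + m')`, blocks described semantically. -/
theorem tr_core_d_blocks (S : StData H) (hST : OpSTHyp S) (hAK : OpAK S) {s n m' : ℕ} (y0 : H →L[ℂ] H)
    (yy : Fin (s + (n + 2) + m') → H →L[ℂ] H) (hy0 : y0 ∈ S.M) (hyy : ∀ h, yy h ∈ S.M)
    (hMo : ∀ h : Fin (s + (n + 2) + m'), (h : ℕ) = s → yy h ∈ S.Mo)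
    (v0 vl : H →L[ℂ] H) (hv0 : S.IsNormU v0) (hvl : S.IsNormU vl) (vi : Fin n → H →L[ℂ] H) (hvi : ∀ i, S.IsNormU (vi i))
    (ε : ℝ) (hε : 0 < ε) :
    ∀ᶠ P : StPart S in atTop, ∀ (D : (Fin n → P.cells → Bool) → P.cells → Fin (s + (n + 2) + m') → H →L[ℂ] H)
      (DO : (Fin n → P.cells → Bool) → Fin (s + (n + 2) + m') → H →L[ℂ] H) (U0 Ul : H →L[ℂ] H) (Ui : Fin n → H →L[ℂ] H),
      U0 ∈ S.A → ‖U0‖ ≤ 1 → Ul ∈ S.A → ‖Ul‖ ≤ 1 → (∀ i, Ui i ∈ S.A ∧ ‖Ui i‖ ≤ 1) →
      (∀ z h, DO z h ∈ S.A ∧ ‖DO z h‖ ≤ 1) →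
      (∀ z e (h : Fin (s + (n + 2) + m')), ((h : ℕ) < s ∨ s + n + 1 < (h : ℕ)) → D z e h = DO z h) →
      (∀ z e (h : Fin (s + (n + 2) + m')), (h : ℕ) = s → D z e h = trCell P v0 e * U0) →
      (∀ z e (h : Fin (s + (n + 2) + m')), (h : ℕ) = s + n + 1 → D z e h = Ul * trCell P vl e) →
      (∀ z e (h : Fin (s + (n + 2) + m')) (i : Fin n), (h : ℕ) = s + i + 1 → D z e h = trLam P (vi i) (z i) * Ui i) →
      ‖(∑ z : Fin n → P.cells → Bool, ∑ e : P.cells, S.phi (y0 * (List.ofFn fun h => D z e h * yy h).prod)) /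
        (Fintype.card (Fin n → P.cells → Bool) : ℂ)‖ ≤ ε := by
  -- the three ranges
  set iL : Fin s → Fin (s + (n + 2) + m') := fun i => (i.castLE (Nat.le_add_right s (n + 2))).castLE (Nat.le_add_right _ m') with hiL
  set iX : Fin (n + 2) → Fin (s + (n + 2) + m') := fun j => (j.natAdd s).castLE (Nat.le_add_right _ m') with hiX
  set iR : Fin m' → Fin (s + (n + 2) + m') := fun k => k.natAdd (s + (n + 2)) with hiR
  have viL : ∀ i, ((iL i : Fin _) : ℕ) = i := fun i => rfl
  have viX : ∀ j, ((iX j : Fin _) : ℕ) = s + j := fun j => rfl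
  have viR : ∀ k, ((iR k : Fin _) : ℕ) = s + (n + 2) + k := fun k => rfl
  set CL : ℝ := ‖y0‖ * ∏ i, ‖yy (iL i)‖ with hCL
  set R : Set H := trWords S {S.Om} (yy (iX (Fin.last (n + 1))) :: List.ofFn fun k => yy (iR k)) with hRdef
  have hR : S.UApprox R := by
    refine tr_uapprox_words S (tr_uapprox_singleton S) _ ?_
    intro x hx
    rcases List.mem_cons.1 hx with rfl | hx
    · exact hyy _
    · obtain ⟨k, rfl⟩ := List.mem_ofFn.1 hx
      exact hyy _
  have key := tr_core_d_split S hST hAK CL R hR (yy (iX 0)) (hMo _ (by rw [viX]; simp)) v0 vl hv0 hvl vi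
    (fun i => yy (iX i.castSucc.succ)) hvi (fun i => hyy _) ε hε
  filter_upwards [key] with P hP
  intro D DO U0 Ul Ui hU0 hU01 hUl hUl1 hUi hDO hDout hD0 hDl hDi
  have := hP (fun z => y0 * (List.ofFn fun i => DO z (iL i) * yy (iL i)).prod)
    (fun z => yy (iX (Fin.last (n + 1))) ((List.ofFn fun k => DO z (iR k) * yy (iR k)).prod S.Om)) U0 Ul Ui
    (fun z => ⟨mul_mem hy0 (list_prod_mem (by
        intro x hx
        obtain ⟨i, rfl⟩ := List.mem_ofFn.1 hx
        exact mul_mem (st_A_le_M S (hDO z _).1) (hyy _))), by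
      calc _ ≤ ‖y0‖ * ‖(List.ofFn fun i => DO z (iL i) * yy (iL i)).prod‖ := norm_mul_le _ _
        _ ≤ CL := by
          rw [hCL]
          gcongr
          exact tr_word_norm_le (fun i => DO z (iL i)) (fun i => yy (iL i)) (fun i => (hDO z _).2)⟩)
    (fun z => ⟨1, S.A.one_mem, ContinuousLinearMap.norm_id_le, _,
      tr_word_mem S {S.Om} (fun k => DO z (iR k)) (fun k => yy (iR k)) (fun k => hDO z _) S.Om rfl, rfl⟩)
    hU0 hU01 hUl hUl1 hUi
  refine le_of_eq_of_le ?_ this
  congr 2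
  refine Finset.sum_congr rfl fun z _ => Finset.sum_congr rfl fun e _ => ?_
  -- the word
  have e1 : (List.ofFn fun h => D z e h * yy h).prod
      = (List.ofFn fun i => DO z (iL i) * yy (iL i)).prod
        * ((trCell P v0 e * U0 * yy (iX 0)) * (trMid P vi Ui (fun i => yy (iX i.castSucc.succ)) z
          * (Ul * trCell P vl e * yy (iX (Fin.last (n + 1))))))
        * (List.ofFn fun k => DO z (iR k) * yy (iR k)).prod := by
    rw [List.ofFn_add, List.prod_append, List.ofFn_add, List.prod_append]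
    congr 1
    · congr 1
      · congr 1
        refine congrArg List.ofFn (funext fun i => ?_)
        change D z e (iL i) * yy (iL i) = _
        rw [hDout z e (iL i) (Or.inl (by rw [viL]; exact i.2))]
      · change (List.ofFn fun j : Fin (n + 2) => D z e (iX j) * yy (iX j)).prod = _
        rw [List.ofFn_succ, List.prod_cons, List.ofFn_succ_last, List.prod_append, List.prod_singleton]
        rw [hD0 z e (iX 0) (by rw [viX]; simp)]
        congr 1
        have hl : (Fin.last n).succ = Fin.last (n + 1) := rfl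
        rw [hl, hDl z e (iX (Fin.last (n + 1))) (by rw [viX]; simp; omega)]
        congr 1
        unfold trMid
        congr 1
        refine congrArg List.ofFn (funext fun i => ?_)
        rw [hDi z e (iX i.castSucc.succ) i (by rw [viX]; simp; omega), mul_assoc]
    · congr 1
      refine congrArg List.ofFn (funext fun k => ?_)
      change D z e (iR k) * yy (iR k) = _
      rw [hDout z e (iR k) (Or.inr (by rw [viR]; omega))]
  rw [e1]
  unfold StData.phi
  congr 1

end Claimed.Agent.R302
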