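/-
R302 / TR / Core : the ANALYTIC half of the vanishing theorem TR2.   Owner: helper100.
 trPsi S y0 y D = phi (y0 D_0 y_0 D_1 y_1 ... D_{m-1} y_{m-1}),  blocks D : Fin m -> B(H) (in A), letters y : Fin m -> M.
 tr_core_c : retained pair in one block           (Notes TR2 (c))
 tr_core_d : retained pair at the ends of an arc   (Notes TR2 (d), streamlined: interior/mate pairs are encoded by AVERAGED sign vectors z i;
             Cauchy-Schwarz on (cells) x (sign vectors);  E_z Lam(z)* Z Lam(z) = pinching of Z.)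
 Proof of tr_core_d.  Split the word: L = y0 D_0 y_0 .. D_{s-1} y_{s-1},  X = D_s y_s ... y_{s+n} D_{s+n+1},  R = y_{s+n+1} D_{s+n+2} ... y_{m-1}.
  (i)   tr_transport: R Om ~ C' Om, C' in M' a product of fixed c' in M' and rmul(D);  the error is a bounded multilinear form Delta, and
        sum_e Delta(.. E_o(e) .. E_o'(e) ..) = E_z' Delta(.. Lam_o(z') .. Lam_o'(z') ..), so the total error is <= alpha (tr_pair_bound).
  (ii)  term = <beta, X Om>, beta = E_0(e) L* C'* Om;  sum_e |beta|^2 <= (product of norms)^2.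
  (iii) E_z sum_e |X Om|^2 <= R^2 sum_e phi( E_l(e) CP(E_0(e)) E_l(e) ),  CP = nested (conjugation by letters, pinching by v_i P v_i*, conjugation by U).
  (iv)  coarse cells + pinching limit + (AK): tr_collision.
-/
import Claimed.Agent.R302.TR.Vanish
import Claimed.Agent.R302.TR.CoreC
import Claimed.Agent.R302.TR.CoreD2

set_option autoImplicit false

namespace Claimed.Agent.R302

open scoped InnerProductSpace ComplexOrder
open Filter Topology

universe u
variable {H : Type u} [NormedAddCommGroup H] [InnerProductSpace ℂ H] [CompleteSpace H]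

/-- the scalar word as a function of its diagonal blocks -/
noncomputable def trPsi (S : StData H) {m : ℕ} (y0 : H →L[ℂ] H) (y : Fin m → H →L[ℂ] H) (D : Fin m → H →L[ℂ] H) : ℂ :=
  S.phi (y0 * (List.ofFn fun i => D i * y i).prod)

-- `trLam P v z = trSym (trCell P v) z = ∑ e : P.cells, trSg (z e) • (v * e * star v)` is defined in TR/Nest.lean

/-- factor `x` inserted in block `h'` -/
def trAt {m : ℕ} (h' : Fin m) (x : H →L[ℂ] H) (h : Fin m) : H →L[ℂ] H := if h' = h then x else 1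

/-- contraction families in `A` -/
def StData.IsCtr (S : StData H) {m : ℕ} (U : Fin m → H →L[ℂ] H) : Prop := ∀ h, U h ∈ S.A ∧ ‖U h‖ ≤ 1

/-- Core-c. -/
theorem tr_core_c (S : StData H) (hST : OpSTHyp S) {m : ℕ} (y0 : H →L[ℂ] H) (y c : Fin m → H →L[ℂ] H)
    (hy0 : y0 ∈ S.M) (hy : ∀ i, y i ∈ S.M) (hc : ∀ i, c i ∈ S.A) (h0 : Fin m) (v v' : H →L[ℂ] H)
    (hv : S.IsNormU v) (hv' : S.IsNormU v') (hsep : S.Sep (c h0) v v') (ε : ℝ) (hε : 0 < ε) :
    ∀ᶠ P : StPart S in atTop, ∀ U : Fin m → H →L[ℂ] H, S.IsCtr U →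
      ‖∑ e ∈ P.cells, trPsi S y0 y fun h => c h * U h * trAt h0 ((v * e * star v) * (v' * e * star v')) h‖ ≤ ε :=
  tr_core_c_aux S hST y0 y c hy0 hy hc h0 v v' hv hv' hsep ε hε

open Classical in
/-- Core-d. -/
theorem tr_core_d (S : StData H) (hST : OpSTHyp S) (hAK : OpAK S) {m : ℕ} (y0 : H →L[ℂ] H) (y c : Fin m → H →L[ℂ] H)
    (hy0 : y0 ∈ S.M) (hy : ∀ i, y i ∈ S.M) (hMo : ∀ i : Fin m, (i : ℕ) + 1 < m → y i ∈ S.Mo) (hc : ∀ i, c i ∈ S.A)
    (n s : ℕ) (b0 bl : Fin m) (bi bi' : Fin n → Fin m) (v0 vl : H →L[ℂ] H) (vi vi' : Fin n → H →L[ℂ] H)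
    (hb0 : (b0 : ℕ) = s) (hbl : (bl : ℕ) = s + n + 1) (hbi : ∀ i, (bi i : ℕ) = s + i + 1)
    (hbi' : ∀ i, (bi' i : ℕ) < s ∨ s + n + 1 < (bi' i : ℕ))
    (hv0 : S.IsNormU v0) (hvl : S.IsNormU vl) (hvi : ∀ i, S.IsNormU (vi i)) (hvi' : ∀ i, S.IsNormU (vi' i))
    (ε : ℝ) (hε : 0 < ε) :
    ∀ᶠ P : StPart S in atTop, ∀ U : Fin m → H →L[ℂ] H, S.IsCtr U →
      ‖(∑ z : Fin n → P.cells → Bool, ∑ e ∈ P.cells, trPsi S y0 y fun h =>
          c h * U h * trAt b0 (v0 * e * star v0) h * trAt bl (vl * e * star vl) h *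
            (List.ofFn fun i => trAt (bi i) (trLam P (vi i) (z i)) h * trAt (bi' i) (trLam P (vi' i) (z i)) h).prod) /
        (Fintype.card (Fin n → P.cells → Bool) : ℂ)‖ ≤ ε := by
  have hlt : s + n + 1 < m := by rw [← hbl]; exact bl.2
  obtain ⟨m', rfl⟩ : ∃ m', m = s + (n + 2) + m' := ⟨m - (s + (n + 2)), by omega⟩
  have key := tr_core_d_blocks S hST hAK y0 (fun h => c h * y h) hy0 (fun h => mul_mem (st_A_le_M S (hc h)) (hy h))
    (fun h hh => hST.Mo_mul_left _ (hST.A_le_NN _ (hc h)) _ (hMo h (by omega))) v0 vl hv0 hvl vi hvi ε hε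
  filter_upwards [key] with P hP
  intro U hU
  have at_eq : ∀ (h' h : Fin (s + (n + 2) + m')) (x : H →L[ℂ] H), (h' : ℕ) = h → trAt h' x h = x := by
    intro h' h x hh; unfold trAt; rw [if_pos (Fin.ext hh)]
  have at_ne : ∀ (h' h : Fin (s + (n + 2) + m')) (x : H →L[ℂ] H), (h' : ℕ) ≠ h → trAt h' x h = 1 := by
    intro h' h x hh; unfold trAt; rw [if_neg (fun e => hh (congrArg Fin.val e))]
  have at_mem : ∀ (h' h : Fin (s + (n + 2) + m')) (x : H →L[ℂ] H), x ∈ S.A → ‖x‖ ≤ 1 →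
      trAt h' x h ∈ S.A ∧ ‖trAt h' x h‖ ≤ 1 := by
    intro h' h x hx hx1; unfold trAt
    split_ifs
    · exact ⟨hx, hx1⟩
    · exact ⟨S.A.one_mem, ContinuousLinearMap.norm_id_le⟩
  have mul_ctr : ∀ a b : H →L[ℂ] H, (a ∈ S.A ∧ ‖a‖ ≤ 1) → (b ∈ S.A ∧ ‖b‖ ≤ 1) → (a * b ∈ S.A ∧ ‖a * b‖ ≤ 1) := by
    intro a b ha hb
    refine ⟨mul_mem ha.1 hb.1, (norm_mul_le _ _).trans ?_⟩
    calc ‖a‖ * ‖b‖ ≤ 1 * 1 := mul_le_mul ha.2 hb.2 (norm_nonneg _) zero_le_one
      _ = 1 := one_mul 1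
  set W : (Fin n → P.cells → Bool) → Fin (s + (n + 2) + m') → H →L[ℂ] H := fun z h =>
    (List.ofFn fun i => trAt (bi i) (trLam P (vi i) (z i)) h * trAt (bi' i) (trLam P (vi' i) (z i)) h).prod with hWdef
  have hW : ∀ z h, W z h ∈ S.A ∧ ‖W z h‖ ≤ 1 := by
    intro z h
    have : ∀ l : List (H →L[ℂ] H), (∀ x ∈ l, x ∈ S.A ∧ ‖x‖ ≤ 1) → l.prod ∈ S.A ∧ ‖l.prod‖ ≤ 1 := by
      intro l
      induction l with
      | nil => intro _; exact ⟨S.A.one_mem, ContinuousLinearMap.norm_id_le⟩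
      | cons x l ih =>
        intro hl
        rw [List.prod_cons]
        exact mul_ctr _ _ (hl x List.mem_cons_self) (ih fun w hw => hl w (List.mem_cons_of_mem _ hw))
    refine this _ ?_
    intro x hx
    obtain ⟨i, rfl⟩ := List.mem_ofFn.1 hx
    exact mul_ctr _ _ (at_mem _ _ _ (tr_lam_mem P (hvi i) _) (tr_lam_norm P (hvi i) _))
      (at_mem _ _ _ (tr_lam_mem P (hvi' i) _) (tr_lam_norm P (hvi' i) _))
  have hW1 : ∀ z (h : Fin (s + (n + 2) + m')), ((h : ℕ) = s ∨ (h : ℕ) = s + n + 1) → W z h = 1 := by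
    intro z h hh
    refine tr_ofFn_prod_one _ fun i => ?_
    rw [at_ne _ _ _ (by have := hbi i; omega), at_ne _ _ _ (by have := hbi' i; omega), one_mul]
  have hWi : ∀ z (h : Fin (s + (n + 2) + m')) (j : Fin n), (h : ℕ) = s + j + 1 → W z h = trLam P (vi j) (z j) := by
    intro z h j hh
    have := tr_ofFn_prod_single
      (fun i => trAt (bi i) (trLam P (vi i) (z i)) h * trAt (bi' i) (trLam P (vi' i) (z i)) h) j (by
        intro i hij
        have hij' : (i : ℕ) ≠ j := fun e => hij (Fin.ext e)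
        rw [at_ne _ _ _ (by have := hbi i; omega), at_ne _ _ _ (by have := hbi' i; have := j.2; omega), one_mul])
    simp only [hWdef]
    rw [this, at_eq _ _ _ (by have := hbi j; omega), at_ne _ _ _ (by have := hbi' j; have := j.2; omega), mul_one]
  have cellc : ∀ (v : H →L[ℂ] H), S.IsNormU v → ∀ e : P.cells, trCell P v e ∈ S.A ∧ ‖trCell P v e‖ ≤ 1 := by
    intro v hv e
    refine ⟨tr_cell_mem P hv e, ContinuousLinearMap.opNorm_le_bound _ zero_le_one fun ξ => ?_⟩
    rw [one_mul]; exact (tr_cell_pou P hv).norm_apply_le e ξ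
  have main := hP (fun z e h => U h * trAt b0 (trCell P v0 e) h * trAt bl (trCell P vl e) h * W z h)
    (fun z h => U h * W z h) (U b0) (U bl) (fun i => U (bi i)) (hU b0).1 (hU b0).2 (hU bl).1 (hU bl).2 (fun i => hU (bi i))
    (fun z h => mul_ctr _ _ (hU h) (hW z h))
    (by
      intro z e h hh
      rw [at_ne _ _ _ (by omega), at_ne _ _ _ (by omega), mul_one, mul_one])
    (by
      intro z e h hh
      have : h = b0 := Fin.ext (by omega)
      subst this
      rw [at_eq _ _ _ rfl, at_ne _ _ _ (by omega), hW1 z _ (Or.inl hh), mul_one, mul_one]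
      exact (st_A_comm S (hU _).1 (tr_cell_mem P hv0 e)).eq)
    (by
      intro z e h hh
      have : h = bl := Fin.ext (by omega)
      subst this
      rw [at_ne _ _ _ (by omega), at_eq _ _ _ rfl, hW1 z _ (Or.inr hh), mul_one, mul_one])
    (by
      intro z e h i hh
      have : h = bi i := Fin.ext (by have := hbi i; omega)
      subst this
      rw [at_ne _ _ _ (by omega), at_ne _ _ _ (by have := i.2; omega), hWi z _ i hh, mul_one, mul_one]
      exact (st_A_comm S (hU (bi i)).1 (tr_lam_mem P (hvi i) _)).eq)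
  refine le_of_eq_of_le ?_ main
  congr 2
  refine Finset.sum_congr rfl fun z _ => ?_
  rw [← Finset.sum_coe_sort P.cells]
  refine Finset.sum_congr rfl fun e _ => ?_
  unfold trPsi
  congr 3
  refine congrArg List.ofFn (funext fun h => ?_)
  have hD : U h * trAt b0 (trCell P v0 e) h * trAt bl (trCell P vl e) h * W z h ∈ S.A :=
    (mul_ctr _ _ (mul_ctr _ _ (mul_ctr _ _ (hU h) (at_mem _ _ _ (cellc v0 hv0 e).1 (cellc v0 hv0 e).2))
      (at_mem _ _ _ (cellc vl hvl e).1 (cellc vl hvl e).2)) (hW z h)).1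
  calc c h * U h * trAt b0 (v0 * (e : H →L[ℂ] H) * star v0) h * trAt bl (vl * (e : H →L[ℂ] H) * star vl) h * W z h * y h
      = c h * (U h * trAt b0 (trCell P v0 e) h * trAt bl (trCell P vl e) h * W z h) * y h := by
        simp only [mul_assoc, trCell]
    _ = (U h * trAt b0 (trCell P v0 e) h * trAt bl (trCell P vl e) h * W z h) * c h * y h := by
        rw [(st_A_comm S (hc h) hD).eq]
    _ = _ := by rw [mul_assoc]

end Claimed.Agent.R302
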