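/-
R302 / TR / FreeDense (TR5b; owner helper283): `V_1 + V_2` is dense in `H_0`.
Idea: `cl := closure (V_1 + V_2)` is invariant under the constants of `M` (exact: decompose the first letter) and under the cylinder evaluations
(normal form; a reduced monomial in front of a word starting in `Mo` is a word; in front of a word starting with `n ∈ N` approximate `n` by `∑ a u`
(right multipliers) and use `d (a u) d₁ = (a u) (u* d u) d₁`: induction on the length of the tail).
-/
import Claimed.Agent.R302.TR.FreeWord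

set_option autoImplicit false
set_option linter.unusedSectionVars false

namespace Claimed.Agent.R302

open scoped InnerProductSpace ComplexOrder ENNReal
open Filter Topology

universe u
variable {H : Type u} [NormedAddCommGroup H] [InnerProductSpace ℂ H] [CompleteSpace H] [Nontrivial H]

/-- span of all words with reduced tail and first letter in `M`. -/
noncomputable def trfW (S : StData H) : Submodule ℂ (opK S) :=
  Submodule.span ℂ {ξ | ∃ y0 ∈ S.M, ∃ L, S.IsRedTail L ∧ ξ = opVec S y0 L}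

theorem trf_vec_mem_V (S : StData H) (hST : OpSTHyp S) {x : H →L[ℂ] H} (hx : x ∈ S.M)
    {L : List (OpMono H × (H →L[ℂ] H))} (hL : S.IsRedTail L) : opVec S x L ∈ opV1 S ⊔ opV2 S := by
  obtain ⟨n, hn, hy, -, -⟩ := hST.decomp x hx
  have h1 : opVec S x L = opVec S (x - n) L + opVec S n L := by
    rw [← trf_vec_add S _ _ hL.1, sub_add_cancel]
  rw [h1]
  exact Submodule.add_mem_sup (Submodule.subset_span ⟨_, hy, L, hL, rfl⟩)
    (Submodule.subset_span ⟨_, hn, L, hL, rfl⟩)

theorem trf_V_eq (S : StData H) (hST : OpSTHyp S) : opV1 S ⊔ opV2 S = trfW S := by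
  apply le_antisymm
  · refine sup_le (Submodule.span_mono ?_) (Submodule.span_mono ?_)
    · rintro _ ⟨y0, hy0, L, hL, rfl⟩
      exact ⟨y0, hy0.1, L, hL, rfl⟩
    · rintro _ ⟨y0, hy0, L, hL, rfl⟩
      exact ⟨y0, hy0.1, L, hL, rfl⟩
  · refine Submodule.span_le.2 ?_
    rintro _ ⟨y0, hy0, L, hL, rfl⟩
    exact trf_vec_mem_V S hST hy0 hL

/-- the closure of `V_1 + V_2`. -/
noncomputable def trfCl (S : StData H) : Submodule ℂ (opK S) := (trfW S).topologicalClosure

theorem trf_isClosed_cl (S : StData H) : IsClosed (trfCl S : Set (opK S)) :=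
  Submodule.isClosed_topologicalClosure _

theorem trf_vec_mem_cl (S : StData H) {x : H →L[ℂ] H} (hx : x ∈ S.M)
    {L : List (OpMono H × (H →L[ℂ] H))} (hL : S.IsRedTail L) : opVec S x L ∈ trfCl S :=
  Submodule.le_topologicalClosure _ (Submodule.subset_span ⟨x, hx, L, hL, rfl⟩)

/-- a bounded operator mapping the generating words into `cl` leaves `cl` invariant. -/
theorem trf_map_cl (S : StData H) (T : opK S →L[ℂ] opK S)
    (h : ∀ y0 ∈ S.M, ∀ L, S.IsRedTail L → T (opVec S y0 L) ∈ trfCl S) {ξ : opK S}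
    (hξ : ξ ∈ trfCl S) : T ξ ∈ trfCl S := by
  have h1 : trfW S ≤ (trfCl S).comap (T : opK S →ₗ[ℂ] opK S) := by
    refine Submodule.span_le.2 ?_
    rintro _ ⟨y0, hy0, L, hL, rfl⟩
    exact h y0 hy0 L hL
  have h2 : IsClosed (((trfCl S).comap (T : opK S →ₗ[ℂ] opK S) : Submodule ℂ (opK S)) : Set (opK S)) :=
    (trf_isClosed_cl S).preimage T.continuous
  exact Submodule.topologicalClosure_minimal _ h1 h2 hξ

/-- (I1) invariance under the constants of `M`. -/
theorem trf_const_cl (S : StData H) {x : H →L[ℂ] H} (hx : x ∈ S.M) {ξ : opK S}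
    (hξ : ξ ∈ trfCl S) : opPi S (opConst S x) ξ ∈ trfCl S := by
  refine trf_map_cl S _ (fun y0 hy0 L hL => ?_) hξ
  rw [← trf_vec_mul S x y0 hL.1]
  exact trf_vec_mem_cl S (mul_mem hx hy0) hL

theorem trf_sym_normU (S : StData H) {u : H →L[ℂ] H} (hu : S.IsSym u) : S.IsNormU u := by
  obtain ⟨hM, hsa, huu, hconj, -⟩ := hu
  refine ⟨hM, by rw [hsa.star_eq, huu], by rw [hsa.star_eq, huu], fun a ha => ?_, fun a ha => ?_⟩
  · rw [hsa.star_eq]; exact hconj a ha
  · rw [hsa.star_eq]; exact hconj a ha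

theorem trf_A_comm (S : StData H) {a a' : H →L[ℂ] H} (ha : a ∈ S.A) (ha' : a' ∈ S.A) :
    a * a' = a' * a := (((S.masa a).1 ha).2 a' ha').eq

theorem trf_A_le_M (S : StData H) {a : H →L[ℂ] H} (ha : a ∈ S.A) : a ∈ S.M := ((S.masa a).1 ha).1

/-- `d (a u) d₁ = (a u) ((u* d u) d₁)`. -/
theorem trf_step (S : StData H) {d d₁ : OpMono H} (hd : S.IsRed d) (hd₁ : S.IsRed d₁)
    {a u : H →L[ℂ] H} (ha : a ∈ S.A) (hu : S.IsSym u) :
    ∃ b', OpCyl S b' ∧
      opEv S d.eval * (opConst S (a * u) * opEv S d₁.eval) = opConst S (a * u) * opEv S b' := by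
  have hdc := trf_red_cyl S hd
  have hd₁c := trf_red_cyl S hd₁
  obtain ⟨b'', hb'', hbb⟩ := tr_cyl_conj S hdc (trf_sym_normU S hu)
  refine ⟨fun w => b'' w * d₁.eval w, hb''.mul hd₁c, ?_⟩
  have hdb := StData.BddFun.of_cyl hdc
  have hd₁b := StData.BddFun.of_cyl hd₁c
  have hb''b := StData.BddFun.of_cyl hb''
  rw [← trf_ev_const, ← trf_ev_mul (StData.BddFun.const _) hd₁b,
    ← trf_ev_mul hdb ((StData.BddFun.const _).mul hd₁b),
    ← trf_ev_mul (StData.BddFun.const _) (hb''b.mul hd₁b)]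
  refine trf_ev_congr fun w hw => ?_
  have h1 : d.eval w * a = a * d.eval w := trf_A_comm S (tr_cyl_mem S hdc hw) ha
  have h2 : u * star u = 1 := (trf_sym_normU S hu).2.2.1
  rw [hbb w hw]
  calc d.eval w * (a * u * d₁.eval w) = (d.eval w * a) * u * d₁.eval w := by noncomm_ring
    _ = a * (1 * d.eval w) * u * d₁.eval w := by rw [h1]; noncomm_ring
    _ = a * u * (star u * d.eval w * u * d₁.eval w) := by rw [← h2]; noncomm_ring

/-- list sums of evaluations. -/
theorem trf_ev_list_sum_mem (S : StData H) (ds : List (OpMono H)) (hds : ∀ d ∈ ds, S.IsRed d)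
    (ξ : opK S) (V : Submodule ℂ (opK S)) (h : ∀ d ∈ ds, opPi S (opEv S d.eval) ξ ∈ V) :
    S.BddFun (fun w => (ds.map fun d => d.eval w).sum) ∧
      opPi S (opEv S fun w => (ds.map fun d => d.eval w).sum) ξ ∈ V := by
  induction ds with
  | nil =>
    refine ⟨by simpa using StData.BddFun.const (S := S) 0, ?_⟩
    have : (fun w : ℕ → H →L[ℂ] H => (([] : List (OpMono H)).map fun d => d.eval w).sum) =
        fun _ => 0 := by funext w; simp
    rw [this, trf_ev_const, trf_const_zero, map_zero]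
    exact V.zero_mem
  | cons d ds ih =>
    obtain ⟨ih1, ih2⟩ := ih (fun d hd => hds d (List.mem_cons_of_mem _ hd))
      (fun d hd => h d (List.mem_cons_of_mem _ hd))
    have hdb := StData.BddFun.of_cyl (trf_red_cyl S (hds d (List.mem_cons_self ..)))
    have : (fun w : ℕ → H →L[ℂ] H => ((d :: ds).map fun d => d.eval w).sum) =
        fun w => d.eval w + (ds.map fun d => d.eval w).sum := by funext w; simp
    rw [this]
    refine ⟨hdb.add ih1, ?_⟩
    rw [trf_ev_add hdb ih1, map_add, add_apply]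
    exact V.add_mem (h d (List.mem_cons_self ..)) ih2

/-- reduction of a cylinder function to reduced monomials. -/
theorem trf_cyl_of_red (S : StData H) (hST : OpSTHyp S) {ξ : opK S} (hξ : ξ ∈ trfCl S)
    (h : ∀ d, S.IsRed d → opPi S (opEv S d.eval) ξ ∈ trfCl S)
    {b : (ℕ → H →L[ℂ] H) → H →L[ℂ] H} (hb : OpCyl S b) : opPi S (opEv S b) ξ ∈ trfCl S := by
  obtain ⟨β, hβ, ds, hds, hform⟩ := tr_normal_form S hST hb
  obtain ⟨h1, h2⟩ := trf_ev_list_sum_mem S ds hds ξ (trfCl S) fun d hd => h d (hds d hd)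
  rw [trf_ev_congr hform, trf_ev_add (StData.BddFun.const β) h1, trf_ev_const, map_add, add_apply]
  exact (trfCl S).add_mem (trf_const_cl S (trf_A_le_M S hβ) hξ) h2

/-- an inner letter `n ∈ N` may be replaced by elements of `Nalg` (right multipliers). -/
theorem trf_bad_term (S : StData H) (hST : OpSTHyp S) {d : OpMono H} (hd : S.IsRed d)
    {L : List (OpMono H × (H →L[ℂ] H))} (hL : S.IsRedTail L) {n : H →L[ℂ] H} (hn : n ∈ S.NN)
    (halg : ∀ n' ∈ S.Nalg, opPi S (opEv S d.eval) (opVec S n' L) ∈ trfCl S) :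
    opPi S (opEv S d.eval) (opVec S n L) ∈ trfCl S := by
  have happ : ∀ j : ℕ, ∃ n' ∈ S.Nalg, ‖n'‖ ≤ 2 * ‖n‖ ∧ ‖(n - n') S.Om‖ < 1 / ((j : ℝ) + 1) := by
    intro j
    obtain ⟨n', hn', h2, h3, -, -⟩ := hST.approx n hn (1 / ((j : ℝ) + 1)) (by positivity)
    exact ⟨n', hn', h2, h3⟩
  choose n' hn'alg hn'norm hn'Om using happ
  have hn'M : ∀ j, n' j ∈ S.M := fun j => (hST.Nalg_le_NN _ (hn'alg j)).1
  let D : ℕ → opK S →L[ℂ] opK S := fun j => opPi S (opEv S d.eval * opConst S (n - n' j))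
  have hDb : TrBdd (opLL S) D := by
    refine ⟨fun j => trf_pi_mem_LL S (mul_mem (trf_ev_mem_alg S (trf_red_cyl S hd))
      (trf_const_mem_alg S (sub_mem hn.1 (hn'M j)))), ‖opEv S d.eval‖ * (‖n‖ + 2 * ‖n‖), fun j => ?_⟩
    refine (trf_norm_pi_le S _).trans ((norm_mul_le _ _).trans
      (mul_le_mul_of_nonneg_left ?_ (norm_nonneg _)))
    exact (trf_norm_const_le S _).trans ((norm_sub_le _ _).trans
      (add_le_add_right (hn'norm j) _))
  have hD0 : TrNull (opVac S) D := by
    unfold TrNull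
    have h2 : Tendsto (fun j : ℕ => ‖opEv S d.eval‖ * (1 / ((j : ℝ) + 1))) atTop (𝓝 0) := by
      simpa using tendsto_one_div_add_atTop_nhds_zero_nat.const_mul ‖opEv S d.eval‖
    refine squeeze_zero (fun _ => norm_nonneg _) (fun j => ?_) h2
    change ‖opPi S (opEv S d.eval * opConst S (n - n' j)) (opVac S)‖ ≤ _
    rw [map_mul, mul_apply_eq_comp]
    refine ((opPi S (opEv S d.eval)).le_opNorm _).trans (mul_le_mul (trf_norm_pi_le S _) ?_
      (norm_nonneg _) (norm_nonneg _))
    rw [trf_norm_const_vec]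
    exact (hn'Om j).le
  have hmult := (trf_mult_word S hST (one_mem S.M) hL.1 hL.2.1).2 D hDb hD0
  unfold TrNull at hmult
  -- identify the vectors
  have h3 : ∀ z : H →L[ℂ] H, opVec S z L = opPi S (opConst S z) (opVec S 1 L) := by
    intro z
    rw [← trf_vec_mul S z 1 hL.1, mul_one]
  have hid : ∀ j, (D j * opPi S (opEv S (opWord 1 L))) (opVac S) =
      opPi S (opEv S d.eval) (opVec S n L) - opPi S (opEv S d.eval) (opVec S (n' j) L) := by
    intro j
    rw [h3 n, h3 (n' j), mul_apply_eq_comp]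
    change opPi S (opEv S d.eval * opConst S (n - n' j)) (opVec S 1 L) = _
    rw [map_mul, trf_const_sub, map_sub, mul_apply_eq_comp, sub_apply, map_sub]
  have hlim : Tendsto (fun j => opPi S (opEv S d.eval) (opVec S (n' j) L)) atTop
      (𝓝 (opPi S (opEv S d.eval) (opVec S n L))) := by
    rw [tendsto_iff_norm_sub_tendsto_zero]
    refine hmult.congr fun j => ?_
    rw [hid j, ← norm_neg, neg_sub]
  exact (trf_isClosed_cl S).mem_of_tendsto hlim (Eventually.of_forall fun j => halg _ (hn'alg j))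

/-- (I2) on words, by induction on the tail. -/
theorem trf_cyl_word_cl (S : StData H) (hST : OpSTHyp S) (L : List (OpMono H × (H →L[ℂ] H))) :
    S.IsRedTail L → ∀ b, OpCyl S b → ∀ x ∈ S.M, opPi S (opEv S b) (opVec S x L) ∈ trfCl S := by
  induction L with
  | nil =>
    intro hL b hb x hx
    refine trf_cyl_of_red S hST (trf_vec_mem_cl S hx hL) (fun d hd => ?_) hb
    rw [← trf_vec_one_cons S x hd hL.1]
    exact trf_vec_mem_cl S (one_mem _) ((trf_redTail_cons S).2 ⟨hd, hx, fun h => absurd rfl h, hL⟩)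
  | cons p L' ih =>
    obtain ⟨d₁, y₁⟩ := p
    intro hL b hb x hx
    obtain ⟨hd₁, hy₁, -, hL'⟩ := (trf_redTail_cons S).1 hL
    refine trf_cyl_of_red S hST (trf_vec_mem_cl S hx hL) (fun d hd => ?_) hb
    obtain ⟨n, hn, hy, -, -⟩ := hST.decomp x hx
    have h1 : opVec S x ((d₁, y₁) :: L') = opVec S (x - n) ((d₁, y₁) :: L') + opVec S n ((d₁, y₁) :: L') := by
      rw [← trf_vec_add S _ _ hL.1, sub_add_cancel]
    rw [h1, map_add]
    refine (trfCl S).add_mem ?_ ?_
    · rw [← trf_vec_one_cons S _ hd hL.1]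
      exact trf_vec_mem_cl S (one_mem _) ((trf_redTail_cons S).2 ⟨hd, hy.1, fun _ => hy, hL⟩)
    · -- the bad term: inner letter `n ∈ N`
      set v : opK S := opVec S y₁ L' with hv
      have hvec : ∀ z : H →L[ℂ] H, opVec S z ((d₁, y₁) :: L') =
          opPi S (opConst S z) (opPi S (opEv S d₁.eval) v) := fun z => trf_vec_cons S z y₁ hd₁ hL'.1
      -- elements of `Nalg`
      have halg : ∀ n' ∈ S.Nalg, opPi S (opEv S d.eval) (opVec S n' ((d₁, y₁) :: L')) ∈ trfCl S := by
        intro n' hn'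
        induction hn' using Submodule.span_induction with
        | mem z hz =>
          obtain ⟨a, ha, u, hu, rfl⟩ := hz
          obtain ⟨b', hb', hstep⟩ := trf_step S hd hd₁ ha hu
          have h2 : opPi S (opEv S d.eval) (opVec S (a * u) ((d₁, y₁) :: L')) =
              opPi S (opConst S (a * u)) (opPi S (opEv S b') v) := by
            rw [hvec, ← mul_apply_eq_comp, ← mul_apply_eq_comp, ← mul_apply_eq_comp, ← map_mul,
              ← map_mul, ← map_mul, mul_assoc, hstep]
          rw [h2]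
          exact trf_const_cl S (mul_mem (trf_A_le_M S ha) hu.1) (ih hL' b' hb' y₁ hy₁)
        | zero =>
          rw [hvec, trf_const_zero, map_zero, zero_apply, map_zero]
          exact (trfCl S).zero_mem
        | add z z' _ _ hz hz' =>
          rw [trf_vec_add S _ _ hL.1, map_add]
          exact (trfCl S).add_mem hz hz'
        | smul c z _ hz =>
          rw [hvec, trf_const_smul, map_smul, smul_apply, map_smul, ← hvec]
          exact (trfCl S).smul_mem c hz
      exact trf_bad_term S hST hd hL hn halg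

/-- (I2) invariance under cylinder evaluations. -/
theorem trf_cyl_cl (S : StData H) (hST : OpSTHyp S) {b : (ℕ → H →L[ℂ] H) → H →L[ℂ] H}
    (hb : OpCyl S b) {ξ : opK S} (hξ : ξ ∈ trfCl S) : opPi S (opEv S b) ξ ∈ trfCl S :=
  trf_map_cl S _ (fun y0 hy0 L hL => trf_cyl_word_cl S hST L hL b hb y0 hy0) hξ

theorem trf_alg_cl (S : StData H) (hST : OpSTHyp S) {T : OpSeq S} (hT : T ∈ opAlg S) :
    ∀ ξ ∈ trfCl S, opPi S T ξ ∈ trfCl S :=
  trf_alg_induction S (p := fun T => ∀ ξ ∈ trfCl S, opPi S T ξ ∈ trfCl S)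
    (fun _ hx _ hξ => trf_const_cl S hx hξ) (fun _ hb _ hξ => trf_cyl_cl S hST hb hξ)
    (fun T T' h h' ξ hξ => by
      rw [map_add, add_apply]; exact (trfCl S).add_mem (h ξ hξ) (h' ξ hξ))
    (fun T T' h h' ξ hξ => by
      rw [map_mul, mul_apply_eq_comp]; exact h _ (h' ξ hξ)) hT

theorem trf_vac_mem_cl (S : StData H) : opVac S ∈ trfCl S := by
  have h := trf_vec_mem_cl S (one_mem S.M) (trf_redTail_nil S)
  rwa [trf_vec_nil, trf_const_one, map_one, one_apply_eq_self] at h

/-- TR5b: density. -/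
theorem tr_dense (S : StData H) (hST : OpSTHyp S) : opH0 S ≤ (opV1 S ⊔ opV2 S).topologicalClosure := by
  rw [trf_V_eq S hST]
  refine Submodule.topologicalClosure_minimal _ (Submodule.span_le.2 ?_) (trf_isClosed_cl S)
  rintro _ ⟨T, hT, rfl⟩
  exact trf_alg_cl S hST hT _ (trf_vac_mem_cl S)

theorem tr_V_le (S : StData H) (hST : OpSTHyp S) : opV1 S ⊔ opV2 S ≤ opH0 S := by
  rw [trf_V_eq S hST]
  refine Submodule.span_le.2 ?_
  rintro _ ⟨y0, hy0, L, hL, rfl⟩
  exact Submodule.le_topologicalClosure _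
    (Submodule.subset_span ⟨_, trf_ev_word_mem_alg S hy0 hL.1 hL.2.1, rfl⟩)

end Claimed.Agent.R302
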