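/-
R302 / TR / FreeOrth (TR5a; owner helper283): `V_1 ⊥ V_2`.
`⟪y0 d1 y1 .. dm ym Ω, n0 d1' y1' .. Ω⟫ = Phi (ym* dm* .. d1* (y0* n0) d1' y1' ..)` is a word to which `tr_vanish` applies.
-/
import Claimed.Agent.R302.TR.FreeDense

set_option autoImplicit false
set_option linter.unusedSectionVars false

namespace Claimed.Agent.R302

open scoped InnerProductSpace ComplexOrder ENNReal
open Filter Topology

universe u
variable {H : Type u} [NormedAddCommGroup H] [InnerProductSpace ℂ H] [CompleteSpace H]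

/-- the adjoint monomial. -/
noncomputable def trfStar (d : OpMono H) : OpMono H := ⟨star d.c, d.occ⟩

theorem trf_site_mem (S : StData H) {v : H →L[ℂ] H} (hv : S.IsNormU v) {a : H →L[ℂ] H}
    (ha : a ∈ S.A) : v * a * star v ∈ S.A := hv.2.2.2.1 a ha

theorem trf_A_comm' (S : StData H) {a a' : H →L[ℂ] H} (ha : a ∈ S.A) (ha' : a' ∈ S.A) :
    a * a' = a' * a := (((S.masa a).1 ha).2 a' ha').eq

/-- the product of the site factors lies in `A` and is selfadjoint. -/
theorem trf_occ_prod (S : StData H) (occ : List ((H →L[ℂ] H) × ℕ)) (hocc : ∀ o ∈ occ, S.IsNormU o.1)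
    {w : ℕ → H →L[ℂ] H} (hw : S.IsSymFam w) :
    (occ.map fun o => o.1 * w o.2 * star o.1).prod ∈ S.A ∧
      IsSelfAdjoint (occ.map fun o => o.1 * w o.2 * star o.1).prod := by
  induction occ with
  | nil => simp
  | cons o occ ih =>
    obtain ⟨ih1, ih2⟩ := ih fun o' ho' => hocc o' (List.mem_cons_of_mem _ ho')
    have h1 : o.1 * w o.2 * star o.1 ∈ S.A :=
      trf_site_mem S (hocc o (List.mem_cons_self ..)) (hw o.2).1
    have h2 : IsSelfAdjoint (o.1 * w o.2 * star o.1) := by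
      rw [IsSelfAdjoint, star_mul, star_mul, star_star, (hw o.2).2.1.star_eq, mul_assoc]
    rw [List.map_cons, List.prod_cons]
    refine ⟨mul_mem h1 ih1, ?_⟩
    rw [IsSelfAdjoint, star_mul, h2.star_eq, ih2.star_eq]
    exact trf_A_comm' S ih1 h1

theorem trf_star_eval (S : StData H) {d : OpMono H} (hd : S.IsMono d) {w : ℕ → H →L[ℂ] H}
    (hw : S.IsSymFam w) : (trfStar d).eval w = star (d.eval w) := by
  obtain ⟨h1, h2⟩ := trf_occ_prod S d.occ hd.2 hw
  rw [OpMono.eval, OpMono.eval, star_mul, h2.star_eq]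
  exact trf_A_comm' S (star_mem hd.1) h1

theorem trf_norm_sq_Om (S : StData H) (x : H →L[ℂ] H) : ‖x S.Om‖ ^ 2 = (S.phi (star x * x)).re := by
  rw [StData.phi, mul_apply_eq_comp, ContinuousLinearMap.star_eq_adjoint,
    ContinuousLinearMap.adjoint_inner_right, inner_self_eq_norm_sq_to_K]
  norm_cast

theorem trf_sep_star (S : StData H) {c v v' : H →L[ℂ] H} (hc : c ∈ S.A) (hv : S.IsNormU v)
    (hv' : S.IsNormU v') (h : S.Sep c v v') : S.Sep (star c) v v' := by
  intro ε hε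
  obtain ⟨P, hP⟩ := h ε hε
  refine ⟨P, ?_⟩
  set p : H →L[ℂ] H := ∑ e ∈ P.cells, (v * e * star v) * (v' * e * star v') with hp
  have hpA : p ∈ S.A := sum_mem fun e he =>
    mul_mem (trf_site_mem S hv (P.proj e he).1) (trf_site_mem S hv' (P.proj e he).1)
  have h1 : ‖p (star c S.Om)‖ ^ 2 = ‖p (c S.Om)‖ ^ 2 := by
    rw [← mul_apply_eq_comp, ← mul_apply_eq_comp, trf_norm_sq_Om, trf_norm_sq_Om]
    congr 2
    rw [star_mul, star_mul, star_star]
    have hsp : star p ∈ S.A := star_mem hpA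
    have hsc : star c ∈ S.A := star_mem hc
    calc c * star p * (p * star c) = c * (star p * p) * star c := by noncomm_ring
      _ = (star p * p) * c * star c := by rw [trf_A_comm' S hc (mul_mem hsp hpA)]
      _ = (star p * p) * (star c * c) := by rw [mul_assoc, trf_A_comm' S hc hsc]
      _ = star c * (star p * p) * c := by
        rw [← mul_assoc, trf_A_comm' S (mul_mem hsp hpA) hsc]
      _ = star c * star p * (p * c) := by noncomm_ring
  have h2 : ‖p (star c S.Om)‖ = ‖p (c S.Om)‖ := (sq_eq_sq₀ (norm_nonneg _) (norm_nonneg _)).1 h1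
  rw [h2]
  exact hP

theorem trf_star_red (S : StData H) {d : OpMono H} (hd : S.IsRed d) : S.IsRed (trfStar d) := by
  obtain ⟨h1, h2, h3, h4⟩ := hd
  refine ⟨star_mem h1, h2, h3, ?_⟩
  change d.occ.Pairwise _
  refine List.Pairwise.imp_of_mem ?_ h4
  intro o o' ho ho' h heq
  exact trf_sep_star S h1 (h3 o ho) (h3 o' ho') (h heq)

/-- `Mo ⊥ N`. -/
theorem trf_phi_Mo_NN (S : StData H) (hST : OpSTHyp S) {y n : H →L[ℂ] H} (hy : y ∈ S.Mo)
    (hn : n ∈ S.NN) : S.phi (star y * n) = 0 := by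
  have h1 : ∀ x : H →L[ℂ] H, S.phi (star y * x) = ⟪y S.Om, x S.Om⟫_ℂ := by
    intro x
    rw [StData.phi, mul_apply_eq_comp, ContinuousLinearMap.star_eq_adjoint,
      ContinuousLinearMap.adjoint_inner_right]
  have h2 : ∀ n' ∈ S.Nalg, S.phi (star y * n') = 0 := by
    intro n' hn'
    have h3 := hy.2 n' hn'
    rw [StData.phi, mul_apply_eq_comp, ContinuousLinearMap.star_eq_adjoint,
      ContinuousLinearMap.adjoint_inner_right] at h3
    rw [h1, ← inner_conj_symm, h3, map_zero]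
  by_contra hne
  have hpos : 0 < ‖S.phi (star y * n)‖ := norm_pos_iff.2 hne
  obtain ⟨n', hn', -, h3, -, -⟩ := hST.approx n hn (‖S.phi (star y * n)‖ / (‖y S.Om‖ + 1))
    (by positivity)
  have h4 : S.phi (star y * n) = ⟪y S.Om, (n - n') S.Om⟫_ℂ := by
    rw [sub_apply, inner_sub_right, ← h1, ← h1, h2 n' hn', sub_zero]
  have h5 : ‖S.phi (star y * n)‖ ≤ ‖y S.Om‖ * (‖S.phi (star y * n)‖ / (‖y S.Om‖ + 1)) := by
    conv_lhs => rw [h4]
    exact (norm_inner_le_norm _ _).trans (mul_le_mul_of_nonneg_left h3.le (norm_nonneg _))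
  have h6 : ‖y S.Om‖ * (‖S.phi (star y * n)‖ / (‖y S.Om‖ + 1)) < ‖S.phi (star y * n)‖ := by
    rw [← mul_div_assoc, div_lt_iff₀ (by positivity)]
    nlinarith [norm_nonneg (y S.Om)]
  linarith

theorem trf_star_mul_mem_Mo (S : StData H) (hST : OpSTHyp S) {y n : H →L[ℂ] H} (hy : y ∈ S.Mo)
    (hn : n ∈ S.NN) : star y * n ∈ S.Mo := by
  have h1 := hST.Mo_star _ (hST.Mo_mul_left _ (hST.N_star n hn) y hy)
  rwa [star_mul, star_star] at h1

variable [Nontrivial H]

/-- the recursion: `W(y0,L)* W(z,Lz)` is a word with vanishing expectation. -/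
theorem trf_orth_aux (S : StData H) (hST : OpSTHyp S) (hAK : OpAK S)
    (L : List (OpMono H × (H →L[ℂ] H))) :
    ∀ (y0 z : H →L[ℂ] H) (Lz : List (OpMono H × (H →L[ℂ] H))), S.IsRedTail L → S.IsRedTail Lz →
      y0 ∈ S.M → z ∈ S.M → (L ≠ [] → Lz ≠ [] → star y0 * z ∈ S.Mo) → (L ≠ [] ∨ Lz ≠ []) →
      opPhi S (opEv S fun w => star (opWord y0 L w) * opWord z Lz w) = 0 := by
  induction L with
  | nil =>
    intro y0 z Lz _ hLz hy0 hz _ hne
    have hLz0 : Lz ≠ [] := by
      rcases hne with h | h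
      · exact absurd rfl h
      · exact h
    have h1 : (fun w => star (opWord y0 [] w) * opWord z Lz w) = opWord (star y0 * z) Lz := by
      funext w
      rw [trf_word_nil, trf_word_mul]
    rw [h1]
    obtain ⟨C, hC⟩ := trf_word_bdd S (star y0 * z) hLz.1
    exact opPhi_ev_tendsto S _ C hC 0
      (tr_vanish S hST hAK _ (mul_mem (star_mem hy0) hz) Lz hLz0 hLz.1 hLz.2.1 hLz.2.2)
  | cons p L' ih =>
    obtain ⟨d, y⟩ := p
    intro y0 z Lz hL hLz hy0 hz hcond _
    obtain ⟨hd, hy, hyMo, hL'⟩ := (trf_redTail_cons S).1 hL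
    have h1 : opEv S (fun w => star (opWord y0 ((d, y) :: L') w) * opWord z Lz w) =
        opEv S (fun w => star (opWord y L' w) * opWord 1 ((trfStar d, star y0 * z) :: Lz) w) := by
      refine trf_ev_congr fun w hw => ?_
      rw [trf_word_cons, trf_word_cons, trf_word_mul, trf_star_eval S (trf_red_mono S hd) hw,
        star_mul, star_mul]
      noncomm_ring
    rw [h1]
    refine ih y 1 _ hL' ((trf_redTail_cons S).2 ⟨trf_star_red S hd, mul_mem (star_mem hy0) hz,
      fun h => hcond (by simp) h, hLz⟩) hy (one_mem _) (fun h _ => ?_) (Or.inr (by simp))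
    rw [mul_one]
    exact hST.Mo_star _ (hyMo h)

theorem trf_inner_vec (S : StData H) (y0 z : H →L[ℂ] H) {L Lz : List (OpMono H × (H →L[ℂ] H))}
    (hL : ∀ p ∈ L, S.IsRed p.1) (hLz : ∀ p ∈ Lz, S.IsRed p.1) :
    ⟪opVec S y0 L, opVec S z Lz⟫_ℂ = opPhi S (opEv S fun w => star (opWord y0 L w) * opWord z Lz w) := by
  rw [opVec, opVec, opPi_inner, trf_ev_mul (trf_word_bdd S y0 hL).star (trf_word_bdd S z hLz),
    trf_ev_star (trf_word_bdd S y0 hL)]

theorem trf_orth_gen (S : StData H) (hST : OpSTHyp S) (hAK : OpAK S) {y0 n0 : H →L[ℂ] H}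
    (hy0 : y0 ∈ S.Mo) (hn0 : n0 ∈ S.NN) {L Lz : List (OpMono H × (H →L[ℂ] H))}
    (hL : S.IsRedTail L) (hLz : S.IsRedTail Lz) : ⟪opVec S y0 L, opVec S n0 Lz⟫_ℂ = 0 := by
  rw [trf_inner_vec S y0 n0 hL.1 hLz.1]
  by_cases h : L ≠ [] ∨ Lz ≠ []
  · exact trf_orth_aux S hST hAK L y0 n0 Lz hL hLz hy0.1 hn0.1
      (fun _ _ => trf_star_mul_mem_Mo S hST hy0 hn0) h
  · have hL0 : L = [] := by by_contra h'; exact h (Or.inl h')
    have hLz0 : Lz = [] := by by_contra h'; exact h (Or.inr h')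
    subst hL0 hLz0
    have h1 : (fun w : ℕ → H →L[ℂ] H => star (opWord y0 [] w) * opWord n0 [] w) =
        fun _ => star y0 * n0 := by
      funext w; rw [trf_word_nil, trf_word_nil]
    rw [h1, trf_ev_const, opPhi_const, trf_phi_Mo_NN S hST hy0 hn0]

/-- TR5a: orthogonality. -/
theorem tr_orth (S : StData H) (hST : OpSTHyp S) (hAK : OpAK S) (ξ η : opK S) (hξ : ξ ∈ opV1 S)
    (hη : η ∈ opV2 S) : ⟪ξ, η⟫_ℂ = 0 := by
  induction hξ using Submodule.span_induction with
  | mem x hx =>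
    obtain ⟨y0, hy0, L, hL, rfl⟩ := hx
    induction hη using Submodule.span_induction with
    | mem z hz =>
      obtain ⟨n0, hn0, Lz, hLz, rfl⟩ := hz
      exact trf_orth_gen S hST hAK hy0 hn0 hL hLz
    | zero => exact inner_zero_right _
    | add a b _ _ ha hb => rw [inner_add_right, ha, hb, add_zero]
    | smul c a _ ha => rw [inner_smul_right, ha, mul_zero]
  | zero => exact inner_zero_left _
  | add a b _ _ ha hb => rw [inner_add_left, ha, hb, add_zero]
  | smul c a _ ha => rw [inner_smul_left, ha, mul_zero]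

end Claimed.Agent.R302
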