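/-
R302 / TR / FreeMarg (part of TR6; owner helper283): the marginal `β` of a cylinder projection.
 * `trf_A_nonpos`  : `g = g* ∈ A` with `Re phi (a g) ≤ 0` for all `0 ≤ a ∈ A` is `≤ 0`;
 * `trf_marginal`  : for a cylinder projection `p` with `Re Phi (a p) ≤ lam phi a`: `p = β + ∑ reduced`, `β ∈ A`, `‖β‖ ≤ lam`.
-/
import Claimed.Agent.R302.TR.FreeOrth

set_option autoImplicit false
set_option linter.unusedSectionVars false

namespace Claimed.Agent.R302

open scoped InnerProductSpace ComplexOrder ENNReal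
open Filter Topology

universe u
variable {H : Type u} [NormedAddCommGroup H] [InnerProductSpace ℂ H] [CompleteSpace H]

theorem trf_A_nonpos (S : StData H) {g : H →L[ℂ] H} (hg : g ∈ S.A) (hsa : IsSelfAdjoint g)
    (h : ∀ a ∈ S.A, 0 ≤ a → (S.phi (a * g)).re ≤ 0) : g ≤ 0 := by
  set gp : H →L[ℂ] H := cfc (fun x : ℝ => max x 0) g with hgp
  set gm : H →L[ℂ] H := cfc (fun x : ℝ => max (-x) 0) g with hgm
  have hgpA : gp ∈ S.A := vn_cfc_mem (vn_masaVN S.M S.A S.masa) hg _
  have hgp0 : 0 ≤ gp := cfc_nonneg fun x _ => le_max_right _ _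
  have hgm0 : 0 ≤ gm := cfc_nonneg fun x _ => le_max_right _ _
  have hsub : gp - gm = g := by
    rw [hgp, hgm, ← cfc_sub (fun x : ℝ => max x 0) (fun x : ℝ => max (-x) 0) g]
    conv_rhs => rw [← cfc_id' ℝ g]
    refine cfc_congr fun x _ => ?_
    rcases le_total 0 x with hx | hx
    · simp [max_eq_left hx, max_eq_right (neg_nonpos.2 hx)]
    · simp [max_eq_right hx, max_eq_left (neg_nonneg.2 hx)]
  have hmul : gp * gm = 0 := by
    rw [hgp, hgm, ← cfc_mul (fun x : ℝ => max x 0) (fun x : ℝ => max (-x) 0) g]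
    have : cfc (fun x : ℝ => max x 0 * max (-x) 0) g = cfc (fun _ : ℝ => (0 : ℝ)) g := by
      refine cfc_congr fun x _ => ?_
      rcases le_total 0 x with hx | hx
      · simp [max_eq_right (neg_nonpos.2 hx)]
      · simp [max_eq_right hx]
    rw [this, cfc_const_zero]
  have h1 : gp * g = star gp * gp := by
    rw [hgp0.isSelfAdjoint.star_eq, ← hsub, mul_sub, hmul, sub_zero]
  have h2 := h gp hgpA hgp0
  rw [h1, ← trf_norm_sq_Om] at h2
  have h3 : gp S.Om = 0 := by
    have : ‖gp S.Om‖ ^ 2 = 0 := le_antisymm h2 (by positivity)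
    exact norm_eq_zero.1 (pow_eq_zero_iff two_ne_zero |>.1 this)
  have h4 : gp = 0 := S.sep gp (((S.masa _).1 hgpA).1) h3
  rw [← hsub, h4, zero_sub]
  exact neg_nonpos.2 hgm0

variable [Nontrivial H]

theorem trf_phi_star (S : StData H) (T : OpSeq S) : opPhi S (star T) = star (opPhi S T) := by
  have h1 := opPi_inner S T 1
  have h2 := opPi_inner S 1 T
  rw [mul_one] at h1
  rw [star_one, one_mul] at h2
  rw [← h1, ← h2, Complex.star_def, inner_conj_symm]

/-- sums of reduced monomials have zero expectation against `A`. -/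
theorem trf_phi_list_sum (S : StData H) (hST : OpSTHyp S) (hAK : OpAK S) {a : H →L[ℂ] H}
    (ha : a ∈ S.M) (ds : List (OpMono H)) (hds : ∀ d ∈ ds, S.IsRed d) :
    S.BddFun (fun w => (ds.map fun d => d.eval w).sum) ∧
      opPhi S (opConst S a * opEv S fun w => (ds.map fun d => d.eval w).sum) = 0 := by
  induction ds with
  | nil =>
    refine ⟨by simpa using StData.BddFun.const (S := S) 0, ?_⟩
    have : (fun w : ℕ → H →L[ℂ] H => (([] : List (OpMono H)).map fun d => d.eval w).sum) =
        fun _ => 0 := by funext w; simp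
    rw [this, trf_ev_const, trf_const_zero, mul_zero, map_zero]
  | cons d ds ih =>
    obtain ⟨ih1, ih2⟩ := ih (fun d hd => hds d (List.mem_cons_of_mem _ hd))
    have hd := hds d (List.mem_cons_self ..)
    have hdb := StData.BddFun.of_cyl (trf_red_cyl S hd)
    have : (fun w : ℕ → H →L[ℂ] H => ((d :: ds).map fun d => d.eval w).sum) =
        fun w => d.eval w + (ds.map fun d => d.eval w).sum := by funext w; simp
    rw [this]
    refine ⟨hdb.add ih1, ?_⟩
    have h1 := tr_law S hST hAK hd a 1 ha (one_mem _)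
    rw [trf_const_one, mul_one] at h1
    rw [trf_ev_add hdb ih1, mul_add, map_add, h1, ih2, add_zero]

/-- the marginal of a cylinder projection. -/
theorem trf_marginal (S : StData H) (hST : OpSTHyp S) (hAK : OpAK S)
    {p : (ℕ → H →L[ℂ] H) → H →L[ℂ] H} (hp : OpCyl S p)
    (hproj : ∀ w, S.IsSymFam w → IsStarProjection (p w)) (lam : ℝ) (hlam : 0 ≤ lam)
    (hmarg : ∀ a ∈ S.A, 0 ≤ a → (opPhi S (opConst S a * opEv S p)).re ≤ lam * (S.phi a).re) :
    ∃ β ∈ S.A, ∃ ds : List (OpMono H), (∀ d ∈ ds, S.IsRed d) ∧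
      (∀ w, S.IsSymFam w → p w = β + (ds.map fun d => d.eval w).sum) ∧ ‖β‖ ≤ lam := by
  obtain ⟨β, hβ, ds, hds, hform⟩ := tr_normal_form S hST hp
  refine ⟨β, hβ, ds, hds, hform, ?_⟩
  have hpb : S.BddFun p := StData.BddFun.of_cyl hp
  have hAM : ∀ a ∈ S.A, a ∈ S.M := fun a ha => ((S.masa a).1 ha).1
  -- (M1)
  have hM1 : ∀ a ∈ S.A, opPhi S (opConst S a * opEv S p) = S.phi (a * β) := by
    intro a ha
    obtain ⟨h1, h2⟩ := trf_phi_list_sum S hST hAK (hAM a ha) ds hds
    rw [trf_ev_congr hform, trf_ev_add (StData.BddFun.const β) h1, trf_ev_const, mul_add, map_add, h2,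
      add_zero, ← trf_const_mul, opPhi_const]
  -- commutation of `p` with constants of `A`
  have hcomm : ∀ a ∈ S.A, opEv S p * opConst S a = opConst S a * opEv S p := by
    intro a ha
    rw [← trf_ev_const, ← trf_ev_mul hpb (StData.BddFun.const a),
      ← trf_ev_mul (StData.BddFun.const a) hpb]
    exact trf_ev_congr fun w hw => trf_A_comm' S (tr_cyl_mem S hp hw) ha
  have hpstar : star (opEv S p) = opEv S p := by
    rw [← trf_ev_star hpb]
    exact trf_ev_congr fun w hw => (hproj w hw).isSelfAdjoint.star_eq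
  have hpsq : opEv S p * opEv S p = opEv S p := by
    rw [← trf_ev_mul hpb hpb]
    exact trf_ev_congr fun w hw => (hproj w hw).isIdempotentElem.eq
  -- (M2) `β` is selfadjoint
  have hphistar : ∀ x : H →L[ℂ] H, S.phi (star x) = star (S.phi x) := by
    intro x
    rw [StData.phi, StData.phi, ContinuousLinearMap.star_eq_adjoint,
      ContinuousLinearMap.adjoint_inner_right, Complex.star_def, inner_conj_symm]
  have hM2a : ∀ a ∈ S.A, S.phi (a * star β) = S.phi (a * β) := by
    intro a ha
    have h1 : a * star β = star (star a * β) := by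
      rw [star_mul, star_star, trf_A_comm' S ha (star_mem hβ)]
    rw [h1, hphistar, ← hM1 _ (star_mem ha), ← trf_phi_star, star_mul, hpstar, ← trf_const_star, star_star,
      hcomm a ha, hM1 a ha]
  have hβsa : IsSelfAdjoint β := by
    have h1 : S.phi (star (β - star β) * (β - star β)) = 0 := by
      have h2 : star (β - star β) ∈ S.A := star_mem (sub_mem hβ (star_mem hβ))
      rw [mul_sub, StData.phi, sub_apply, inner_sub_right]
      have := hM2a _ h2
      rw [StData.phi, StData.phi] at this
      rw [this, sub_self]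
    have h2 : ‖(β - star β) S.Om‖ ^ 2 = 0 := by rw [trf_norm_sq_Om, h1, Complex.zero_re]
    have h3 : (β - star β) S.Om = 0 := norm_eq_zero.1 (pow_eq_zero_iff two_ne_zero |>.1 h2)
    have h4 := S.sep _ (hAM _ (sub_mem hβ (star_mem hβ))) h3
    exact (sub_eq_zero.1 h4).symm
  -- (M3) bounds
  have hphiadd : ∀ x y : H →L[ℂ] H, S.phi (x + y) = S.phi x + S.phi y := by
    intro x y
    rw [StData.phi, StData.phi, StData.phi, add_apply, inner_add_right]
  have hup : β - (lam : ℂ) • 1 ≤ 0 := by
    refine trf_A_nonpos S (sub_mem hβ (S.A.smul_mem (one_mem _) _)) ?_ fun a ha ha0 => ?_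
    · refine hβsa.sub (IsSelfAdjoint.smul ?_ (IsSelfAdjoint.one _))
      rw [IsSelfAdjoint, Complex.star_def, Complex.conj_ofReal]
    · have h1 := hmarg a ha ha0
      rw [hM1 a ha] at h1
      have h2 : a * (β - (lam : ℂ) • 1) = a * β + (-(lam : ℂ)) • a := by
        rw [mul_sub, mul_smul_comm, mul_one, neg_smul, sub_eq_add_neg]
      have h3 : S.phi ((-(lam : ℂ)) • a) = -(lam : ℂ) * S.phi a := by
        rw [StData.phi, StData.phi, smul_apply, inner_smul_right]
      rw [h2, hphiadd, h3, Complex.add_re, neg_mul, Complex.neg_re, Complex.re_ofReal_mul]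
      linarith
  have hlow : -β ≤ 0 := by
    refine trf_A_nonpos S (neg_mem hβ) hβsa.neg fun a ha ha0 => ?_
    set c := CFC.sqrt a with hc
    have hcA : c ∈ S.A := st_sqrt_mem_A S ha
    have hcc : c * c = a := CFC.sqrt_mul_sqrt_self a ha0
    have hcs : star c = c := (CFC.sqrt_nonneg a).isSelfAdjoint.star_eq
    have h1 : opConst S a * opEv S p = star (opConst S c * opEv S p) * (opConst S c * opEv S p) := by
      rw [star_mul, hpstar, ← trf_const_star, hcs]
      calc opConst S a * opEv S p = opConst S c * opConst S c * (opEv S p * opEv S p) := by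
            rw [← trf_const_mul, hcc, hpsq]
        _ = opConst S c * (opConst S c * opEv S p) * opEv S p := by noncomm_ring
        _ = opConst S c * (opEv S p * opConst S c) * opEv S p := by rw [hcomm c hcA]
        _ = (opConst S c * opEv S p) * (opConst S c * opEv S p) := by noncomm_ring
        _ = opEv S p * opConst S c * (opConst S c * opEv S p) := by rw [hcomm c hcA]
    have h2 : 0 ≤ (S.phi (a * β)).re := by
      rw [← hM1 a ha, h1, ← trf_norm_sq]
      positivity
    have h3 : S.phi (a * -β) = - S.phi (a * β) := by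
      rw [mul_neg, StData.phi, StData.phi, neg_apply, inner_neg_right]
    rw [h3, Complex.neg_re]
    linarith
  have hβ0 : 0 ≤ β := by simpa using hlow
  rw [CStarAlgebra.norm_le_iff_le_algebraMap β hlam hβ0]
  have h1 : algebraMap ℝ (H →L[ℂ] H) lam = (lam : ℂ) • 1 := by
    rw [Algebra.algebraMap_eq_smul_one, Complex.coe_smul]
  rw [h1]
  exact sub_nonpos.1 hup

end Claimed.Agent.R302
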