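/-
R302 / TR / FreeCompress (TR6; owner helper283): the three term estimate and the geometry of `K_1 = closure V_1`, `K_2 = closure V_2`.
-/
import Claimed.Agent.R302.TR.FreeMarg

set_option autoImplicit false
set_option linter.unusedSectionVars false

namespace Claimed.Agent.R302

open scoped InnerProductSpace ComplexOrder ENNReal
open Filter Topology

universe u

section Abstract

variable {K : Type u} [NormedAddCommGroup K] [InnerProductSpace ℂ K] [CompleteSpace K]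

/-- the three term estimate of the free compression lemma. -/
theorem trf_three_term (K₁ : Submodule ℂ K) [K₁.HasOrthogonalProjection] (ph wh : K →L[ℂ] K)
    (s W : ℝ) (hs : 0 ≤ s) (hph1 : ‖ph‖ ≤ 1) (hphsa : IsSelfAdjoint ph)
    (hK₁ : ∀ v ∈ K₁, ‖ph v‖ ≤ s * ‖v‖) (hW : ‖wh‖ ≤ W) (ξ : K)
    (h2 : wh (ph ξ - K₁.starProjection (ph ξ)) ∈ K₁) :
    ‖ph (wh (ph ξ))‖ ≤ (s ^ 2 + 2 * s) * W * ‖ξ‖ := by
  set P : K →L[ℂ] K := K₁.starProjection with hP
  have hW0 : 0 ≤ W := (norm_nonneg _).trans hW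
  have hPn : ∀ ζ, ‖P ζ‖ ≤ ‖ζ‖ := fun ζ => by
    have := (K₁.starProjection).le_opNorm ζ
    exact this.trans (by
      have h1 : ‖K₁.starProjection‖ ≤ 1 := Submodule.starProjection_norm_le K₁
      nlinarith [norm_nonneg ζ])
  have hQn : ∀ ζ, ‖ζ - P ζ‖ ≤ ‖ζ‖ := fun ζ => by
    have h1 : ‖ζ‖ ^ 2 = ‖P ζ‖ ^ 2 + ‖ζ - P ζ‖ ^ 2 := by
      have h3 : ⟪P ζ, ζ - P ζ⟫_ℂ = 0 :=
        (Submodule.mem_orthogonal K₁ _).1 (Submodule.sub_starProjection_mem_orthogonal ζ) _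
          (Submodule.starProjection_apply_mem K₁ ζ)
      have h4 := norm_add_sq_eq_norm_sq_add_norm_sq_of_inner_eq_zero (𝕜 := ℂ) (P ζ) (ζ - P ζ) h3
      rw [add_sub_cancel] at h4
      rw [sq, sq, sq, h4]
    have h5 : ‖ζ - P ζ‖ ^ 2 ≤ ‖ζ‖ ^ 2 := by nlinarith [sq_nonneg ‖P ζ‖]
    exact (pow_le_pow_iff_left₀ (norm_nonneg _) (norm_nonneg _) two_ne_zero).1 h5
  have hphP : ∀ ζ, ‖ph (P ζ)‖ ≤ s * ‖ζ‖ := fun ζ =>
    (hK₁ _ (Submodule.starProjection_apply_mem K₁ ζ)).trans (mul_le_mul_of_nonneg_left (hPn ζ) hs)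
  have hn1 : ‖ph * P‖ ≤ s := ContinuousLinearMap.opNorm_le_bound _ hs fun ζ => hphP ζ
  have hPsa : IsSelfAdjoint P := isSelfAdjoint_starProjection K₁
  have hn2 : ‖P * ph‖ ≤ s := by
    have : P * ph = star (ph * P) := by rw [star_mul, hPsa.star_eq, hphsa.star_eq]
    rw [this, norm_star]; exact hn1
  have hPph : ‖P (ph ξ)‖ ≤ s * ‖ξ‖ := ((P * ph).le_opNorm ξ).trans
    (mul_le_mul_of_nonneg_right hn2 (norm_nonneg _))
  have hph : ∀ ζ, ‖ph ζ‖ ≤ ‖ζ‖ := fun ζ => (ph.le_opNorm ζ).trans (by nlinarith [norm_nonneg ζ])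
  have hwh : ∀ ζ, ‖wh ζ‖ ≤ W * ‖ζ‖ := fun ζ => (wh.le_opNorm ζ).trans
    (mul_le_mul_of_nonneg_right hW (norm_nonneg _))
  set η := ph ξ with hη
  -- second term
  set u := wh (η - P η) with hu
  have hu1 : ‖ph u‖ ≤ s * (W * ‖ξ‖) := by
    refine (hK₁ u h2).trans (mul_le_mul_of_nonneg_left ?_ hs)
    exact (hwh _).trans (mul_le_mul_of_nonneg_left ((hQn η).trans (hph ξ)) hW0)
  -- first term
  set ζ := wh (P η) with hζ
  have hζn : ‖ζ‖ ≤ W * (s * ‖ξ‖) := (hwh _).trans (mul_le_mul_of_nonneg_left hPph hW0)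
  have ht1 : ‖ph (P ζ)‖ ≤ s * (W * (s * ‖ξ‖)) := (hphP ζ).trans (mul_le_mul_of_nonneg_left hζn hs)
  have ht2 : ‖ph (ζ - P ζ)‖ ≤ W * (s * ‖ξ‖) := (hph _).trans ((hQn ζ).trans hζn)
  have hsplit : ph (wh η) = ph (P ζ) + ph (ζ - P ζ) + ph u := by
    rw [← map_add, add_sub_cancel, ← map_add, hζ, hu, ← map_add, add_sub_cancel]
  rw [hsplit]
  calc ‖ph (P ζ) + ph (ζ - P ζ) + ph u‖ ≤ ‖ph (P ζ)‖ + ‖ph (ζ - P ζ)‖ + ‖ph u‖ := norm_add₃_le
    _ ≤ s * (W * (s * ‖ξ‖)) + W * (s * ‖ξ‖) + s * (W * ‖ξ‖) := by linarith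
    _ = (s ^ 2 + 2 * s) * W * ‖ξ‖ := by ring

/-- a bounded operator mapping a generating set into a closed subspace maps the closed span into it. -/
theorem trf_span_closure_map {G : Set K} (T : K →L[ℂ] K) (V' : Submodule ℂ K)
    (hV' : IsClosed (V' : Set K)) (h : ∀ g ∈ G, T g ∈ V') {ξ : K}
    (hξ : ξ ∈ (Submodule.span ℂ G).topologicalClosure) : T ξ ∈ V' := by
  have h1 : Submodule.span ℂ G ≤ V'.comap (T : K →ₗ[ℂ] K) := Submodule.span_le.2 h
  have h2 : IsClosed ((V'.comap (T : K →ₗ[ℂ] K) : Submodule ℂ K) : Set K) := hV'.preimage T.continuous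
  exact Submodule.topologicalClosure_minimal _ h1 h2 hξ

end Abstract

variable {H : Type u} [NormedAddCommGroup H] [InnerProductSpace ℂ H] [CompleteSpace H] [Nontrivial H]

/-- `K_1 = closure V_1`. -/
noncomputable def trfK1 (S : StData H) : Submodule ℂ (opK S) := (opV1 S).topologicalClosure

/-- `K_2 = closure V_2`. -/
noncomputable def trfK2 (S : StData H) : Submodule ℂ (opK S) := (opV2 S).topologicalClosure

theorem trf_isClosed_K1 (S : StData H) : IsClosed (trfK1 S : Set (opK S)) :=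
  Submodule.isClosed_topologicalClosure _

theorem trf_isClosed_K2 (S : StData H) : IsClosed (trfK2 S : Set (opK S)) :=
  Submodule.isClosed_topologicalClosure _

instance trf_K1_complete (S : StData H) : CompleteSpace (trfK1 S) :=
  (trf_isClosed_K1 S).completeSpace_coe

/-- `K_2 ⊥ K_1`. -/
theorem trf_K2_le_orth (S : StData H) (hST : OpSTHyp S) (hAK : OpAK S) : trfK2 S ≤ (trfK1 S)ᗮ := by
  rw [trfK1, Submodule.orthogonal_closure]
  refine Submodule.topologicalClosure_minimal _ ?_ (Submodule.isClosed_orthogonal _)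
  intro η hη
  rw [Submodule.mem_orthogonal]
  intro ξ hξ
  exact tr_orth S hST hAK ξ η hξ hη

/-- `(1 - P) η ∈ K_2` for `η ∈ closure (V_1 + V_2)`. -/
theorem trf_sub_proj_mem_K2 (S : StData H) (hST : OpSTHyp S) (hAK : OpAK S) {η : opK S}
    (hη : η ∈ trfCl S) : η - (trfK1 S).starProjection η ∈ trfK2 S := by
  let T : opK S →L[ℂ] opK S := 1 - (trfK1 S).starProjection
  have hT : ∀ ζ, T ζ = ζ - (trfK1 S).starProjection ζ := fun ζ => rfl
  have h1 : opV1 S ⊔ opV2 S ≤ (trfK2 S).comap (T : opK S →ₗ[ℂ] opK S) := by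
    refine sup_le ?_ ?_
    · intro v hv
      change T v ∈ trfK2 S
      have hv1 : v ∈ trfK1 S := Submodule.le_topologicalClosure _ hv
      rw [hT, Submodule.starProjection_eq_self_iff.2 hv1, sub_self]
      exact (trfK2 S).zero_mem
    · intro v hv
      change T v ∈ trfK2 S
      have hv2 : v ∈ trfK2 S := Submodule.le_topologicalClosure _ hv
      rw [hT, (Submodule.starProjection_apply_eq_zero_iff _).2 (trf_K2_le_orth S hST hAK hv2), sub_zero]
      exact hv2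
  have h2 : IsClosed (((trfK2 S).comap (T : opK S →ₗ[ℂ] opK S) : Submodule ℂ (opK S)) : Set (opK S)) :=
    (trf_isClosed_K2 S).preimage T.continuous
  rw [trfCl, ← trf_V_eq S hST] at hη
  exact Submodule.topologicalClosure_minimal _ h1 h2 hη

theorem trf_mul_mem_Mo (S : StData H) (hST : OpSTHyp S) {y n : H →L[ℂ] H} (hy : y ∈ S.Mo)
    (hn : n ∈ S.NN) : y * n ∈ S.Mo := by
  have h1 := trf_star_mul_mem_Mo S hST (hST.Mo_star y hy) hn
  rwa [star_star] at h1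

/-- `w K_2 ⊆ K_1` for `w ∈ Mo`. -/
theorem trf_Mo_K2 (S : StData H) (hST : OpSTHyp S) {w0 : H →L[ℂ] H} (hw0 : w0 ∈ S.Mo) {η : opK S}
    (hη : η ∈ trfK2 S) : opPi S (opConst S w0) η ∈ trfK1 S := by
  refine trf_span_closure_map _ _ (trf_isClosed_K1 S) ?_ hη
  rintro _ ⟨n0, hn0, L, hL, rfl⟩
  rw [← trf_vec_mul S w0 n0 hL.1]
  exact Submodule.le_topologicalClosure _
    (Submodule.subset_span ⟨_, trf_mul_mem_Mo S hST hw0 hn0, L, hL, rfl⟩)

/-- sums of reduced monomials map `K_1` into `K_2`. -/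
theorem trf_red_K1 (S : StData H) (hST : OpSTHyp S) (ds : List (OpMono H)) (hds : ∀ d ∈ ds, S.IsRed d)
    {v : opK S} (hv : v ∈ trfK1 S) :
    opPi S (opEv S fun w => (ds.map fun d => d.eval w).sum) v ∈ trfK2 S := by
  refine trf_span_closure_map _ _ (trf_isClosed_K2 S) ?_ hv
  rintro _ ⟨y0, hy0, L, hL, rfl⟩
  refine (trf_ev_list_sum_mem S ds hds _ (trfK2 S) fun d hd => ?_).2
  rw [← trf_vec_one_cons S y0 (hds d hd) hL.1]
  exact Submodule.le_topologicalClosure _ (Submodule.subset_span ⟨1, hST.A_le_NN 1 (one_mem _), _,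
    (trf_redTail_cons S).2 ⟨hds d hd, hy0.1, fun _ => hy0, hL⟩, rfl⟩)

/-- the key norm estimate on `K_1`. -/
theorem trf_norm_proj_K1 (S : StData H) (hST : OpSTHyp S) (hAK : OpAK S)
    {p : (ℕ → H →L[ℂ] H) → H →L[ℂ] H} (hp : OpCyl S p)
    (hproj : ∀ w, S.IsSymFam w → IsStarProjection (p w)) (lam : ℝ) (hlam : 0 ≤ lam)
    (hmarg : ∀ a ∈ S.A, 0 ≤ a → (opPhi S (opConst S a * opEv S p)).re ≤ lam * (S.phi a).re)
    {v : opK S} (hv : v ∈ trfK1 S) : ‖opPi S (opEv S p) v‖ ≤ Real.sqrt lam * ‖v‖ := by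
  obtain ⟨β, hβ, ds, hds, hform, hβn⟩ := trf_marginal S hST hAK hp hproj lam hlam hmarg
  have hpb : S.BddFun p := StData.BddFun.of_cyl hp
  have hpstar : star (opEv S p) = opEv S p := by
    rw [← trf_ev_star hpb]
    exact trf_ev_congr fun w hw => (hproj w hw).isSelfAdjoint.star_eq
  have hpsq : opEv S p * opEv S p = opEv S p := by
    rw [← trf_ev_mul hpb hpb]
    exact trf_ev_congr fun w hw => (hproj w hw).isIdempotentElem.eq
  have h1 : ‖opPi S (opEv S p) v‖ ^ 2 = (⟪v, opPi S (opEv S p) v⟫_ℂ).re := by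
    have h2 : ⟪opPi S (opEv S p) v, opPi S (opEv S p) v⟫_ℂ = ⟪v, opPi S (opEv S p) v⟫_ℂ := by
      rw [← ContinuousLinearMap.adjoint_inner_right, ← ContinuousLinearMap.star_eq_adjoint, ← map_star,
        hpstar, ← mul_apply_eq_comp, ← map_mul, hpsq]
    rw [← h2, inner_self_eq_norm_sq_to_K]
    norm_cast
  have hsum := (trf_phi_list_sum S hST hAK (one_mem S.M) ds hds).1
  have h3 : opPi S (opEv S p) v = opPi S (opConst S β) v +
      opPi S (opEv S fun w => (ds.map fun d => d.eval w).sum) v := by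
    rw [trf_ev_congr hform, trf_ev_add (StData.BddFun.const β) hsum, trf_ev_const, map_add, add_apply]
  have h4 : ⟪v, opPi S (opEv S fun w => (ds.map fun d => d.eval w).sum) v⟫_ℂ = 0 :=
    (Submodule.mem_orthogonal _ _).1 (trf_K2_le_orth S hST hAK (trf_red_K1 S hST ds hds hv)) v hv
  have h5 : ‖opPi S (opEv S p) v‖ ^ 2 ≤ lam * ‖v‖ ^ 2 := by
    rw [h1, h3, inner_add_right, h4, add_zero]
    calc (⟪v, opPi S (opConst S β) v⟫_ℂ).re ≤ ‖⟪v, opPi S (opConst S β) v⟫_ℂ‖ := Complex.re_le_norm _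
      _ ≤ ‖v‖ * ‖opPi S (opConst S β) v‖ := norm_inner_le_norm _ _
      _ ≤ ‖v‖ * (lam * ‖v‖) := by
        refine mul_le_mul_of_nonneg_left ?_ (norm_nonneg _)
        exact ((opPi S (opConst S β)).le_opNorm v).trans (mul_le_mul_of_nonneg_right
          (((trf_norm_pi_le S _).trans (trf_norm_const_le S β)).trans hβn) (norm_nonneg _))
      _ = lam * ‖v‖ ^ 2 := by ring
  have h6 : ‖opPi S (opEv S p) v‖ ^ 2 ≤ (Real.sqrt lam * ‖v‖) ^ 2 := by
    rw [mul_pow, Real.sq_sqrt hlam]; exact h5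
  exact (pow_le_pow_iff_left₀ (norm_nonneg _) (by positivity) two_ne_zero).1 h6

end Claimed.Agent.R302
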