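/-
R302 / TR / Free (TR4, TR5, TR6, TR8): right multipliers in the model, reduced words, free compression.   Statements: helper100; proofs: helper283.
Blueprint: Notes_helper100.lean Section 2.
 FreeBasic  : coordinate API of the model (opMk, opConst, opEv, opPhi, opPi)
 FreeDefs   : opAlg, opLL, opVec, opH0, IsRedTail, opV1, opV2
 FreeMult   : tr_mult_const, tr_mult_cyl, tr_law
 FreeWord   : API for words
 FreeDense  : tr_dense, tr_V_le
 FreeOrth   : tr_orth
 FreeMarg   : marginal of a cylinder projection (norm bound)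
 FreeCompress : three term estimate, geometry of K_1, K_2
 this file  : tr_free_compress
-/
import Claimed.Agent.R302.TR.FreeCompress

set_option autoImplicit false

namespace Claimed.Agent.R302

open scoped InnerProductSpace ComplexOrder ENNReal
open Filter Topology

universe u
variable {H : Type u} [NormedAddCommGroup H] [InnerProductSpace ℂ H] [CompleteSpace H] [Nontrivial H]

/-- TR6: free compression for a cylinder projection with marginal `≤ lam`. -/
theorem tr_free_compress (S : StData H) (hST : OpSTHyp S) (hAK : OpAK S)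
    {p : (ℕ → H →L[ℂ] H) → H →L[ℂ] H} (hp : OpCyl S p) (hproj : ∀ w, S.IsSymFam w → IsStarProjection (p w))
    (lam : ℝ) (hlam : 0 ≤ lam)
    (hmarg : ∀ a ∈ S.A, 0 ≤ a → (opPhi S (opConst S a * opEv S p)).re ≤ lam * (S.phi a).re)
    (w0 : H →L[ℂ] H) (hw0 : w0 ∈ S.Mo) (ξ : opK S) (hξ : ξ ∈ opH0 S) :
    ‖opPi S (opEv S p * opConst S w0 * opEv S p) ξ‖ ≤ (lam + 2 * Real.sqrt lam) * ‖w0‖ * ‖ξ‖ := by
  have hpb : S.BddFun p := StData.BddFun.of_cyl hp
  have hξcl : ξ ∈ trfCl S := by
    have := tr_dense S hST hξ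
    rwa [trf_V_eq S hST] at this
  have hpstar : star (opEv S p) = opEv S p := by
    rw [← trf_ev_star hpb]
    exact trf_ev_congr fun w hw => (hproj w hw).isSelfAdjoint.star_eq
  have hsa : IsSelfAdjoint (opPi S (opEv S p)) := by
    rw [IsSelfAdjoint, ← map_star, hpstar]
  have hn1 : ‖opPi S (opEv S p)‖ ≤ 1 := by
    refine (trf_norm_pi_le S _).trans (trf_norm_ev_le zero_le_one fun w hw => ?_)
    exact (CStarAlgebra.norm_le_one_iff_of_nonneg _ (hproj w hw).nonneg).2 (hproj w hw).le_one
  have h1 := trf_three_term (trfK1 S) (opPi S (opEv S p)) (opPi S (opConst S w0)) (Real.sqrt lam) ‖w0‖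
    (Real.sqrt_nonneg _) hn1 hsa
    (fun v hv => trf_norm_proj_K1 S hST hAK hp hproj lam hlam hmarg hv)
    ((trf_norm_pi_le S _).trans (trf_norm_const_le S w0)) ξ
    (trf_Mo_K2 S hST hw0 (trf_sub_proj_mem_K2 S hST hAK (trf_cyl_cl S hST hp hξcl)))
  rw [Real.sq_sqrt hlam] at h1
  rw [map_mul, map_mul, mul_apply_eq_comp, mul_apply_eq_comp]
  exact h1

end Claimed.Agent.R302
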