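/-
R302 / TR / MainA : ABSTRACT Hilbert space lemmas for TR9 (Q Proposition 8.2).   Owner: helper275.
 * finite sums of bounded / null / multiplier sequences;
 * clipping estimate: `‖(T - clip_δ(T)) v‖² ≤ B² δ^(-2n) <v, T^(2n) v>`;
 * norm of a block sum on an invariant subspace; powers on an invariant subspace.
-/
import Claimed.Agent.R302.TR.Clip
import Claimed.Agent.R302.ST.EAPart

set_option autoImplicit false
set_option linter.unusedSectionVars false

namespace Claimed.Agent.R302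

open scoped InnerProductSpace ComplexOrder
open Filter Topology

universe u
variable {K : Type u} [NormedAddCommGroup K] [InnerProductSpace ℂ K] [CompleteSpace K]
variable {LL : StarSubalgebra ℂ (K →L[ℂ] K)} {Om : K}

/-! ### finite sums -/

theorem TrBdd.zero : TrBdd LL (fun _ => (0 : K →L[ℂ] K)) :=
  ⟨fun _ => LL.zero_mem, 0, fun _ => by simp⟩

theorem TrBdd.const {x : K →L[ℂ] K} (hx : x ∈ LL) : TrBdd LL (fun _ => x) :=
  ⟨fun _ => hx, ‖x‖, fun _ => le_rfl⟩

theorem TrBdd.sum {ι : Type*} (s : Finset ι) {R : ι → ℕ → K →L[ℂ] K} (h : ∀ i ∈ s, TrBdd LL (R i)) :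
    TrBdd LL (fun n => ∑ i ∈ s, R i n) := by
  classical
  induction s using Finset.induction_on with
  | empty => simpa using TrBdd.zero
  | insert a s ha ih =>
    simp only [Finset.sum_insert ha]
    exact (h a (Finset.mem_insert_self _ _)).add (ih fun i hi => h i (Finset.mem_insert_of_mem hi))

theorem TrNull.sum {ι : Type*} (s : Finset ι) {R : ι → ℕ → K →L[ℂ] K} (h : ∀ i ∈ s, TrNull Om (R i)) :
    TrNull Om (fun n => ∑ i ∈ s, R i n) := by
  classical
  induction s using Finset.induction_on with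
  | empty => simpa using TrNull.zero
  | insert a s ha ih =>
    simp only [Finset.sum_insert ha]
    exact (h a (Finset.mem_insert_self _ _)).add (ih fun i hi => h i (Finset.mem_insert_of_mem hi))

theorem TrMult.zero : TrMult LL Om (fun _ => (0 : K →L[ℂ] K)) :=
  ⟨TrBdd.zero, fun D _ _ => by simpa using TrNull.zero⟩

theorem TrMult.sum {ι : Type*} (s : Finset ι) {R : ι → ℕ → K →L[ℂ] K}
    (h : ∀ i ∈ s, TrMult LL Om (R i)) : TrMult LL Om (fun n => ∑ i ∈ s, R i n) := by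
  classical
  induction s using Finset.induction_on with
  | empty => simpa using TrMult.zero
  | insert a s ha ih =>
    simp only [Finset.sum_insert ha]
    exact (h a (Finset.mem_insert_self _ _)).add (ih fun i hi => h i (Finset.mem_insert_of_mem hi))

theorem TrNull.neg {D : ℕ → K →L[ℂ] K} (h : TrNull Om D) : TrNull Om (fun n => - D n) := by
  have := h.smul (-1)
  simpa using this

theorem TrNull.sub {D D' : ℕ → K →L[ℂ] K} (h : TrNull Om D) (h' : TrNull Om D') :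
    TrNull Om (fun n => D n - D' n) := by
  have := h.add h'.neg
  simpa only [sub_eq_add_neg] using this

theorem TrNull.of_le {D : ℕ → K →L[ℂ] K} {a : ℕ → ℝ} (h : ∀ n, ‖D n Om‖ ≤ a n)
    (ha : Tendsto a atTop (𝓝 0)) : TrNull Om D :=
  squeeze_zero (fun _ => norm_nonneg _) h ha

theorem TrNull.congr {D D' : ℕ → K →L[ℂ] K} (h : TrNull Om D) (e : ∀ n, D n = D' n) :
    TrNull Om D' := by
  have : D = D' := funext e
  rwa [← this]

theorem TrMult.congr {D D' : ℕ → K →L[ℂ] K} (h : TrMult LL Om D) (e : ∀ n, D n = D' n) :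
    TrMult LL Om D' := by
  have : D = D' := funext e
  rwa [← this]

theorem TrMult.sub {R R' : ℕ → K →L[ℂ] K} (h : TrMult LL Om R) (h' : TrMult LL Om R') :
    TrMult LL Om (fun n => R n - R' n) := by
  have := h.add (h'.smul (-1))
  refine this.congr fun n => ?_
  simp [sub_eq_add_neg]

/-! ### clipping -/

/-- the clipping function -/
noncomputable def trClip (δ : ℝ) (s : ℝ) : ℝ := max (-δ) (min s δ)

theorem trClip_continuous (δ : ℝ) : Continuous (trClip δ) := by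
  unfold trClip
  fun_prop

theorem trClip_abs_le {δ : ℝ} (hδ : 0 ≤ δ) (s : ℝ) : |trClip δ s| ≤ δ := by
  unfold trClip
  rw [abs_le]
  exact ⟨le_max_left _ _, max_le (by linarith) (min_le_right _ _)⟩

theorem trClip_sub_sq_le {δ B : ℝ} (hδ : 0 < δ) (n : ℕ) {s : ℝ} (hs : |s| ≤ B) :
    (s - trClip δ s) * (s - trClip δ s) ≤ B ^ 2 * (1 / δ) ^ (2 * n) * s ^ (2 * n) := by
  have hB : 0 ≤ B := (abs_nonneg s).trans hs
  have hR : 0 ≤ B ^ 2 * (1 / δ) ^ (2 * n) * s ^ (2 * n) := by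
    have : 0 ≤ s ^ (2 * n) := (even_two_mul n).pow_nonneg s
    positivity
  by_cases h : |s| ≤ δ
  · have h' := abs_le.1 h
    have : trClip δ s = s := by
      unfold trClip
      rw [min_eq_left h'.2, max_eq_right h'.1]
    rw [this, sub_self, mul_zero]
    exact hR
  · push Not at h
    have h1 : |s - trClip δ s| ≤ |s| := by
      unfold trClip
      rcases le_total 0 s with h0 | h0
      · rw [abs_of_nonneg h0] at h ⊢
        rw [min_eq_right h.le, max_eq_right (by linarith), abs_of_nonneg (by linarith)]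
        linarith
      · rw [abs_of_nonpos h0] at h ⊢
        rw [min_eq_left (by linarith), max_eq_left (by linarith), abs_of_nonpos (by linarith)]
        linarith
    have h2 : (s - trClip δ s) * (s - trClip δ s) ≤ B ^ 2 := by
      rw [← abs_mul_abs_self, sq]
      exact mul_le_mul (h1.trans hs) (h1.trans hs) (abs_nonneg _) hB
    have h3 : 1 ≤ (1 / δ) ^ (2 * n) * s ^ (2 * n) := by
      rw [← mul_pow, ← (even_two_mul n).pow_abs]
      apply one_le_pow₀
      rw [abs_mul, abs_of_pos (by positivity : 0 < 1 / δ), one_div, ← div_eq_inv_mul,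
        le_div_iff₀ hδ]
      linarith
    calc (s - trClip δ s) * (s - trClip δ s) ≤ B ^ 2 * 1 := by rw [mul_one]; exact h2
      _ ≤ B ^ 2 * ((1 / δ) ^ (2 * n) * s ^ (2 * n)) :=
          mul_le_mul_of_nonneg_left h3 (by positivity)
      _ = B ^ 2 * (1 / δ) ^ (2 * n) * s ^ (2 * n) := by ring

theorem trm_norm_clip_le (T : K →L[ℂ] K) {δ : ℝ} (hδ : 0 ≤ δ) : ‖cfc (trClip δ) T‖ ≤ δ :=
  norm_cfc_le hδ fun s _ => by rw [Real.norm_eq_abs]; exact trClip_abs_le hδ s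

/-- Chebyshev + clipping. -/
theorem trm_clip_le (T : K →L[ℂ] K) (hT : IsSelfAdjoint T) {B δ : ℝ} (hδ : 0 < δ) (hB : ‖T‖ ≤ B)
    (n : ℕ) (v : K) :
    ‖(T - cfc (trClip δ) T) v‖ ^ 2 ≤ B ^ 2 * (1 / δ) ^ (2 * n) * (⟪v, (T ^ (2 * n)) v⟫_ℂ).re := by
  have hc := trClip_continuous δ
  set D := cfc (fun s => s - trClip δ s) T with hD
  have hD1 : D = T - cfc (trClip δ) T := by
    rw [hD, cfc_sub (fun s => s) (trClip δ) T (by fun_prop) hc.continuousOn, cfc_id' ℝ T hT]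
  have hDsa : IsSelfAdjoint D := IsSelfAdjoint.cfc
  have hDD : D * D = cfc (fun s => (s - trClip δ s) * (s - trClip δ s)) T := by
    rw [hD, ← cfc_mul _ _ T (by fun_prop) (by fun_prop)]
  have hpow : (B ^ 2 * (1 / δ) ^ (2 * n)) • T ^ (2 * n) =
      cfc (fun s => B ^ 2 * (1 / δ) ^ (2 * n) * s ^ (2 * n)) T := by
    rw [cfc_const_mul _ _ T (by fun_prop), cfc_pow_id T (2 * n) hT]
  have hle : D * D ≤ (B ^ 2 * (1 / δ) ^ (2 * n)) • T ^ (2 * n) := by
    rw [hDD, hpow]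
    refine cfc_mono (fun s hs => ?_) (by fun_prop) (by fun_prop)
    exact trClip_sub_sq_le hδ n (abs_le.2 (tr_spectrum_subset T hB hs))
  have h1 := vn_re_inner_le_of_le hle v
  have h2 : (⟪v, (D * D) v⟫_ℂ).re = ‖D v‖ ^ 2 := by
    rw [vn_mul_apply, vn_inner_sa hDsa, inner_self_eq_norm_sq_to_K]
    norm_cast
  rw [h2, hD1] at h1
  refine h1.trans (le_of_eq ?_)
  rw [smul_apply, inner_smul_right_eq_smul, Complex.smul_re, smul_eq_mul]

/-! ### block sums and powers on an invariant subspace -/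

theorem trm_bessel {r : ℕ} (q : Fin r → K →L[ℂ] K) (hq : ∀ i, IsStarProjection (q i))
    (horth : ∀ i j, i ≠ j → q i * q j = 0) (ξ : K) : ∑ i, ‖q i ξ‖ ^ 2 ≤ ‖ξ‖ ^ 2 := by
  have ho : ∀ i ∈ Finset.univ, ∀ j ∈ Finset.univ, i ≠ j → ⟪q i ξ, q j ξ⟫_ℂ = 0 := by
    intro i _ j _ hij
    rw [← vn_inner_sa (hq i).isSelfAdjoint, ← vn_mul_apply (q i) (q j), horth i j hij]
    simp
  rw [← st_norm_sq_sum_orth Finset.univ (fun i => q i ξ) ho, ← sum_apply]
  have hP : IsStarProjection (∑ i, q i) :=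
    vn_isStarProjection_sum Finset.univ q (fun i _ => hq i) (fun i _ j _ h => horth i j h)
  have h1 : ‖(∑ i, q i) ξ‖ ≤ 1 * ‖ξ‖ :=
    ((∑ i, q i).le_opNorm ξ).trans (mul_le_mul_of_nonneg_right (vn_proj_norm_le hP) (norm_nonneg _))
  rw [one_mul] at h1
  gcongr

/-- norm of a block diagonal sum on an invariant subspace -/
theorem trm_block_norm_le {r : ℕ} (q : Fin r → K →L[ℂ] K) (hq : ∀ i, IsStarProjection (q i))
    (horth : ∀ i j, i ≠ j → q i * q j = 0) (B : Fin r → K →L[ℂ] K)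
    (hB : ∀ i, q i * B i * q i = B i) (V : Submodule ℂ K) (hV : ∀ i, ∀ ξ ∈ V, q i ξ ∈ V)
    {c : ℝ} (hc : 0 ≤ c) (hbd : ∀ i, ∀ ξ ∈ V, ‖B i ξ‖ ≤ c * ‖ξ‖) {ξ : K} (hξ : ξ ∈ V) :
    ‖(∑ i, B i) ξ‖ ≤ c * ‖ξ‖ := by
  have e1 : ∀ i, B i ξ = q i (B i (q i ξ)) := fun i => by
    conv_lhs => rw [← hB i]
    rfl
  have e2 : ∀ i, B i ξ = B i (q i ξ) := fun i => by
    conv_lhs => rw [← hB i]
    conv_rhs => rw [← hB i]
    simp only [vn_mul_apply, vn_proj_apply_apply (hq i)]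
  have ho : ∀ i ∈ Finset.univ, ∀ j ∈ Finset.univ, i ≠ j → ⟪B i ξ, B j ξ⟫_ℂ = 0 := by
    intro i _ j _ hij
    rw [e1 i, e1 j, ← vn_inner_sa (hq i).isSelfAdjoint, ← vn_mul_apply (q i) (q j), horth i j hij]
    simp
  have hsq : ‖(∑ i, B i) ξ‖ ^ 2 ≤ (c * ‖ξ‖) ^ 2 := by
    rw [sum_apply, st_norm_sq_sum_orth Finset.univ (fun i => B i ξ) ho]
    calc ∑ i, ‖B i ξ‖ ^ 2 ≤ ∑ i, c ^ 2 * ‖q i ξ‖ ^ 2 := by
          refine Finset.sum_le_sum fun i _ => ?_
          rw [e2 i, ← mul_pow]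
          have := hbd i (q i ξ) (hV i ξ hξ)
          gcongr
      _ = c ^ 2 * ∑ i, ‖q i ξ‖ ^ 2 := by rw [Finset.mul_sum]
      _ ≤ c ^ 2 * ‖ξ‖ ^ 2 := mul_le_mul_of_nonneg_left (trm_bessel q hq horth ξ) (by positivity)
      _ = (c * ‖ξ‖) ^ 2 := by ring
  exact le_of_sq_le_sq hsq (by positivity)

/-- pinching by orthogonal projections is a contraction -/
theorem trm_pinch_norm_le {r : ℕ} (q : Fin r → K →L[ℂ] K) (hq : ∀ i, IsStarProjection (q i))
    (horth : ∀ i j, i ≠ j → q i * q j = 0) (T : K →L[ℂ] K) : ‖∑ i, q i * T * q i‖ ≤ ‖T‖ := by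
  refine ContinuousLinearMap.opNorm_le_bound _ (norm_nonneg _) fun ξ => ?_
  refine trm_block_norm_le q hq horth (fun i => q i * T * q i) (fun i => ?_) ⊤
    (fun _ _ _ => Submodule.mem_top) (norm_nonneg _) (fun i η _ => ?_) Submodule.mem_top
  · have h := (hq i).isIdempotentElem.eq
    calc q i * (q i * T * q i) * q i = (q i * q i) * T * (q i * q i) := by simp only [mul_assoc]
      _ = q i * T * q i := by rw [h]
  · have h1 := vn_proj_norm_le (hq i)
    calc ‖(q i * T * q i) η‖ ≤ ‖q i * T * q i‖ * ‖η‖ := ContinuousLinearMap.le_opNorm _ _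
      _ ≤ ‖T‖ * ‖η‖ := by
          refine mul_le_mul_of_nonneg_right ?_ (norm_nonneg _)
          calc ‖q i * T * q i‖ ≤ ‖q i‖ * ‖T‖ * ‖q i‖ :=
                (norm_mul_le _ _).trans (mul_le_mul_of_nonneg_right (norm_mul_le _ _) (norm_nonneg _))
            _ ≤ 1 * ‖T‖ * 1 := by gcongr
            _ = ‖T‖ := by ring

theorem trm_pow_norm_le (Q : K →L[ℂ] K) (V : Submodule ℂ K) (hV : ∀ ξ ∈ V, Q ξ ∈ V) {c : ℝ}
    (hc : 0 ≤ c) (hbd : ∀ ξ ∈ V, ‖Q ξ‖ ≤ c * ‖ξ‖) {v : K} (hv : v ∈ V) (k : ℕ) :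
    (Q ^ k) v ∈ V ∧ ‖(Q ^ k) v‖ ≤ c ^ k * ‖v‖ := by
  induction k with
  | zero => simpa using hv
  | succ k ih =>
    rw [pow_succ', vn_mul_apply]
    refine ⟨hV _ ih.1, (hbd _ ih.1).trans ?_⟩
    calc c * ‖(Q ^ k) v‖ ≤ c * (c ^ k * ‖v‖) := mul_le_mul_of_nonneg_left ih.2 hc
      _ = c ^ (k + 1) * ‖v‖ := by ring

end Claimed.Agent.R302
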