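/-
R302 / TR / Model (TR3, TR4): the limit-state model.   Owner: helper100 (statements), helper210 (proofs).
 OpSeq S  = bounded families  (partition, number of digits, sample) -> B(H)   (C*-algebra)
 opPhi S  = ultrafilter limit of the averaged vector states                    (positive functional)
 GNS of opPhi (Mathlib): opPi S : OpSeq S ->*a B(opK S), vacuum opVac S.
-/
import Claimed.Agent.R302.TR.Hyp

set_option autoImplicit false

namespace Claimed.Agent.R302

open scoped InnerProductSpace ComplexOrder ENNReal CStarAlgebra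
open Filter Topology

universe u
variable {H : Type u} [NormedAddCommGroup H] [InnerProductSpace ℂ H] [CompleteSpace H]

/-- index set of the model -/
abbrev OpIdx (S : StData H) : Type u := Σ Pt : StPart S × ℕ, (Pt.1.cells → Fin Pt.2 → Bool)

/-- bounded families of operators -/
abbrev OpSeq (S : StData H) : Type u := lp (fun _ : OpIdx S => H →L[ℂ] H) ∞

noncomputable instance opSeqCStar [Nontrivial H] (S : StData H) : CStarAlgebra (OpSeq S) where

noncomputable instance opSeqOrder [Nontrivial H] (S : StData H) : PartialOrder (OpSeq S) :=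
  CStarAlgebra.spectralOrder _

instance opSeqStarOrdered [Nontrivial H] (S : StData H) : StarOrderedRing (OpSeq S) :=
  CStarAlgebra.spectralOrderedRing _

theorem StData.nontrivial (S : StData H) (hOm : ‖S.Om‖ = 1) : Nontrivial H := by
  refine ⟨⟨S.Om, 0, fun h => ?_⟩⟩
  rw [h, norm_zero] at hOm
  exact zero_ne_one hOm

instance stPart_nonempty (S : StData H) : Nonempty (StPart S) :=
  ⟨{ cells := {1}
     proj := by
      intro e he; rw [Finset.mem_singleton.mp he]; exact ⟨one_mem S.A, IsStarProjection.one _⟩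
     orth := by
      intro e he f hf hne
      exact absurd ((Finset.mem_singleton.mp he).trans (Finset.mem_singleton.mp hf).symm) hne
     sum_eq := by simp }⟩

theorem opA_comm (S : StData H) {a b : H →L[ℂ] H} (ha : a ∈ S.A) (hb : b ∈ S.A) : a * b = b * a :=
  ((S.masa a).1 ha).2 b hb

theorem opA_proj_mul (S : StData H) {e f : H →L[ℂ] H} (he : S.IsProjA e) (hf : S.IsProjA f) :
    S.IsProjA (e * f) :=
  ⟨mul_mem he.1 hf.1, he.2.mul hf.2 (opA_comm S he.1 hf.1)⟩

/-- common refinements exist -/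
theorem opPart_exists_refine (S : StData H) (P Q : StPart S) : ∃ R : StPart S, P ≤ R ∧ Q ≤ R := by
  classical
  have horth : ∀ p ∈ P.cells ×ˢ Q.cells, ∀ q ∈ P.cells ×ˢ Q.cells, p ≠ q →
      (p.1 * p.2) * (q.1 * q.2) = 0 := by
    intro p hp q hq hne
    rw [Finset.mem_product] at hp hq
    have h1 : (p.1 * p.2) * (q.1 * q.2) = (p.1 * q.1) * (p.2 * q.2) := by
      rw [mul_assoc, ← mul_assoc p.2, opA_comm S (Q.proj _ hp.2).1 (P.proj _ hq.1).1, mul_assoc,
        ← mul_assoc]
    rw [h1]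
    by_cases h : p.1 = q.1
    · have h2 : p.2 ≠ q.2 := fun h2 => hne (Prod.ext h h2)
      rw [Q.orth _ hp.2 _ hq.2 h2, mul_zero]
    · rw [P.orth _ hp.1 _ hq.1 h, zero_mul]
  refine ⟨{ cells := (P.cells ×ˢ Q.cells).image fun p => p.1 * p.2
            proj := ?_
            orth := ?_
            sum_eq := ?_ }, ?_, ?_⟩
  · intro g hg
    obtain ⟨p, hp, rfl⟩ := Finset.mem_image.1 hg
    rw [Finset.mem_product] at hp
    exact opA_proj_mul S (P.proj _ hp.1) (Q.proj _ hp.2)
  · intro g hg g' hg' hne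
    obtain ⟨p, hp, rfl⟩ := Finset.mem_image.1 hg
    obtain ⟨q, hq, rfl⟩ := Finset.mem_image.1 hg'
    exact horth p hp q hq fun h => hne (by rw [h])
  · rw [Finset.sum_image_of_pairwise_eq_zero]
    · rw [Finset.sum_product, ← Finset.sum_mul_sum, P.sum_eq, Q.sum_eq, one_mul]
    · intro p hp q hq hne heq
      have hp' := Finset.mem_product.1 hp
      have h1 := horth p hp q hq hne
      rw [← heq] at h1
      rw [← h1]
      exact ((opA_proj_mul S (P.proj _ hp'.1) (Q.proj _ hp'.2)).2.isIdempotentElem).symm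
  · intro g hg
    obtain ⟨p, hp, rfl⟩ := Finset.mem_image.1 hg
    rw [Finset.mem_product] at hp
    exact ⟨p.1, hp.1, by rw [← mul_assoc, (P.proj _ hp.1).2.isIdempotentElem]⟩
  · intro g hg
    obtain ⟨p, hp, rfl⟩ := Finset.mem_image.1 hg
    rw [Finset.mem_product] at hp
    exact ⟨p.2, hp.2, by
      rw [opA_comm S (P.proj _ hp.1).1 (Q.proj _ hp.2).1, ← mul_assoc,
        (Q.proj _ hp.2).2.isIdempotentElem]⟩

instance opPart_directed (S : StData H) : IsDirected (StPart S) (· ≤ ·) := ⟨opPart_exists_refine S⟩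

instance opPartNat_directed (S : StData H) : IsDirected (StPart S × ℕ) (· ≤ ·) :=
  ⟨fun a b => by
    obtain ⟨c, hac, hbc⟩ := opPart_exists_refine S a.1 b.1
    exact ⟨(c, max a.2 b.2), ⟨hac, le_max_left _ _⟩, ⟨hbc, le_max_right _ _⟩⟩⟩

/-- an ultrafilter containing the tails -/
noncomputable def opUlt (S : StData H) : Ultrafilter (StPart S × ℕ) := Ultrafilter.of atTop

theorem opUlt_le (S : StData H) : (opUlt S : Filter (StPart S × ℕ)) ≤ atTop := Ultrafilter.of_le _

/-- ultrafilter limit of a bounded scalar net -/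
noncomputable def opLim (S : StData H) (f : StPart S × ℕ → ℂ) : ℂ := limUnder (opUlt S : Filter _) f

theorem opLim_tendsto (S : StData H) (f : StPart S × ℕ → ℂ) (C : ℝ) (hf : ∀ i, ‖f i‖ ≤ C) :
    Tendsto f (opUlt S : Filter _) (𝓝 (opLim S f)) := by
  apply tendsto_nhds_limUnder
  have hc : IsCompact (Metric.closedBall (0 : ℂ) C) := isCompact_closedBall 0 C
  obtain ⟨x, -, hx⟩ := hc.ultrafilter_le_nhds' ((opUlt S).map f) (by
    rw [Ultrafilter.mem_map]
    exact Filter.univ_mem' fun i => by simpa using hf i)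
  exact ⟨x, hx⟩

theorem opLim_eq (S : StData H) {f : StPart S × ℕ → ℂ} {l : ℂ}
    (h : Tendsto f (opUlt S : Filter _) (𝓝 l)) : opLim S f = l := h.limUnder_eq

open Classical in
/-- averaged vector state at level `Pt` -/
noncomputable def opAvgSeq (S : StData H) (T : OpIdx S → H →L[ℂ] H) (Pt : StPart S × ℕ) : ℂ :=
  (∑ om : Pt.1.cells → Fin Pt.2 → Bool, S.phi (T ⟨Pt, om⟩)) /
    (Fintype.card (Pt.1.cells → Fin Pt.2 → Bool) : ℂ)

theorem opPhi0_norm_le (S : StData H) (x : H →L[ℂ] H) : ‖S.phi x‖ ≤ ‖x‖ * ‖S.Om‖ ^ 2 := by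
  unfold StData.phi
  calc ‖⟪S.Om, x S.Om⟫_ℂ‖ ≤ ‖S.Om‖ * ‖x S.Om‖ := norm_inner_le_norm _ _
    _ ≤ ‖S.Om‖ * (‖x‖ * ‖S.Om‖) := by gcongr; exact x.le_opNorm _
    _ = ‖x‖ * ‖S.Om‖ ^ 2 := by ring

/-- an average of numbers bounded by `C` is bounded by `C` -/
theorem opAvg_gen_norm_le {ι : Type*} [Fintype ι] [Nonempty ι] (g : ι → ℂ) (C : ℝ)
    (h : ∀ i, ‖g i‖ ≤ C) : ‖(∑ i, g i) / (Fintype.card ι : ℂ)‖ ≤ C := by
  have hcard : (0 : ℝ) < Fintype.card ι := by exact_mod_cast Fintype.card_pos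
  rw [norm_div, Complex.norm_natCast, div_le_iff₀ hcard]
  calc ‖∑ i, g i‖ ≤ ∑ i, ‖g i‖ := norm_sum_le _ _
    _ ≤ ∑ _i : ι, C := Finset.sum_le_sum fun i _ => h i
    _ = C * Fintype.card ι := by rw [Finset.sum_const, Finset.card_univ, nsmul_eq_mul, mul_comm]

open Classical in
theorem opAvgSeq_norm_le (S : StData H) (T : OpIdx S → H →L[ℂ] H) (C : ℝ) (hT : ∀ i, ‖T i‖ ≤ C)
    (Pt : StPart S × ℕ) : ‖opAvgSeq S T Pt‖ ≤ C * ‖S.Om‖ ^ 2 := by
  unfold opAvgSeq
  apply opAvg_gen_norm_le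
  intro om
  exact (opPhi0_norm_le S _).trans (by gcongr; exact hT _)

theorem opSeq_norm_apply_le (S : StData H) (T : OpSeq S) (i : OpIdx S) : ‖T i‖ ≤ ‖T‖ :=
  lp.norm_apply_le_norm (by simp) T i

theorem opAvgSeq_tendsto (S : StData H) (T : OpSeq S) :
    Tendsto (opAvgSeq S T) (opUlt S : Filter _) (𝓝 (opLim S (opAvgSeq S T))) :=
  opLim_tendsto S _ (‖T‖ * ‖S.Om‖ ^ 2) (opAvgSeq_norm_le S T ‖T‖ (opSeq_norm_apply_le S T))

theorem opPhi0_add (S : StData H) (x y : H →L[ℂ] H) : S.phi (x + y) = S.phi x + S.phi y := by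
  unfold StData.phi
  rw [add_apply, inner_add_right]

theorem opPhi0_smul (S : StData H) (c : ℂ) (x : H →L[ℂ] H) : S.phi (c • x) = c * S.phi x := by
  unfold StData.phi
  rw [smul_apply, inner_smul_right]

theorem opAvgSeq_add (S : StData H) (T T' : OpIdx S → H →L[ℂ] H) (Pt : StPart S × ℕ) :
    opAvgSeq S (T + T') Pt = opAvgSeq S T Pt + opAvgSeq S T' Pt := by
  unfold opAvgSeq
  simp only [Pi.add_apply, opPhi0_add, Finset.sum_add_distrib, add_div]

theorem opAvgSeq_smul (S : StData H) (c : ℂ) (T : OpIdx S → H →L[ℂ] H) (Pt : StPart S × ℕ) :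
    opAvgSeq S (c • T) Pt = c * opAvgSeq S T Pt := by
  unfold opAvgSeq
  simp only [Pi.smul_apply, opPhi0_smul, ← Finset.mul_sum, mul_div_assoc]

theorem opAvgSeq_star_mul_nonneg (S : StData H) (R : OpIdx S → H →L[ℂ] H) (Pt : StPart S × ℕ) :
    0 ≤ opAvgSeq S (star R * R) Pt := by
  unfold opAvgSeq
  apply div_nonneg
  · apply Finset.sum_nonneg
    intro om _
    simp only [Pi.mul_apply, Pi.star_apply]
    unfold StData.phi
    rw [mul_apply_eq_comp, ContinuousLinearMap.star_eq_adjoint,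
      ContinuousLinearMap.adjoint_inner_right]
    rw [inner_self_eq_norm_sq_to_K]
    exact pow_nonneg (Complex.zero_le_real.2 (norm_nonneg ((R ⟨Pt, om⟩) S.Om))) 2
  · exact_mod_cast Nat.zero_le _

theorem op_nonneg_eq_star_mul {A : Type*} [CStarAlgebra A] [PartialOrder A] [StarOrderedRing A]
    {a : A} (ha : 0 ≤ a) : ∃ b : A, a = star b * b :=
  CStarAlgebra.nonneg_iff_eq_star_mul_self.1 ha

variable [Nontrivial H]

omit [Nontrivial H] in
theorem opLim_add (S : StData H) (T T' : OpSeq S) :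
    opLim S (opAvgSeq S ((T + T' : OpSeq S) : OpIdx S → H →L[ℂ] H))
      = opLim S (opAvgSeq S T) + opLim S (opAvgSeq S T') := by
  apply opLim_eq
  have h := (opAvgSeq_tendsto S T).add (opAvgSeq_tendsto S T')
  refine h.congr fun Pt => ?_
  rw [lp.coeFn_add, opAvgSeq_add]

theorem opLim_smul (S : StData H) (c : ℂ) (T : OpSeq S) :
    opLim S (opAvgSeq S ((c • T : OpSeq S) : OpIdx S → H →L[ℂ] H))
      = c * opLim S (opAvgSeq S T) := by
  apply opLim_eq
  have h := (opAvgSeq_tendsto S T).const_mul c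
  refine h.congr fun Pt => ?_
  rw [lp.coeFn_smul, opAvgSeq_smul]

omit [Nontrivial H] in
theorem opLim_star_mul_nonneg (S : StData H) (R : OpSeq S) :
    0 ≤ opLim S (opAvgSeq S ((star R * R : OpSeq S) : OpIdx S → H →L[ℂ] H)) := by
  refine ge_of_tendsto' (opAvgSeq_tendsto S (star R * R)) fun Pt => ?_
  have : ((star R * R : OpSeq S) : OpIdx S → H →L[ℂ] H) = star (R : OpIdx S → H →L[ℂ] H) * R := by
    rw [lp.infty_coeFn_mul, lp.coeFn_star]
  rw [this]
  exact opAvgSeq_star_mul_nonneg S R Pt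

/-- the limit state -/
noncomputable def opPhi (S : StData H) : OpSeq S →ₚ[ℂ] ℂ where
  toFun T := opLim S (opAvgSeq S T)
  map_add' := opLim_add S
  map_smul' c T := by simpa using opLim_smul S c T
  monotone' := by
    intro a b hab
    obtain ⟨R, hR⟩ := op_nonneg_eq_star_mul (sub_nonneg.2 hab)
    have h1 := opLim_star_mul_nonneg S R
    rw [← hR] at h1
    have h2 := opLim_add S a (b - a)
    rw [add_sub_cancel] at h2
    show opLim S (opAvgSeq S a) ≤ opLim S (opAvgSeq S b)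
    rw [h2]
    exact le_add_of_nonneg_right h1

theorem opPhi_apply (S : StData H) (T : OpSeq S) : opPhi S T = opLim S (opAvgSeq S T) := rfl

/-- total constructor of bounded families -/
noncomputable def opMk (S : StData H) (f : OpIdx S → H →L[ℂ] H) : OpSeq S :=
  open Classical in if h : Memℓp f ∞ then ⟨f, h⟩ else 0

omit [Nontrivial H] in
theorem opMk_coe (S : StData H) (f : OpIdx S → H →L[ℂ] H) (C : ℝ) (h : ∀ i, ‖f i‖ ≤ C) :
    (opMk S f : OpIdx S → H →L[ℂ] H) = f := by
  have hm : Memℓp f ∞ := memℓp_infty ⟨C, by rintro _ ⟨i, rfl⟩; exact h i⟩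
  unfold opMk
  rw [dif_pos hm]

/-- constant families -/
noncomputable def opConst (S : StData H) (x : H →L[ℂ] H) : OpSeq S := opMk S fun _ => x

/-- evaluation of a function of the digit symmetries at the random symmetries -/
noncomputable def opEv (S : StData H) (b : (ℕ → H →L[ℂ] H) → H →L[ℂ] H) : OpSeq S :=
  opMk S fun i => b (opRand i.1.1 i.1.2 i.2)

/-- GNS space, representation, vacuum -/
abbrev opK (S : StData H) : Type u := (opPhi S).GNS

noncomputable def opPi (S : StData H) : OpSeq S →⋆ₐ[ℂ] (opK S →L[ℂ] opK S) := (opPhi S).gnsStarAlgHom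

noncomputable def opVac (S : StData H) : opK S := ((opPhi S).toPreGNS 1 : (opPhi S).PreGNS)

theorem opPi_vac (S : StData H) (T : OpSeq S) :
    opPi S T (opVac S) = (((opPhi S).toPreGNS T : (opPhi S).PreGNS) : opK S) := by
  unfold opPi opVac
  simp

theorem opPi_inner (S : StData H) (T T' : OpSeq S) :
    ⟪opPi S T (opVac S), opPi S T' (opVac S)⟫_ℂ = opPhi S (star T * T') := by
  rw [opPi_vac, opPi_vac, UniformSpace.Completion.inner_coe, PositiveLinearMap.preGNS_inner_def]
  simp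

theorem opPhi_const (S : StData H) (x : H →L[ℂ] H) : opPhi S (opConst S x) = S.phi x := by
  classical
  rw [opPhi_apply]
  apply opLim_eq
  unfold opConst
  rw [opMk_coe S _ ‖x‖ fun _ => le_rfl]
  have : opAvgSeq S (fun _ => x) = fun _ => S.phi x := by
    funext Pt
    unfold opAvgSeq
    rw [Finset.sum_const, Finset.card_univ, nsmul_eq_mul, mul_comm, mul_div_assoc, div_self,
      mul_one]
    exact_mod_cast Fintype.card_ne_zero
  rw [this]
  exact tendsto_const_nhds

omit [Nontrivial H] in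
theorem opRand_sym (S : StData H) (P : StPart S) (t : ℕ) (om : P.cells → Fin t → Bool) :
    S.IsSymFam (opRand P t om) := by
  classical
  intro k
  unfold opRand
  by_cases h : k < t
  · rw [dif_pos h]
    refine ⟨?_, ?_, ?_⟩
    · exact sum_mem fun e _ => S.A.smul_mem (P.proj _ e.2).1 _
    · unfold IsSelfAdjoint
      rw [star_sum]
      refine Finset.sum_congr rfl fun e _ => ?_
      rw [star_smul, (P.proj _ e.2).2.isSelfAdjoint.star_eq]
      split_ifs <;> simp
    · rw [Finset.sum_mul_sum]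
      have h1 : ∀ e : P.cells, ∑ f : P.cells,
          ((if om e ⟨k, h⟩ then (1 : ℂ) else -1) • (e : H →L[ℂ] H)) *
            ((if om f ⟨k, h⟩ then (1 : ℂ) else -1) • (f : H →L[ℂ] H)) = (e : H →L[ℂ] H) := by
        intro e
        rw [Finset.sum_eq_single e]
        · rw [smul_mul_smul_comm, (P.proj _ e.2).2.isIdempotentElem]
          split_ifs <;> simp
        · intro f _ hne
          rw [smul_mul_smul_comm, P.orth _ e.2 _ f.2 fun h => hne (Subtype.ext h.symm), smul_zero]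
        · intro h; exact absurd (Finset.mem_univ _) h
      rw [Finset.sum_congr rfl fun e _ => h1 e, Finset.sum_coe_sort P.cells fun e => e, P.sum_eq]
  · rw [dif_neg h]
    exact ⟨one_mem _, IsSelfAdjoint.one _, one_mul 1⟩

omit [Nontrivial H] in
theorem opAvgSeq_ev (S : StData H) (F : (ℕ → H →L[ℂ] H) → H →L[ℂ] H) (Pt : StPart S × ℕ) :
    opAvgSeq S (fun i => F (opRand i.1.1 i.1.2 i.2)) Pt = opAvg Pt fun w => S.phi (F w) := rfl

omit [Nontrivial H] in
theorem opEv_coe (S : StData H) (F : (ℕ → H →L[ℂ] H) → H →L[ℂ] H) (C : ℝ)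
    (hF : ∀ w, S.IsSymFam w → ‖F w‖ ≤ C) :
    (opEv S F : OpIdx S → H →L[ℂ] H) = fun i => F (opRand i.1.1 i.1.2 i.2) :=
  opMk_coe S _ C fun _ => hF _ (opRand_sym S _ _ _)

theorem opPhi_ev_tendsto_ult (S : StData H) (F : (ℕ → H →L[ℂ] H) → H →L[ℂ] H) (C : ℝ)
    (hF : ∀ w, S.IsSymFam w → ‖F w‖ ≤ C) :
    Tendsto (fun Pt : StPart S × ℕ => opAvg Pt fun w => S.phi (F w)) (opUlt S : Filter _)
      (𝓝 (opPhi S (opEv S F))) := by
  have h : Tendsto (opAvgSeq S (opEv S F)) (opUlt S : Filter _) (𝓝 (opPhi S (opEv S F))) :=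
    opAvgSeq_tendsto S (opEv S F)
  rw [opEv_coe S F C hF] at h
  exact h

/-- `Phi` of a bounded function of the random symmetries is a cluster value of its averages -/
theorem opPhi_ev_le (S : StData H) (F : (ℕ → H →L[ℂ] H) → H →L[ℂ] H) (C : ℝ)
    (hF : ∀ w, S.IsSymFam w → ‖F w‖ ≤ C) (c : ℝ)
    (h : ∀ᶠ Pt : StPart S × ℕ in atTop, (opAvg Pt fun w => S.phi (F w)).re ≤ c) :
    (opPhi S (opEv S F)).re ≤ c := by
  have h1 := (Complex.continuous_re.tendsto _).comp (opPhi_ev_tendsto_ult S F C hF)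
  exact le_of_tendsto h1 (opUlt_le S h)

theorem opPhi_ev_exists (S : StData H) (F : (ℕ → H →L[ℂ] H) → H →L[ℂ] H) (C : ℝ)
    (hF : ∀ w, S.IsSymFam w → ‖F w‖ ≤ C) (c : ℝ) (h : (opPhi S (opEv S F)).re < c) :
    ∃ (Pt : StPart S × ℕ) (om : Pt.1.cells → Fin Pt.2 → Bool), (S.phi (F (opRand Pt.1 Pt.2 om))).re < c := by
  classical
  by_contra hcon
  push Not at hcon
  have h1 := (Complex.continuous_re.tendsto _).comp (opPhi_ev_tendsto_ult S F C hF)
  refine absurd (ge_of_tendsto' h1 fun Pt => ?_) (not_le.2 h)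
  simp only [Function.comp_apply]
  unfold opAvg
  have hcard : (0 : ℝ) < Fintype.card (Pt.1.cells → Fin Pt.2 → Bool) := by
    exact_mod_cast Fintype.card_pos
  rw [Complex.div_natCast_re, Complex.re_sum, le_div_iff₀ hcard]
  calc c * Fintype.card (Pt.1.cells → Fin Pt.2 → Bool)
      = ∑ _om : Pt.1.cells → Fin Pt.2 → Bool, c := by
        rw [Finset.sum_const, Finset.card_univ, nsmul_eq_mul, mul_comm]
    _ ≤ _ := Finset.sum_le_sum fun om _ => hcon Pt om

theorem opPhi_ev_tendsto (S : StData H) (F : (ℕ → H →L[ℂ] H) → H →L[ℂ] H) (C : ℝ)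
    (hF : ∀ w, S.IsSymFam w → ‖F w‖ ≤ C) (l : ℂ)
    (h : Tendsto (fun Pt : StPart S × ℕ => opAvg Pt fun w => S.phi (F w)) atTop (𝓝 l)) :
    opPhi S (opEv S F) = l :=
  tendsto_nhds_unique (opPhi_ev_tendsto_ult S F C hF) (h.mono_left (opUlt_le S))

end Claimed.Agent.R302
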