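/-
R302 / TR / ModelAlg : algebra of the constructors `opMk`, `opConst`, `opEv` of the limit-state model, and the vacuum state.
Owner: helper275.  No sorry of its own (cites Model.lean: opPi_inner, opPhi_const; Cyl.lean: tr_rand_sym, tr_cyl_bdd).
-/
import Claimed.Agent.R302.TR.Model
import Claimed.Agent.R302.TR.Cyl

set_option autoImplicit false
set_option linter.unusedSectionVars false

namespace Claimed.Agent.R302

open scoped InnerProductSpace ComplexOrder ENNReal CStarAlgebra
open Filter Topology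

universe u
variable {H : Type u} [NormedAddCommGroup H] [InnerProductSpace ℂ H] [CompleteSpace H]

/-- functions of the digit symmetries which are bounded on families of symmetries -/
def OpBdd (S : StData H) (F : (ℕ → H →L[ℂ] H) → H →L[ℂ] H) : Prop :=
  ∃ C : ℝ, ∀ w, S.IsSymFam w → ‖F w‖ ≤ C

theorem OpCyl.opBdd {S : StData H} {b : (ℕ → H →L[ℂ] H) → H →L[ℂ] H} (hb : OpCyl S b) : OpBdd S b :=
  tr_cyl_bdd S hb

namespace OpBdd

variable {S : StData H} {F G : (ℕ → H →L[ℂ] H) → H →L[ℂ] H}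

theorem const (x : H →L[ℂ] H) : OpBdd S (fun _ => x) := ⟨‖x‖, fun _ _ => le_rfl⟩

theorem add (hF : OpBdd S F) (hG : OpBdd S G) : OpBdd S (fun w => F w + G w) := by
  obtain ⟨C, hC⟩ := hF
  obtain ⟨C', hC'⟩ := hG
  exact ⟨C + C', fun w hw => (norm_add_le _ _).trans (add_le_add (hC w hw) (hC' w hw))⟩

theorem sub (hF : OpBdd S F) (hG : OpBdd S G) : OpBdd S (fun w => F w - G w) := by
  obtain ⟨C, hC⟩ := hF
  obtain ⟨C', hC'⟩ := hG
  exact ⟨C + C', fun w hw => (norm_sub_le _ _).trans (add_le_add (hC w hw) (hC' w hw))⟩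

theorem mul (hF : OpBdd S F) (hG : OpBdd S G) : OpBdd S (fun w => F w * G w) := by
  obtain ⟨C, hC⟩ := hF
  obtain ⟨C', hC'⟩ := hG
  refine ⟨|C| * |C'|, fun w hw => (norm_mul_le _ _).trans ?_⟩
  exact mul_le_mul ((hC w hw).trans (le_abs_self _)) ((hC' w hw).trans (le_abs_self _))
    (norm_nonneg _) (abs_nonneg _)

theorem smul (c : ℂ) (hF : OpBdd S F) : OpBdd S (fun w => c • F w) := by
  obtain ⟨C, hC⟩ := hF
  refine ⟨‖c‖ * C, fun w hw => ?_⟩
  rw [norm_smul]
  exact mul_le_mul_of_nonneg_left (hC w hw) (norm_nonneg _)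

theorem star (hF : OpBdd S F) : OpBdd S (fun w => star (F w)) := by
  obtain ⟨C, hC⟩ := hF
  exact ⟨C, fun w hw => by rw [norm_star]; exact hC w hw⟩

theorem sum {ι : Type*} (s : Finset ι) {F : ι → (ℕ → H →L[ℂ] H) → H →L[ℂ] H}
    (hF : ∀ i ∈ s, OpBdd S (F i)) : OpBdd S (fun w => ∑ i ∈ s, F i w) := by
  classical
  induction s using Finset.induction_on with
  | empty => simpa using (OpBdd.const (S := S) 0)
  | insert a s ha ih =>
    simp only [Finset.sum_insert ha]
    exact (hF a (Finset.mem_insert_self _ _)).add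
      (ih fun i hi => hF i (Finset.mem_insert_of_mem hi))

theorem pow (hF : OpBdd S F) (k : ℕ) : OpBdd S (fun w => F w ^ k) := by
  induction k with
  | zero => simpa using (OpBdd.const (S := S) 1)
  | succ k ih =>
    simp only [pow_succ]
    exact ih.mul hF

end OpBdd

/-! ### `opMk` -/

theorem opm_memℓp (S : StData H) {f : OpIdx S → H →L[ℂ] H} {C : ℝ} (h : ∀ i, ‖f i‖ ≤ C) :
    Memℓp f ∞ := by
  refine memℓp_infty ⟨C, ?_⟩
  rintro _ ⟨i, rfl⟩
  exact h i

theorem OpBdd.memℓp {S : StData H} {F : (ℕ → H →L[ℂ] H) → H →L[ℂ] H} (hF : OpBdd S F) :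
    Memℓp (fun i : OpIdx S => F (opRand i.1.1 i.1.2 i.2)) ∞ := by
  obtain ⟨C, hC⟩ := hF
  exact opm_memℓp S fun i => hC _ (tr_rand_sym S _ _ _)

variable [Nontrivial H]

theorem opMk_apply (S : StData H) {f : OpIdx S → H →L[ℂ] H} (hf : Memℓp f ∞) (i : OpIdx S) :
    opMk S f i = f i := by
  unfold opMk
  rw [dif_pos hf]

theorem opMk_add (S : StData H) {f g : OpIdx S → H →L[ℂ] H} (hf : Memℓp f ∞) (hg : Memℓp g ∞) :
    opMk S (fun i => f i + g i) = opMk S f + opMk S g := by
  have h : Memℓp (fun i => f i + g i) ∞ := hf.add hg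
  refine lp.ext (funext fun i => ?_)
  rw [lp.coeFn_add, Pi.add_apply, opMk_apply S hf, opMk_apply S hg, opMk_apply S h]

theorem opMk_sub (S : StData H) {f g : OpIdx S → H →L[ℂ] H} (hf : Memℓp f ∞) (hg : Memℓp g ∞) :
    opMk S (fun i => f i - g i) = opMk S f - opMk S g := by
  have h : Memℓp (fun i => f i - g i) ∞ := hf.sub hg
  refine lp.ext (funext fun i => ?_)
  rw [lp.coeFn_sub, Pi.sub_apply, opMk_apply S hf, opMk_apply S hg, opMk_apply S h]

theorem opMk_smul (S : StData H) (c : ℂ) {f : OpIdx S → H →L[ℂ] H} (hf : Memℓp f ∞) :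
    opMk S (fun i => c • f i) = c • opMk S f := by
  have h : Memℓp (fun i => c • f i) ∞ := hf.const_smul c
  refine lp.ext (funext fun i => ?_)
  rw [lp.coeFn_smul, Pi.smul_apply, opMk_apply S hf, opMk_apply S h]

theorem opMk_star (S : StData H) {f : OpIdx S → H →L[ℂ] H} (hf : Memℓp f ∞) :
    opMk S (fun i => star (f i)) = star (opMk S f) := by
  have h : Memℓp (fun i => star (f i)) ∞ := hf.star_mem
  refine lp.ext (funext fun i => ?_)
  rw [lp.coeFn_star, Pi.star_apply, opMk_apply S hf, opMk_apply S h]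

theorem opMk_norm_le (S : StData H) {f : OpIdx S → H →L[ℂ] H} {C : ℝ} (hC : 0 ≤ C)
    (h : ∀ i, ‖f i‖ ≤ C) : ‖opMk S f‖ ≤ C := by
  refine lp.norm_le_of_forall_le hC fun i => ?_
  rw [opMk_apply S (opm_memℓp S h)]
  exact h i

theorem opMk_mul (S : StData H) {f g : OpIdx S → H →L[ℂ] H} (hf : Memℓp f ∞) (hg : Memℓp g ∞) :
    opMk S (fun i => f i * g i) = opMk S f * opMk S g := by
  have h : Memℓp (fun i => f i * g i) ∞ := hf.infty_mul hg
  refine lp.ext (funext fun i => ?_)
  rw [lp.infty_coeFn_mul, Pi.mul_apply, opMk_apply S hf, opMk_apply S hg, opMk_apply S h]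

/-! ### `opConst` -/

theorem opm_const_memℓp (S : StData H) (x : H →L[ℂ] H) : Memℓp (fun _ : OpIdx S => x) ∞ :=
  opm_memℓp S (C := ‖x‖) fun _ => le_rfl

theorem opConst_mul (S : StData H) (x y : H →L[ℂ] H) :
    opConst S (x * y) = opConst S x * opConst S y :=
  opMk_mul S (opm_const_memℓp S x) (opm_const_memℓp S y)

theorem opConst_add (S : StData H) (x y : H →L[ℂ] H) :
    opConst S (x + y) = opConst S x + opConst S y :=
  opMk_add S (opm_const_memℓp S x) (opm_const_memℓp S y)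

theorem opConst_sub (S : StData H) (x y : H →L[ℂ] H) :
    opConst S (x - y) = opConst S x - opConst S y :=
  opMk_sub S (opm_const_memℓp S x) (opm_const_memℓp S y)

theorem opConst_smul (S : StData H) (c : ℂ) (x : H →L[ℂ] H) :
    opConst S (c • x) = c • opConst S x :=
  opMk_smul S c (opm_const_memℓp S x)

theorem opConst_star (S : StData H) (x : H →L[ℂ] H) : opConst S (star x) = star (opConst S x) :=
  opMk_star S (opm_const_memℓp S x)

theorem opConst_one (S : StData H) : opConst S 1 = 1 := by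
  refine lp.ext (funext fun i => ?_)
  rw [lp.infty_coeFn_one, opConst, opMk_apply S (opm_const_memℓp S 1), Pi.one_apply]

theorem opConst_zero (S : StData H) : opConst S 0 = 0 := by
  refine lp.ext (funext fun i => ?_)
  rw [lp.coeFn_zero, opConst, opMk_apply S (opm_const_memℓp S 0), Pi.zero_apply]

theorem opConst_norm_le (S : StData H) (x : H →L[ℂ] H) : ‖opConst S x‖ ≤ ‖x‖ :=
  opMk_norm_le S (norm_nonneg _) fun _ => le_rfl

/-! ### `opEv` -/

section Ev

variable {S : StData H} {F G : (ℕ → H →L[ℂ] H) → H →L[ℂ] H}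

theorem opEv_const (S : StData H) (x : H →L[ℂ] H) : opEv S (fun _ => x) = opConst S x := rfl

theorem opEv_congr (h : ∀ w, S.IsSymFam w → F w = G w) : opEv S F = opEv S G := by
  unfold opEv
  congr 1
  funext i
  exact h _ (tr_rand_sym S _ _ _)

theorem opEv_mul (hF : OpBdd S F) (hG : OpBdd S G) :
    opEv S (fun w => F w * G w) = opEv S F * opEv S G := opMk_mul S hF.memℓp hG.memℓp

theorem opEv_add (hF : OpBdd S F) (hG : OpBdd S G) :
    opEv S (fun w => F w + G w) = opEv S F + opEv S G := opMk_add S hF.memℓp hG.memℓp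

theorem opEv_sub (hF : OpBdd S F) (hG : OpBdd S G) :
    opEv S (fun w => F w - G w) = opEv S F - opEv S G := opMk_sub S hF.memℓp hG.memℓp

theorem opEv_smul (c : ℂ) (hF : OpBdd S F) : opEv S (fun w => c • F w) = c • opEv S F :=
  opMk_smul S c hF.memℓp

theorem opEv_star (hF : OpBdd S F) : opEv S (fun w => star (F w)) = star (opEv S F) :=
  opMk_star S hF.memℓp

theorem opEv_sum {ι : Type*} (s : Finset ι) {F : ι → (ℕ → H →L[ℂ] H) → H →L[ℂ] H}
    (hF : ∀ i ∈ s, OpBdd S (F i)) : opEv S (fun w => ∑ i ∈ s, F i w) = ∑ i ∈ s, opEv S (F i) := by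
  classical
  induction s using Finset.induction_on with
  | empty =>
    simp only [Finset.sum_empty]
    rw [opEv_const, opConst_zero]
  | insert a s ha ih =>
    simp only [Finset.sum_insert ha]
    rw [opEv_add (hF a (Finset.mem_insert_self _ _))
      (OpBdd.sum s fun i hi => hF i (Finset.mem_insert_of_mem hi)),
      ih fun i hi => hF i (Finset.mem_insert_of_mem hi)]

theorem opEv_pow (hF : OpBdd S F) (k : ℕ) : opEv S (fun w => F w ^ k) = opEv S F ^ k := by
  induction k with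
  | zero =>
    simp only [pow_zero]
    rw [opEv_const, opConst_one]
  | succ k ih =>
    simp only [pow_succ]
    rw [opEv_mul (hF.pow k) hF, ih]

theorem opEv_norm_le {C : ℝ} (hC : 0 ≤ C) (h : ∀ w, S.IsSymFam w → ‖F w‖ ≤ C) : ‖opEv S F‖ ≤ C :=
  opMk_norm_le S hC fun _ => h _ (tr_rand_sym S _ _ _)

end Ev

/-! ### the vacuum state -/

theorem opPi_vac_inner (S : StData H) (T : OpSeq S) :
    ⟪opVac S, opPi S T (opVac S)⟫_ℂ = opPhi S T := by
  have h := opPi_inner S 1 T
  rwa [map_one, star_one, one_mul, one_apply_eq_self] at h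

theorem opPi_vac_norm_sq (S : StData H) (T : OpSeq S) :
    ‖opPi S T (opVac S)‖ ^ 2 = (opPhi S (star T * T)).re := by
  rw [← opPi_inner S T T, inner_self_eq_norm_sq_to_K]
  norm_cast

theorem opPi_const_vac_norm (S : StData H) (x : H →L[ℂ] H) :
    ‖opPi S (opConst S x) (opVac S)‖ = ‖x S.Om‖ := by
  have h : ‖opPi S (opConst S x) (opVac S)‖ ^ 2 = ‖x S.Om‖ ^ 2 := by
    rw [opPi_vac_norm_sq, ← opConst_star, ← opConst_mul, opPhi_const]
    unfold StData.phi
    rw [mul_apply_eq_comp, ContinuousLinearMap.star_eq_adjoint,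
      ContinuousLinearMap.adjoint_inner_right, inner_self_eq_norm_sq_to_K]
    norm_cast
  exact (pow_left_inj₀ (norm_nonneg _) (norm_nonneg _) two_ne_zero).1 h

theorem opVac_norm (S : StData H) : ‖opVac S‖ = ‖S.Om‖ := by
  have h := opPi_const_vac_norm S 1
  rwa [opConst_one, map_one, one_apply_eq_self, one_apply_eq_self] at h

theorem opPi_norm_le (S : StData H) (T : OpSeq S) : ‖opPi S T‖ ≤ ‖T‖ :=
  NonUnitalStarAlgHom.norm_apply_le (opPi S : OpSeq S →⋆ₙₐ[ℂ] (opK S →L[ℂ] opK S)) T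

end Claimed.Agent.R302
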