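/-
R302 / TR / MainB : model level lemmas for TR9 (Q Proposition 8.2).   Owner: helper275.
 trC S x = pi(const x), trE S b = pi(Ev b);  membership in opLL, invariance of opH0, partitions of unity in the model,
 pinchings, bounded / null sequences of constants, marginals of cylinder functions and the Chebyshev cut.
-/
import Claimed.Agent.R302.TR.Free
import Claimed.Agent.R302.TR.ModelAlg
import Claimed.Agent.R302.TR.MainA
import Claimed.Agent.R302.ST.EN
import Claimed.Agent.R302.VN.Spec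

set_option autoImplicit false
set_option linter.unusedSectionVars false

namespace Claimed.Agent.R302

open scoped InnerProductSpace ComplexOrder ENNReal
open Filter Topology

universe u
variable {H : Type u} [NormedAddCommGroup H] [InnerProductSpace ℂ H] [CompleteSpace H] [Nontrivial H]

/-- constants in the GNS representation -/
noncomputable def trC (S : StData H) (x : H →L[ℂ] H) : opK S →L[ℂ] opK S := opPi S (opConst S x)

/-- functions of the random symmetries in the GNS representation -/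
noncomputable def trE (S : StData H) (b : (ℕ → H →L[ℂ] H) → H →L[ℂ] H) : opK S →L[ℂ] opK S :=
  opPi S (opEv S b)

variable (S : StData H)

/-! ### algebra -/

theorem trC_mul (x y : H →L[ℂ] H) : trC S (x * y) = trC S x * trC S y := by
  unfold trC; rw [opConst_mul, map_mul]

theorem trC_add (x y : H →L[ℂ] H) : trC S (x + y) = trC S x + trC S y := by
  unfold trC; rw [opConst_add, map_add]

theorem trC_sub (x y : H →L[ℂ] H) : trC S (x - y) = trC S x - trC S y := by
  unfold trC; rw [opConst_sub, map_sub]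

theorem trC_one : trC S 1 = 1 := by
  unfold trC; rw [opConst_one, map_one]

theorem trC_star (x : H →L[ℂ] H) : trC S (star x) = star (trC S x) := by
  unfold trC; rw [opConst_star, map_star]

theorem trC_norm_le (x : H →L[ℂ] H) : ‖trC S x‖ ≤ ‖x‖ :=
  (opPi_norm_le S _).trans (opConst_norm_le S x)

theorem trC_vac_norm (x : H →L[ℂ] H) : ‖trC S x (opVac S)‖ = ‖x S.Om‖ := opPi_const_vac_norm S x

variable {S}
variable {F G : (ℕ → H →L[ℂ] H) → H →L[ℂ] H}

theorem trE_const (x : H →L[ℂ] H) : trE S (fun _ => x) = trC S x := rfl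

theorem trE_congr (h : ∀ w, S.IsSymFam w → F w = G w) : trE S F = trE S G := by
  unfold trE; rw [opEv_congr h]

theorem trE_mul (hF : OpBdd S F) (hG : OpBdd S G) : trE S (fun w => F w * G w) = trE S F * trE S G := by
  unfold trE; rw [opEv_mul hF hG, map_mul]

theorem trE_add (hF : OpBdd S F) (hG : OpBdd S G) : trE S (fun w => F w + G w) = trE S F + trE S G := by
  unfold trE; rw [opEv_add hF hG, map_add]

theorem trE_sub (hF : OpBdd S F) (hG : OpBdd S G) : trE S (fun w => F w - G w) = trE S F - trE S G := by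
  unfold trE; rw [opEv_sub hF hG, map_sub]

theorem trE_star (hF : OpBdd S F) : trE S (fun w => star (F w)) = star (trE S F) := by
  unfold trE; rw [opEv_star hF, map_star]

theorem trE_sum {ι : Type*} (s : Finset ι) {F : ι → (ℕ → H →L[ℂ] H) → H →L[ℂ] H}
    (hF : ∀ i ∈ s, OpBdd S (F i)) : trE S (fun w => ∑ i ∈ s, F i w) = ∑ i ∈ s, trE S (F i) := by
  unfold trE; rw [opEv_sum s hF, map_sum]

theorem trE_pow (hF : OpBdd S F) (k : ℕ) : trE S (fun w => F w ^ k) = trE S F ^ k := by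
  unfold trE; rw [opEv_pow hF, map_pow]

theorem trE_norm_le {C : ℝ} (hC : 0 ≤ C) (h : ∀ w, S.IsSymFam w → ‖F w‖ ≤ C) : ‖trE S F‖ ≤ C :=
  (opPi_norm_le S _).trans (opEv_norm_le hC h)

theorem trE_vac_inner (F : (ℕ → H →L[ℂ] H) → H →L[ℂ] H) :
    ⟪opVac S, trE S F (opVac S)⟫_ℂ = opPhi S (opEv S F) := opPi_vac_inner S _

theorem trE_isSelfAdjoint (hF : OpBdd S F) (h : ∀ w, S.IsSymFam w → IsSelfAdjoint (F w)) :
    IsSelfAdjoint (trE S F) := by
  rw [IsSelfAdjoint, ← trE_star hF]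
  exact trE_congr fun w hw => (h w hw).star_eq

theorem trC_isSelfAdjoint {x : H →L[ℂ] H} (hx : IsSelfAdjoint x) : IsSelfAdjoint (trC S x) := by
  rw [IsSelfAdjoint, ← trC_star, hx.star_eq]

/-- constants of `A` commute with cylinder functions -/
theorem trm_commute {a : H →L[ℂ] H} (ha : a ∈ S.A) {b : (ℕ → H →L[ℂ] H) → H →L[ℂ] H}
    (hb : OpCyl S b) : Commute (trC S a) (trE S b) := by
  show trC S a * trE S b = trE S b * trC S a
  rw [← trE_const, ← trE_mul (OpBdd.const a) hb.opBdd, ← trE_mul hb.opBdd (OpBdd.const a)]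
  exact trE_congr fun w hw => (st_A_comm S ha (tr_cyl_mem S hb hw)).eq

/-! ### membership in `opLL`, invariance of `opH0` -/

theorem trm_const_mem_alg {x : H →L[ℂ] H} (hx : x ∈ S.M) : opConst S x ∈ opAlg S :=
  StarAlgebra.subset_adjoin _ _ (Or.inl ⟨x, hx, rfl⟩)

theorem trm_ev_mem_alg {b : (ℕ → H →L[ℂ] H) → H →L[ℂ] H} (hb : OpCyl S b) : opEv S b ∈ opAlg S :=
  StarAlgebra.subset_adjoin _ _ (Or.inr ⟨b, hb, rfl⟩)

theorem trm_pi_mem {T : OpSeq S} (hT : T ∈ opAlg S) : opPi S T ∈ opLL S :=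
  StarSubalgebra.le_topologicalClosure _ (StarSubalgebra.mem_map.2 ⟨T, hT, rfl⟩)

theorem trC_mem {x : H →L[ℂ] H} (hx : x ∈ S.M) : trC S x ∈ opLL S := trm_pi_mem (trm_const_mem_alg hx)

theorem trE_mem {b : (ℕ → H →L[ℂ] H) → H →L[ℂ] H} (hb : OpCyl S b) : trE S b ∈ opLL S :=
  trm_pi_mem (trm_ev_mem_alg hb)

theorem trm_vac_mem : opVac S ∈ opH0 S := by
  refine Submodule.le_topologicalClosure _ (Submodule.subset_span ⟨1, one_mem _, ?_⟩)
  rw [map_one]; rfl

theorem trm_H0_invariant {R : opK S →L[ℂ] opK S} (hR : R ∈ opLL S) {ξ : opK S} (hξ : ξ ∈ opH0 S) :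
    R ξ ∈ opH0 S := by
  have ha : ∀ T ∈ opAlg S, ∀ ξ ∈ opH0 S, opPi S T ξ ∈ opH0 S := by
    intro T hT ξ hξ
    have h1 : ∀ η ∈ Submodule.span ℂ {ξ | ∃ T ∈ opAlg S, ξ = opPi S T (opVac S)},
        opPi S T η ∈ Submodule.span ℂ {ξ | ∃ T ∈ opAlg S, ξ = opPi S T (opVac S)} := by
      intro η hη
      induction hη using Submodule.span_induction with
      | mem η h =>
        obtain ⟨T', hT', rfl⟩ := h
        exact Submodule.subset_span ⟨T * T', mul_mem hT hT', by rw [map_mul]; rfl⟩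
      | zero => rw [map_zero]; exact Submodule.zero_mem _
      | add a b _ _ ha hb => rw [map_add]; exact add_mem ha hb
      | smul c a _ ha => rw [map_smul]; exact Submodule.smul_mem _ c ha
    have h2 : ξ ∈ closure ((Submodule.span ℂ {ξ | ∃ T ∈ opAlg S, ξ = opPi S T (opVac S)} :
        Submodule ℂ (opK S)) : Set (opK S)) := hξ
    exact map_mem_closure (opPi S T).continuous h2 h1
  have hR' : R ∈ closure (((opAlg S).map (opPi S) : StarSubalgebra ℂ (opK S →L[ℂ] opK S)) :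
      Set (opK S →L[ℂ] opK S)) := hR
  have h3 : R ξ ∈ closure (opH0 S : Set (opK S)) := by
    refine map_mem_closure (f := fun R : opK S →L[ℂ] opK S => R ξ)
      (ContinuousLinearMap.apply ℂ (opK S) ξ).continuous hR' ?_
    rintro R' hR''
    obtain ⟨T, hT, rfl⟩ := StarSubalgebra.mem_map.1 hR''
    exact ha T hT ξ hξ
  have hcl : IsClosed (opH0 S : Set (opK S)) := Submodule.isClosed_topologicalClosure _
  rwa [hcl.closure_eq] at h3

/-! ### partitions of unity in the model -/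

section POU

variable {r : ℕ} {b : Fin r → (ℕ → H →L[ℂ] H) → H →L[ℂ] H} (hb : ∀ i, OpCyl S (b i))
  (hP : ∀ w, S.IsSymFam w → OpIsPOU S.A (fun i => b i w))

include hb hP

theorem trm_pou_proj (i : Fin r) : IsStarProjection (trE S (b i)) := by
  refine ⟨?_, trE_isSelfAdjoint (hb i).opBdd fun w hw => ((hP w hw).1 i).2.isSelfAdjoint⟩
  show trE S (b i) * trE S (b i) = trE S (b i)
  rw [← trE_mul (hb i).opBdd (hb i).opBdd]
  exact trE_congr fun w hw => ((hP w hw).1 i).2.isIdempotentElem.eq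

theorem trm_pou_orth (i j : Fin r) (hij : i ≠ j) : trE S (b i) * trE S (b j) = 0 := by
  rw [← trE_mul (hb i).opBdd (hb j).opBdd, trE_congr (G := fun _ => 0)
    (fun w hw => (hP w hw).2.1 i j hij), trE_const]
  unfold trC
  rw [opConst_zero, map_zero]

theorem trm_pou_norm_le (i : Fin r) (w : ℕ → H →L[ℂ] H) (hw : S.IsSymFam w) : ‖b i w‖ ≤ 1 :=
  vn_proj_norm_le ((hP w hw).1 i).2

omit hP in
theorem trm_pin (y : H →L[ℂ] H) :
    trE S (fun w => ∑ i, b i w * y * b i w) = ∑ i, trE S (b i) * trC S y * trE S (b i) := by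
  rw [trE_sum Finset.univ fun i _ => ((hb i).opBdd.mul (OpBdd.const y)).mul (hb i).opBdd]
  refine Finset.sum_congr rfl fun i _ => ?_
  rw [trE_mul ((hb i).opBdd.mul (OpBdd.const y)) (hb i).opBdd, trE_mul (hb i).opBdd (OpBdd.const y),
    trE_const]

omit hP in
theorem trm_pin_bdd (y : H →L[ℂ] H) : OpBdd S (fun w => ∑ i, b i w * y * b i w) :=
  OpBdd.sum _ fun i _ => ((hb i).opBdd.mul (OpBdd.const y)).mul (hb i).opBdd

theorem trm_pin_norm_le (y : H →L[ℂ] H) : ‖∑ i, trE S (b i) * trC S y * trE S (b i)‖ ≤ ‖y‖ :=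
  (trm_pinch_norm_le (K := opK S) (fun i => trE S (b i)) (trm_pou_proj hb hP) (trm_pou_orth hb hP)
    (trC S y)).trans (trC_norm_le S y)

theorem trm_pin_sa {y : H →L[ℂ] H} (hy : IsSelfAdjoint y) :
    IsSelfAdjoint (∑ i, trE S (b i) * trC S y * trE S (b i)) := by
  rw [IsSelfAdjoint, star_sum]
  refine Finset.sum_congr rfl fun i _ => ?_
  rw [star_mul, star_mul, (trm_pou_proj hb hP i).isSelfAdjoint.star_eq,
    (trC_isSelfAdjoint hy).star_eq, mul_assoc]

end POU

/-! ### sequences -/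

theorem trm_null_const {x : ℕ → H →L[ℂ] H} (h : Tendsto (fun j => ‖x j S.Om‖) atTop (𝓝 0)) :
    TrNull (opVac S) (fun j => trC S (x j)) := by
  unfold TrNull
  simpa only [trC_vac_norm] using h

theorem trm_bdd_const {x : ℕ → H →L[ℂ] H} (hM : ∀ j, x j ∈ S.M) {C : ℝ} (hC : ∀ j, ‖x j‖ ≤ C) :
    TrBdd (opLL S) (fun j => trC S (x j)) :=
  ⟨fun j => trC_mem (hM j), C, fun j => (trC_norm_le S _).trans (hC j)⟩

theorem trm_mult_const (hST : OpSTHyp S) {z : H →L[ℂ] H} (hz : z ∈ S.M) :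
    TrMult (opLL S) (opVac S) (fun _ => trC S z) := tr_mult_const S hST z hz

theorem trm_mult_cyl (hST : OpSTHyp S) {b : ℕ → (ℕ → H →L[ℂ] H) → H →L[ℂ] H}
    (hb : ∀ n, OpCyl S (b n)) {C : ℝ} (hC : ∀ n w, S.IsSymFam w → ‖b n w‖ ≤ C) :
    TrMult (opLL S) (opVac S) (fun n => trE S (b n)) := tr_mult_cyl S hST b hb C hC

/-! ### marginals -/

theorem trm_red_cyl {d : OpMono H} (hd : S.IsRed d) : OpCyl S d.eval :=
  tr_mono_cyl S ⟨hd.1, hd.2.2.1⟩

theorem trm_list_bdd (ds : List (OpMono H)) (hds : ∀ d ∈ ds, S.IsRed d) :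
    OpBdd S (fun w => (ds.map fun d => d.eval w).sum) := by
  induction ds with
  | nil => simpa using (OpBdd.const (S := S) 0)
  | cons d ds ih =>
    simp only [List.map_cons, List.sum_cons]
    exact (trm_red_cyl (hds d List.mem_cons_self)).opBdd.add
      (ih fun d' hd' => hds d' (List.mem_cons_of_mem _ hd'))

theorem trm_list_phi (hST : OpSTHyp S) (hAK : OpAK S) (ds : List (OpMono H))
    (hds : ∀ d ∈ ds, S.IsRed d) {a : H →L[ℂ] H} (ha : a ∈ S.M) :
    opPhi S (opConst S a * opEv S (fun w => (ds.map fun d => d.eval w).sum)) = 0 := by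
  induction ds with
  | nil =>
    simp only [List.map_nil, List.sum_nil]
    rw [opEv_const, opConst_zero, mul_zero, map_zero]
  | cons d ds ih =>
    simp only [List.map_cons, List.sum_cons]
    rw [opEv_add (trm_red_cyl (hds d List.mem_cons_self)).opBdd
      (trm_list_bdd ds fun d' hd' => hds d' (List.mem_cons_of_mem _ hd')), mul_add, map_add,
      ih fun d' hd' => hds d' (List.mem_cons_of_mem _ hd'), add_zero]
    have h := tr_law S hST hAK (hds d List.mem_cons_self) a 1 ha (one_mem _)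
    rwa [opConst_one, mul_one] at h

/-- the marginal of a cylinder function -/
theorem trm_marginal (hST : OpSTHyp S) (hAK : OpAK S) {b : (ℕ → H →L[ℂ] H) → H →L[ℂ] H}
    (hb : OpCyl S b) :
    ∃ β ∈ S.A, ∀ a ∈ S.M, opPhi S (opConst S a * opEv S b) = S.phi (a * β) := by
  obtain ⟨β, hβ, ds, hred, hnf⟩ := tr_normal_form S hST hb
  refine ⟨β, hβ, fun a ha => ?_⟩
  rw [opEv_congr hnf, opEv_add (OpBdd.const β) (trm_list_bdd ds hred), mul_add, map_add,
    trm_list_phi hST hAK ds hred ha, add_zero, opEv_const, ← opConst_mul, opPhi_const]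

/-- `re phi (c β) = re phi (c (β + β*)/2)` for self-adjoint `c ∈ A`, `β ∈ A`. -/
theorem trm_re_phi {c β : H →L[ℂ] H} (hc : c ∈ S.A) (hcs : IsSelfAdjoint c) (hβ : β ∈ S.A) :
    (S.phi (c * ((1 / 2 : ℂ) • (β + star β)))).re = (S.phi (c * β)).re := by
  have h1 : S.phi (c * star β) = star (S.phi (c * β)) := by
    rw [← st_phi_star, star_mul, hcs.star_eq, (st_A_comm S hc (star_mem hβ)).eq]
  rw [mul_smul_comm, st_phi_smul, mul_add, st_phi_add, h1]
  simp only [Complex.star_def, Complex.mul_re, Complex.add_re, Complex.conj_re, Complex.add_im,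
    Complex.conj_im]
  norm_num
  ring

/-- Chebyshev cut of a cylinder function with almost uniform marginal. -/
theorem trm_cut (hST : OpSTHyp S) (hAK : OpAK S) {b : (ℕ → H →L[ℂ] H) → H →L[ℂ] H} (hb : OpCyl S b)
    {t η : ℝ} (ht : 0 ≤ t)
    (hmarg : ∀ g ∈ S.A, IsStarProjection g →
      (opPhi S (opConst S g * opEv S b)).re ≤ t * (S.phi g).re + η) :
    ∃ g ∈ S.A, IsStarProjection g ∧ t * ‖g S.Om‖ ^ 2 ≤ η ∧
      ∀ a ∈ S.A, 0 ≤ a →
        (opPhi S (opConst S a * opEv S (fun w => (1 - g) * b w))).re ≤ 2 * t * (S.phi a).re := by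
  obtain ⟨β, hβ, hβphi⟩ := trm_marginal hST hAK hb
  obtain ⟨β', hβ'⟩ : ∃ β' : H →L[ℂ] H, β' = (1 / 2 : ℂ) • (β + star β) := ⟨_, rfl⟩
  have hβ'A : β' ∈ S.A := hβ' ▸ S.A.smul_mem (add_mem hβ (star_mem hβ)) _
  have hβ's : IsSelfAdjoint β' := hβ' ▸ st_en_re_sa β
  obtain ⟨g, hg⟩ : ∃ g : H →L[ℂ] H, g = vn_specGt β' (2 * t) := ⟨_, rfl⟩
  have hgA : g ∈ S.A := hg ▸ vn_specGt_mem (vn_masaVN S.M S.A S.masa) hβ'A _
  have hgP : IsStarProjection g := hg ▸ vn_specGt_isStarProjection _ _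
  have hscA : (vn_sc (2 * t) : H →L[ℂ] H) ∈ S.A := S.A.smul_mem (one_mem _) _
  have hphig : (S.phi g).re = ‖g S.Om‖ ^ 2 := by
    have := st_phi_star_mul_self S g
    rw [hgP.isSelfAdjoint.star_eq, hgP.isIdempotentElem.eq] at this
    rw [this, Complex.ofReal_re]
  refine ⟨g, hgA, hgP, ?_, ?_⟩
  · have h1 := (st_phi_nonneg S (vn_specGt_nonneg hβ's (2 * t))).1
    have e0 : (β' - vn_sc (2 * t)) * g = g * β' - ((2 * t : ℝ) : ℂ) • g := by
      rw [sub_mul, (st_A_comm S hβ'A hgA).eq, smul_mul_assoc, one_mul]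
    rw [← hg, e0, st_phi_sub, st_phi_smul, Complex.sub_re, hβ',
      trm_re_phi hgA hgP.isSelfAdjoint hβ, ← hβphi g (st_A_le_M S hgA), Complex.re_ofReal_mul] at h1
    have h2 := hmarg g hgA hgP
    rw [hphig] at h1 h2
    linarith
  · intro a ha ha0
    have h1g : (1 - g) ∈ S.A := sub_mem (one_mem _) hgA
    have e1 : opConst S a * opEv S (fun w => (1 - g) * b w) = opConst S (a * (1 - g)) * opEv S b := by
      rw [opEv_mul (OpBdd.const (1 - g)) hb.opBdd, opEv_const, ← mul_assoc, ← opConst_mul]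
    have hcA : a * (1 - g) ∈ S.A := mul_mem ha h1g
    have hcs : IsSelfAdjoint (a * (1 - g)) :=
      (IsSelfAdjoint.commute_iff ha0.isSelfAdjoint hgP.one_sub.isSelfAdjoint).1 (st_A_comm S ha h1g)
    rw [e1, hβphi _ (st_A_le_M S hcA), ← trm_re_phi hcA hcs hβ, ← hβ']
    -- positivity
    have hX : 0 ≤ -((β' - vn_sc (2 * t)) * (1 - g)) :=
      neg_nonneg.2 (hg ▸ vn_specGt_compl_nonpos hβ's (2 * t))
    have hXA : -((β' - vn_sc (2 * t)) * (1 - g)) ∈ S.A := neg_mem (mul_mem (sub_mem hβ'A hscA) h1g)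
    have h2 := (st_phi_mul_A_nonneg S (st_A_le_M S hXA) hX ha ha0).1
    have h3 := (st_phi_mul_A_nonneg S (st_A_le_M S hgA) hgP.nonneg ha ha0).1
    have e2 : -((β' - vn_sc (2 * t)) * (1 - g)) * a =
        ((2 * t : ℝ) : ℂ) • a - ((2 * t : ℝ) : ℂ) • (g * a) - a * (1 - g) * β' := by
      have c1 : a * (1 - g) * β' = β' * (1 - g) * a := by
        rw [(st_A_comm S hcA hβ'A).eq, (st_A_comm S ha h1g).eq, mul_assoc]
      rw [c1]
      simp only [vn_sc, sub_mul, mul_sub, neg_mul, smul_mul_assoc, one_mul, mul_one]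
      abel
    rw [e2, st_phi_sub, st_phi_sub, st_phi_smul, st_phi_smul, Complex.sub_re, Complex.sub_re,
      Complex.re_ofReal_mul, Complex.re_ofReal_mul] at h2
    nlinarith [mul_nonneg ht h3]

end Claimed.Agent.R302
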