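/-
R302 / TR / Main (TR9 = Q Proposition 8.2).   Statements: helper100; proofs: helper275.   The Core interface of helper7 is TR/Export.lean (tr_top_core, no sorry).
 MainA : abstract Hilbert space lemmas (clipping estimate, block sums, powers on an invariant subspace)
 MainB : model level lemmas (trC, trE, partitions of unity in the model, marginals, Chebyshev cut)
 this file : sequences of pinchings (right multipliers, null sequences), free compression of the cut blocks,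
   one step of the construction (trm_step), the limit argument (trm_seq_main), tr_model_moment, tr_expected.
-/
import Claimed.Agent.R302.TR.MainB
import Claimed.Agent.R302.ST.EA

set_option autoImplicit false
set_option linter.unusedSectionVars false

namespace Claimed.Agent.R302

open scoped InnerProductSpace ComplexOrder ENNReal
open Filter Topology

universe u
variable {H : Type u} [NormedAddCommGroup H] [InnerProductSpace ℂ H] [CompleteSpace H]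

section Seq

variable [Nontrivial H] {S : StData H} (hST : OpSTHyp S) {r : ℕ}
  {b : ℕ → Fin r → (ℕ → H →L[ℂ] H) → H →L[ℂ] H} (hbc : ∀ j i, OpCyl S (b j i))
  (hbP : ∀ j w, S.IsSymFam w → OpIsPOU S.A (fun i => b j i w))

include hST hbc hbP

theorem trm_seq_P_mult (i : Fin r) : TrMult (opLL S) (opVac S) (fun j => trE S (b j i)) :=
  trm_mult_cyl hST (fun j => hbc j i) (C := 1)
    (fun j w hw => trm_pou_norm_le (hbc j) (hbP j) i w hw)

theorem trm_seq_pin_mult {y : H →L[ℂ] H} (hy : y ∈ S.M) :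
    TrMult (opLL S) (opVac S) (fun j => ∑ i, trE S (b j i) * trC S y * trE S (b j i)) :=
  TrMult.sum Finset.univ fun i _ =>
    ((trm_seq_P_mult hST hbc hbP i).mul (trm_mult_const hST hy)).mul (trm_seq_P_mult hST hbc hbP i)

theorem trm_seq_pin_bdd {δ : ℕ → H →L[ℂ] H} (hM : ∀ j, δ j ∈ S.M) {C : ℝ} (hC : ∀ j, ‖δ j‖ ≤ C) :
    TrBdd (opLL S) (fun j => ∑ i, trE S (b j i) * trC S (δ j) * trE S (b j i)) :=
  TrBdd.sum Finset.univ fun i _ =>
    ((trm_seq_P_mult hST hbc hbP i).1.mul (trm_bdd_const hM hC)).mul (trm_seq_P_mult hST hbc hbP i).1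

theorem trm_seq_pin_null {δ : ℕ → H →L[ℂ] H} (hM : ∀ j, δ j ∈ S.M) {C : ℝ} (hC : ∀ j, ‖δ j‖ ≤ C)
    (h0 : TrNull (opVac S) (fun j => trC S (δ j))) :
    TrNull (opVac S) (fun j => ∑ i, trE S (b j i) * trC S (δ j) * trE S (b j i)) := by
  refine TrNull.sum Finset.univ fun i _ => ?_
  have h1 := (trm_seq_P_mult hST hbc hbP i).2 (fun j => trC S (δ j)) (trm_bdd_const hM hC) h0
  have h2 := TrNull.bdd_mul (trm_seq_P_mult hST hbc hbP i).1 h1
  exact h2.congr fun j => by rw [mul_assoc]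

end Seq

/-! ### the Chebyshev cut in the model -/

section Cut

variable [Nontrivial H] {S : StData H}

theorem trm_cutE (g : H →L[ℂ] H) {b : (ℕ → H →L[ℂ] H) → H →L[ℂ] H} (hb : OpCyl S b) :
    trE S (fun w => (1 - g) * b w) = (1 - trC S g) * trE S b := by
  rw [trE_mul (OpBdd.const (1 - g)) hb.opBdd, trE_const, trC_sub, trC_one]

theorem trm_cut_cyl {g : H →L[ℂ] H} (hg : g ∈ S.A) {b : (ℕ → H →L[ℂ] H) → H →L[ℂ] H}
    (hb : OpCyl S b) : OpCyl S (fun w => (1 - g) * b w) :=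
  OpCyl.mul (OpCyl.const _ (sub_mem (one_mem _) hg)) hb

theorem trC_proj {g : H →L[ℂ] H} (hg : IsStarProjection g) : IsStarProjection (trC S g) := by
  refine ⟨?_, trC_isSelfAdjoint hg.isSelfAdjoint⟩
  show trC S g * trC S g = trC S g
  rw [← trC_mul, hg.isIdempotentElem.eq]

variable {r : ℕ} {b : Fin r → (ℕ → H →L[ℂ] H) → H →L[ℂ] H} (hb : ∀ i, OpCyl S (b i))
  (hP : ∀ w, S.IsSymFam w → OpIsPOU S.A (fun i => b i w))
  {g : Fin r → H →L[ℂ] H} (hgA : ∀ i, g i ∈ S.A) (hgP : ∀ i, IsStarProjection (g i))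

include hb hP hgA hgP

theorem trm_cut_proj_pt (i : Fin r) (w : ℕ → H →L[ℂ] H) (hw : S.IsSymFam w) :
    IsStarProjection ((1 - g i) * b i w) :=
  (hgP i).one_sub.mul ((hP w hw).1 i).2
    (st_A_comm S (sub_mem (one_mem _) (hgA i)) ((hP w hw).1 i).1)

theorem trm_cut_proj (i : Fin r) : IsStarProjection (trE S (fun w => (1 - g i) * b i w)) := by
  rw [trm_cutE (g i) (hb i)]
  exact (trC_proj (hgP i)).one_sub.mul (trm_pou_proj hb hP i)
    ((Commute.one_left _).sub_left (trm_commute (hgA i) (hb i)))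

theorem trm_cut_orth (i j : Fin r) (hij : i ≠ j) :
    trE S (fun w => (1 - g i) * b i w) * trE S (fun w => (1 - g j) * b j w) = 0 := by
  rw [trm_cutE (g i) (hb i), trm_cutE (g j) (hb j)]
  have hc : Commute (trE S (b i)) (1 - trC S (g j)) :=
    ((Commute.one_left _).sub_left (trm_commute (hgA j) (hb i))).symm
  rw [hc.mul_mul_mul_comm, trm_pou_orth hb hP i j hij, mul_zero]

/-- free compression of the cut blocks, on `opH0`. -/
theorem trm_cut_bound (hST : OpSTHyp S) (hAK : OpAK S) {lam : ℝ} (hlam : 0 ≤ lam)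
    (hmarg : ∀ i, ∀ a ∈ S.A, 0 ≤ a →
      (opPhi S (opConst S a * opEv S (fun w => (1 - g i) * b i w))).re ≤ lam * (S.phi a).re)
    {w0 : H →L[ℂ] H} (hw0 : w0 ∈ S.Mo) {ξ : opK S} (hξ : ξ ∈ opH0 S) :
    ‖(∑ i, trE S (fun w => (1 - g i) * b i w) * trC S w0 * trE S (fun w => (1 - g i) * b i w)) ξ‖
      ≤ ((lam + 2 * Real.sqrt lam) * ‖w0‖) * ‖ξ‖ := by
  refine trm_block_norm_le (K := opK S) (fun i => trE S (fun w => (1 - g i) * b i w))
    (trm_cut_proj hb hP hgA hgP) (trm_cut_orth hb hP hgA hgP)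
    (fun i => trE S (fun w => (1 - g i) * b i w) * trC S w0 * trE S (fun w => (1 - g i) * b i w))
    (fun i => ?_) (opH0 S) (fun i η hη => trm_H0_invariant (trE_mem (trm_cut_cyl (hgA i) (hb i))) hη)
    (by positivity) (fun i η hη => ?_) hξ
  · have h := (trm_cut_proj hb hP hgA hgP i).isIdempotentElem.eq
    set q := trE S (fun w => (1 - g i) * b i w)
    calc q * (q * trC S w0 * q) * q = (q * q) * trC S w0 * (q * q) := by simp only [mul_assoc]
      _ = q * trC S w0 * q := by rw [h]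
  · have h := tr_free_compress S hST hAK (trm_cut_cyl (hgA i) (hb i))
      (trm_cut_proj_pt hb hP hgA hgP i) lam hlam (hmarg i) w0 hw0 η hη
    rw [map_mul, map_mul] at h
    exact h

end Cut

section SeqCut

variable [Nontrivial H] {S : StData H} (hST : OpSTHyp S) {r : ℕ}
  {b : ℕ → Fin r → (ℕ → H →L[ℂ] H) → H →L[ℂ] H} (hbc : ∀ j i, OpCyl S (b j i))
  (hbP : ∀ j w, S.IsSymFam w → OpIsPOU S.A (fun i => b j i w))
  {g : ℕ → Fin r → H →L[ℂ] H} (hgA : ∀ j i, g j i ∈ S.A) (hgP : ∀ j i, IsStarProjection (g j i))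

include hST hbc hbP hgA hgP

theorem trm_seq_Q_mult (i : Fin r) :
    TrMult (opLL S) (opVac S) (fun j => trE S (fun w => (1 - g j i) * b j i w)) :=
  trm_mult_cyl hST (fun j => trm_cut_cyl (hgA j i) (hbc j i)) (C := 1)
    (fun j w hw => vn_proj_norm_le (trm_cut_proj_pt (hbc j) (hbP j) (hgA j) (hgP j) i w hw))

theorem trm_seq_cut_mult {w0 : H →L[ℂ] H} (hw0 : w0 ∈ S.M) :
    TrMult (opLL S) (opVac S) (fun j => ∑ i, trE S (fun w => (1 - g j i) * b j i w) * trC S w0 *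
      trE S (fun w => (1 - g j i) * b j i w)) :=
  TrMult.sum Finset.univ fun i _ =>
    ((trm_seq_Q_mult hST hbc hbP hgA hgP i).mul (trm_mult_const hST hw0)).mul
      (trm_seq_Q_mult hST hbc hbP hgA hgP i)

theorem trm_seq_cut_null {w0 : H →L[ℂ] H} (hw0 : w0 ∈ S.M)
    (hg0 : ∀ i, TrNull (opVac S) (fun j => trC S (g j i))) :
    TrNull (opVac S) (fun j => (∑ i, trE S (b j i) * trC S w0 * trE S (b j i)) -
      ∑ i, trE S (fun w => (1 - g j i) * b j i w) * trC S w0 *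
        trE S (fun w => (1 - g j i) * b j i w)) := by
  have key : ∀ i, TrNull (opVac S) (fun j => trE S (b j i) * trC S w0 * trE S (b j i) -
      trE S (fun w => (1 - g j i) * b j i w) * trC S w0 * trE S (fun w => (1 - g j i) * b j i w)) := by
    intro i
    have hPm := trm_seq_P_mult hST hbc hbP i
    have hX : TrMult (opLL S) (opVac S) (fun j => trE S (b j i) * trC S w0 * trE S (b j i)) :=
      (hPm.mul (trm_mult_const hST hw0)).mul hPm
    have hG : TrBdd (opLL S) (fun j => trC S (g j i)) :=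
      trm_bdd_const (fun j => st_A_le_M S (hgA j i)) (C := 1) (fun j => vn_proj_norm_le (hgP j i))
    have hG1 : TrBdd (opLL S) (fun j => 1 - trC S (g j i)) :=
      (TrBdd.const (opLL S).one_mem).sub hG
    have n1 := hX.2 _ hG (hg0 i)
    have n2 := TrNull.bdd_mul (hG1.mul hX.1) (hg0 i)
    refine (n1.add n2).congr fun j => ?_
    rw [trm_cutE (g j i) (hbc j i)]
    have hc : (1 - trC S (g j i)) * trE S (b j i) = trE S (b j i) * (1 - trC S (g j i)) :=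
      ((Commute.one_left _).sub_left (trm_commute (hgA j i) (hbc j i))).eq
    set G := trC S (g j i)
    set P := trE S (b j i)
    set C := trC S w0
    have e : (1 - G) * P * C * ((1 - G) * P) = (1 - G) * (P * C * P) * (1 - G) := by
      rw [hc]; simp only [mul_assoc]
      rw [← mul_assoc P (1 - G), ← hc]; simp only [mul_assoc]
    rw [e]
    noncomm_ring
  have := TrNull.sum Finset.univ fun i (_ : i ∈ Finset.univ) => key i
  exact this.congr fun j => by rw [Finset.sum_sub_distrib]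

end SeqCut

section Step

variable [Nontrivial H] {S : StData H}

theorem trm_num_clip {ε : ℝ} (hε0 : 0 < ε) (n : ℕ) :
    (2 : ℝ) ^ 2 * (1 / (ε / 2)) ^ (2 * n) * ((ε / 4) ^ (2 * n) + 2 ^ (2 * n + 1) * (ε / 16) ^ (2 * n))
      ≤ (4 * (1 / 2) ^ n) ^ 2 := by
  have e1 : (1 / (ε / 2)) ^ (2 * n) * (ε / 4) ^ (2 * n) = (1 / 4) ^ n := by
    rw [← mul_pow, pow_mul]
    congr 1
    field_simp
    norm_num
  have e2 : (1 / (ε / 2)) ^ (2 * n) * (2 ^ (2 * n + 1) * (ε / 16) ^ (2 * n)) = 2 * (1 / 16) ^ n := by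
    rw [pow_succ, mul_comm ((2:ℝ) ^ (2 * n)) 2, mul_assoc, ← mul_pow, mul_left_comm, ← mul_pow, pow_mul]
    congr 2
    field_simp
    norm_num
  have e3 : ((1 : ℝ) / 16) ^ n ≤ (1 / 4) ^ n := pow_le_pow_left₀ (by norm_num) (by norm_num) n
  have e4 : (4 * ((1 : ℝ) / 2) ^ n) ^ 2 = 16 * (1 / 4) ^ n := by
    rw [mul_pow, ← pow_mul, mul_comm n 2, pow_mul]
    norm_num
  have h0 : (0 : ℝ) ≤ (1 / 4) ^ n := by positivity
  rw [e4, mul_assoc, mul_add, e1, e2]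
  nlinarith

theorem trm_clip_bound {r : ℕ} {b : Fin r → (ℕ → H →L[ℂ] H) → H →L[ℂ] H} (hb : ∀ i, OpCyl S (b i))
    (hP : ∀ w, S.IsSymFam w → OpIsPOU S.A (fun i => b i w)) {y' : H →L[ℂ] H}
    (hy's : IsSelfAdjoint y') (hy'n : ‖y'‖ ≤ 2) {ε : ℝ} (hε0 : 0 < ε) (n : ℕ)
    (hmom : ∀ᶠ Pt : StPart S × ℕ in atTop,
      (opAvg Pt (fun w => S.phi ((∑ i, b i w * y' * b i w) ^ (2 * n)))).re
        ≤ (ε / 4) ^ (2 * n) + 2 ^ (2 * n + 1) * (ε / 16) ^ (2 * n)) :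
    ‖((∑ i, trE S (b i) * trC S y' * trE S (b i)) -
      cfc (trClip (ε / 2)) (∑ i, trE S (b i) * trC S y' * trE S (b i))) (opVac S)‖
      ≤ 4 * (1 / 2) ^ n := by
  have h1 := trm_clip_le (K := opK S) (∑ i, trE S (b i) * trC S y' * trE S (b i))
    (trm_pin_sa hb hP hy's) (B := 2) (δ := ε / 2) (by positivity)
    ((trm_pin_norm_le hb hP y').trans hy'n) n (opVac S)
  obtain ⟨C, hC⟩ := (trm_pin_bdd hb y').pow (2 * n)
  have h2 := opPhi_ev_le S (fun w => (∑ i, b i w * y' * b i w) ^ (2 * n)) C hC _ hmom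
  rw [← trE_vac_inner, trE_pow (trm_pin_bdd hb y'), trm_pin hb] at h2
  have h3 : ‖((∑ i, trE S (b i) * trC S y' * trE S (b i)) -
      cfc (trClip (ε / 2)) (∑ i, trE S (b i) * trC S y' * trE S (b i))) (opVac S)‖ ^ 2
      ≤ (4 * (1 / 2) ^ n) ^ 2 :=
    (h1.trans (mul_le_mul_of_nonneg_left h2 (by positivity))).trans (trm_num_clip hε0 n)
  exact le_of_sq_le_sq h3 (by positivity)

theorem trm_marg_conv {r : ℕ} {b : (ℕ → H →L[ℂ] H) → H →L[ℂ] H} (hb : OpCyl S b) {η : ℝ}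
    (h : ∀ a ∈ S.A, ‖a‖ ≤ 1 → ∀ᶠ Pt : StPart S × ℕ in atTop,
        ‖opAvg Pt (fun w => S.phi (a * b w)) - S.phi a / r‖ ≤ η)
    (g : H →L[ℂ] H) (hg : g ∈ S.A) (hgP : IsStarProjection g) :
    (opPhi S (opConst S g * opEv S b)).re ≤ 1 / (r : ℝ) * (S.phi g).re + η := by
  rw [← opEv_const, ← opEv_mul (OpBdd.const g) hb.opBdd]
  obtain ⟨C, hC⟩ := (OpBdd.const (S := S) g).mul hb.opBdd
  refine opPhi_ev_le S _ C hC _ ?_
  filter_upwards [h g hg (vn_proj_norm_le hgP)] with Pt hPt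
  have h1 := (Complex.re_le_norm _).trans hPt
  rw [Complex.sub_re, Complex.div_natCast_re] at h1
  have : 1 / (r : ℝ) * (S.phi g).re = (S.phi g).re / r := by ring
  linarith

theorem trm_step (hST : OpSTHyp S) (hAK : OpAK S) {ε : ℝ} (hε0 : 0 < ε) {r : ℕ}
    (hCOL : OpColHyp S r ε) {y' : H →L[ℂ] H} (hy' : y' ∈ S.Nalg) (hy's : IsSelfAdjoint y')
    (hy'n : ‖y'‖ ≤ 2) (hy'E : S.EA y' = 0) (n : ℕ) (hn : 1 ≤ n) {η : ℝ} (hη : 0 < η) :
    ∃ e ∈ S.A, IsStarProjection e ∧ ‖(1 - e) S.Om‖ < η ∧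
    ∃ b : Fin r → (ℕ → H →L[ℂ] H) → H →L[ℂ] H,
      (∀ i, OpCyl S (b i)) ∧ (∀ w, S.IsSymFam w → OpIsPOU S.A (fun i => b i w)) ∧
      (∃ g : Fin r → H →L[ℂ] H, (∀ i, g i ∈ S.A) ∧ (∀ i, IsStarProjection (g i)) ∧
        (∀ i, 1 / (r : ℝ) * ‖g i S.Om‖ ^ 2 ≤ η) ∧
        (∀ i, ∀ a ∈ S.A, 0 ≤ a →
          (opPhi S (opConst S a * opEv S (fun w => (1 - g i) * b i w))).re
            ≤ 2 * (1 / (r : ℝ)) * (S.phi a).re)) ∧
      ‖((∑ i, trE S (b i) * trC S (e * y' * e) * trE S (b i)) -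
        cfc (trClip (ε / 2)) (∑ i, trE S (b i) * trC S (e * y' * e) * trE S (b i))) (opVac S)‖
        ≤ 4 * (1 / 2) ^ n := by
  obtain ⟨e, heA, heP, heO, b, hbc, hbP, hmarg, hmom⟩ := hCOL y' hy' hy's hy'n hy'E n hn η hη
  refine ⟨e, heA, heP, heO, b, hbc, hbP, ?_, ?_⟩
  · have hc : ∀ i, ∃ g ∈ S.A, IsStarProjection g ∧ 1 / (r : ℝ) * ‖g S.Om‖ ^ 2 ≤ η ∧
        ∀ a ∈ S.A, 0 ≤ a → (opPhi S (opConst S a * opEv S (fun w => (1 - g) * b i w))).re
          ≤ 2 * (1 / (r : ℝ)) * (S.phi a).re := fun i =>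
      trm_cut hST hAK (hbc i) (by positivity) (trm_marg_conv (hbc i) (hmarg i))
    choose g hg1 hg2 hg3 hg4 using hc
    exact ⟨g, hg1, hg2, hg3, hg4⟩
  · have hs : IsSelfAdjoint (e * y' * e) := by
      rw [IsSelfAdjoint, star_mul, star_mul, heP.isSelfAdjoint.star_eq, hy's.star_eq, mul_assoc]
    have hnn : ‖e * y' * e‖ ≤ 2 := by
      have h1 := vn_proj_norm_le heP
      calc ‖e * y' * e‖ ≤ ‖e‖ * ‖y'‖ * ‖e‖ :=
            (norm_mul_le _ _).trans (mul_le_mul_of_nonneg_right (norm_mul_le _ _) (norm_nonneg _))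
        _ ≤ 1 * 2 * 1 := by gcongr
        _ = 2 := by norm_num
    exact trm_clip_bound hbc hbP hs hnn hε0 n hmom

end Step

/-! ### the sequences -/

section Final

variable [Nontrivial H] {S : StData H}

theorem trm_tendsto_inv : Tendsto (fun j : ℕ => 1 / ((j : ℝ) + 1)) atTop (𝓝 0) :=
  tendsto_one_div_add_atTop_nhds_zero_nat

/-- `e_j y'_j e_j - y` is state-null. -/
theorem trm_seq_delta_null (hST : OpSTHyp S) {y : H →L[ℂ] H} (hyM : y ∈ S.M)
    {y' e : ℕ → H →L[ℂ] H} (hy'M : ∀ j, y' j ∈ S.M) (hy'n : ∀ j, ‖y' j‖ ≤ 2)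
    (hy'a : ∀ j, ‖(y - y' j) S.Om‖ < 1 / ((j : ℝ) + 1))
    (heA : ∀ j, e j ∈ S.A) (heP : ∀ j, IsStarProjection (e j))
    (heO : ∀ j, ‖(1 - e j) S.Om‖ < 1 / ((j : ℝ) + 1)) :
    TrNull (opVac S) (fun j => trC S (e j * y' j * e j - y)) := by
  have heM : ∀ j, e j ∈ S.M := fun j => st_A_le_M S (heA j)
  have t1 : Tendsto (fun j => ‖(y - y' j) S.Om‖) atTop (𝓝 0) :=
    squeeze_zero (fun _ => norm_nonneg _) (fun j => (hy'a j).le) trm_tendsto_inv
  have t1' : Tendsto (fun j => ‖(y' j - y) S.Om‖) atTop (𝓝 0) := by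
    refine t1.congr fun j => ?_
    rw [← norm_neg, ← neg_apply, neg_sub]
  have t2 : Tendsto (fun j => ‖(1 - e j) S.Om‖) atTop (𝓝 0) :=
    squeeze_zero (fun _ => norm_nonneg _) (fun j => (heO j).le) trm_tendsto_inv
  have n1 : TrNull (opVac S) (fun j => trC S (y' j - y)) := trm_null_const t1'
  have n1' : TrNull (opVac S) (fun j => trC S (y - y' j)) := trm_null_const t1
  have ne : TrNull (opVac S) (fun j => trC S (1 - e j)) := trm_null_const t2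
  have be : TrBdd (opLL S) (fun j => trC S (1 - e j)) :=
    trm_bdd_const (fun j => sub_mem (one_mem _) (heM j)) (C := 1)
      (fun j => vn_proj_norm_le (heP j).one_sub)
  have bey : TrBdd (opLL S) (fun j => trC S (e j * y' j)) :=
    trm_bdd_const (fun j => mul_mem (heM j) (hy'M j)) (C := 1 * 2)
      (fun j => (norm_mul_le _ _).trans
        (mul_le_mul (vn_proj_norm_le (heP j)) (hy'n j) (norm_nonneg _) zero_le_one))
  have n2 := TrNull.bdd_mul be n1'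
  have n3 := (trm_mult_const hST hyM).2 _ be ne
  have n4 := TrNull.bdd_mul bey ne
  refine (((n1.add n2).sub n3).sub n4).congr fun j => ?_
  rw [← trC_mul, ← trC_mul, ← trC_mul, ← trC_add, ← trC_sub, ← trC_sub]
  congr 1
  noncomm_ring

theorem trm_num_lam {ε : ℝ} (hε0 : 0 < ε) (hε1 : ε < 1) {r : ℕ}
    (hr : (200000000 : ℝ) / ε ^ 2 ≤ r) {c : ℝ} (hc : c ≤ 2) :
    0 < (r : ℝ) ∧ (2 * (1 / (r : ℝ)) + 2 * Real.sqrt (2 * (1 / (r : ℝ)))) * c ≤ ε / 4 := by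
  have hr0 : 0 < (r : ℝ) := lt_of_lt_of_le (by positivity) hr
  refine ⟨hr0, ?_⟩
  have h1 : 1 / (r : ℝ) ≤ ε ^ 2 / 200000000 := by
    rw [div_le_iff₀ (by positivity)] at hr
    rw [div_le_div_iff₀ hr0 (by positivity)]
    linarith
  have h2 : 2 * (1 / (r : ℝ)) ≤ (ε / 10000) ^ 2 := by
    have : (ε / 10000) ^ 2 = 2 * (ε ^ 2 / 200000000) := by ring
    linarith
  have h3 : Real.sqrt (2 * (1 / (r : ℝ))) ≤ ε / 10000 :=
    Real.sqrt_le_iff.2 ⟨by positivity, h2⟩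
  have h4 : (ε / 10000) ^ 2 ≤ ε / 10000 := by
    have : ε / 10000 ≤ 1 := by linarith
    have h0 : 0 ≤ ε / 10000 := by positivity
    nlinarith
  have h5 : 0 ≤ 2 * (1 / (r : ℝ)) + 2 * Real.sqrt (2 * (1 / (r : ℝ))) := by positivity
  calc (2 * (1 / (r : ℝ)) + 2 * Real.sqrt (2 * (1 / (r : ℝ)))) * c
      ≤ (2 * (1 / (r : ℝ)) + 2 * Real.sqrt (2 * (1 / (r : ℝ)))) * 2 :=
        mul_le_mul_of_nonneg_left hc h5
    _ ≤ (ε / 10000 + 2 * (ε / 10000)) * 2 := by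
        refine mul_le_mul_of_nonneg_right ?_ (by norm_num)
        linarith
    _ ≤ ε / 4 := by linarith


set_option maxHeartbeats 2000000 in
theorem trm_seq_main (hOm : ‖S.Om‖ = 1) (hST : OpSTHyp S) (hAK : OpAK S) {ε : ℝ} (hε0 : 0 < ε)
    (hε1 : ε < 1) {r : ℕ} (hr : (200000000 : ℝ) / ε ^ 2 ≤ r)
    {y w0 : H →L[ℂ] H} (hyM : y ∈ S.M) (hys : IsSelfAdjoint y) (hw0 : w0 ∈ S.Mo)
    (hwn : ‖w0‖ ≤ 2)
    {y' e : ℕ → H →L[ℂ] H} (hy'M : ∀ j, y' j ∈ S.M) (hy's : ∀ j, IsSelfAdjoint (y' j))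
    (hy'n : ∀ j, ‖y' j‖ ≤ 2) (hy'a : ∀ j, ‖(y - y' j) S.Om‖ < 1 / ((j : ℝ) + 1))
    (heA : ∀ j, e j ∈ S.A) (heP : ∀ j, IsStarProjection (e j))
    (heO : ∀ j, ‖(1 - e j) S.Om‖ < 1 / ((j : ℝ) + 1))
    {b : ℕ → Fin r → (ℕ → H →L[ℂ] H) → H →L[ℂ] H} (hbc : ∀ j i, OpCyl S (b j i))
    (hbP : ∀ j w, S.IsSymFam w → OpIsPOU S.A (fun i => b j i w))
    {g : ℕ → Fin r → H →L[ℂ] H} (hgA : ∀ j i, g j i ∈ S.A) (hgP : ∀ j i, IsStarProjection (g j i))
    (hgO : ∀ j i, 1 / (r : ℝ) * ‖g j i S.Om‖ ^ 2 ≤ 1 / ((j : ℝ) + 1))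
    (hmarg : ∀ j i, ∀ a ∈ S.A, 0 ≤ a →
      (opPhi S (opConst S a * opEv S (fun w => (1 - g j i) * b j i w))).re
        ≤ 2 * (1 / (r : ℝ)) * (S.phi a).re)
    (hclip : ∀ j, ‖((∑ i, trE S (b j i) * trC S (e j * y' j * e j) * trE S (b j i)) -
      cfc (trClip (ε / 2)) (∑ i, trE S (b j i) * trC S (e j * y' j * e j) * trE S (b j i)))
        (opVac S)‖ ≤ 4 * (1 / 2) ^ (j + 1))
    (k : ℕ) (hk : k ≠ 0) :
    ∃ j, ‖((∑ i, trE S (b j i) * trC S (y + w0) * trE S (b j i)) ^ k) (opVac S)‖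
      ≤ (4 / 5 * ε) ^ k := by
  obtain ⟨hr0, hlam⟩ := trm_num_lam hε0 hε1 hr hwn
  have hwM : w0 ∈ S.M := hw0.1
  have heM : ∀ j, e j ∈ S.M := fun j => st_A_le_M S (heA j)
  -- the sequences
  obtain ⟨Y, hY⟩ : ∃ Y : ℕ → opK S →L[ℂ] opK S,
    Y = fun j => ∑ i, trE S (b j i) * trC S y * trE S (b j i) := ⟨_, rfl⟩
  obtain ⟨Yh, hYh⟩ : ∃ Yh : ℕ → opK S →L[ℂ] opK S,
    Yh = fun j => ∑ i, trE S (b j i) * trC S (e j * y' j * e j) * trE S (b j i) := ⟨_, rfl⟩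
  obtain ⟨W, hW⟩ : ∃ W : ℕ → opK S →L[ℂ] opK S,
    W = fun j => ∑ i, trE S (b j i) * trC S w0 * trE S (b j i) := ⟨_, rfl⟩
  obtain ⟨W', hW'⟩ : ∃ W' : ℕ → opK S →L[ℂ] opK S,
    W' = fun j => ∑ i, trE S (fun w => (1 - g j i) * b j i w) * trC S w0 *
      trE S (fun w => (1 - g j i) * b j i w) := ⟨_, rfl⟩
  have hYm : TrMult (opLL S) (opVac S) Y := hY ▸ trm_seq_pin_mult hST hbc hbP hyM
  have hWm : TrMult (opLL S) (opVac S) W := hW ▸ trm_seq_pin_mult hST hbc hbP hwM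
  have hW'm : TrMult (opLL S) (opVac S) W' := hW' ▸ trm_seq_cut_mult hST hbc hbP hgA hgP hwM
  have hYsa : ∀ j, IsSelfAdjoint (Y j) := fun j => by
    rw [hY]; exact trm_pin_sa (hbc j) (hbP j) hys
  have hes : ∀ j, IsSelfAdjoint (e j * y' j * e j) := fun j => by
    rw [IsSelfAdjoint, star_mul, star_mul, (heP j).isSelfAdjoint.star_eq, (hy's j).star_eq, mul_assoc]
  have hYhsa : ∀ j, IsSelfAdjoint (Yh j) := fun j => by
    rw [hYh]; exact trm_pin_sa (hbc j) (hbP j) (hes j)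
  -- Yh - Y
  have hδM : ∀ j, e j * y' j * e j - y ∈ S.M := fun j =>
    sub_mem (mul_mem (mul_mem (heM j) (hy'M j)) (heM j)) hyM
  have hδn : ∀ j, ‖e j * y' j * e j - y‖ ≤ 1 * 2 * 1 + ‖y‖ := fun j => by
    refine (norm_sub_le _ _).trans (add_le_add ?_ le_rfl)
    have h1 := vn_proj_norm_le (heP j)
    calc ‖e j * y' j * e j‖ ≤ ‖e j‖ * ‖y' j‖ * ‖e j‖ :=
          (norm_mul_le _ _).trans (mul_le_mul_of_nonneg_right (norm_mul_le _ _) (norm_nonneg _))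
      _ ≤ 1 * 2 * 1 := by
          have := hy'n j
          gcongr
  have hδ0 := trm_seq_delta_null hST hyM hy'M hy'n hy'a heA heP heO
  have hEb := trm_seq_pin_bdd hST hbc hbP hδM hδn
  have hE0 := trm_seq_pin_null hST hbc hbP hδM hδn hδ0
  have hYhY : ∀ j, Y j + ∑ i, trE S (b j i) * trC S (e j * y' j * e j - y) * trE S (b j i)
      = Yh j := fun j => by
    rw [hY, hYh]
    simp only [trC_sub, mul_sub, sub_mul, Finset.sum_sub_distrib]
    abel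
  have hYhm : TrMult (opLL S) (opVac S) Yh := (hYm.add_null hEb hE0).congr hYhY
  have hYYh : TrNull (opVac S) (fun j => Y j - Yh j) :=
    hE0.neg.congr fun j => by rw [← hYhY j]; abel
  obtain ⟨hcYm, -, hcc⟩ := tr_clip (opLL_closed S) hYm hYhm hYsa hYhsa hYYh (trClip (ε / 2))
    (trClip_continuous _)
  have hclipN : TrNull (opVac S) (fun j => Yh j - cfc (trClip (ε / 2)) (Yh j)) := by
    refine TrNull.of_le (a := fun j : ℕ => 4 * (1 / 2 : ℝ) ^ (j + 1)) (fun j => ?_) ?_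
    · rw [hYh]; exact hclip j
    · have h1 : Tendsto (fun j : ℕ => (1 / 2 : ℝ) ^ j) atTop (𝓝 0) :=
        tendsto_pow_atTop_nhds_zero_of_lt_one (by norm_num) (by norm_num)
      have h2 := ((tendsto_add_atTop_iff_nat 1).2 h1).const_mul 4
      simpa using h2
  have hYc : TrNull (opVac S) (fun j => Y j - cfc (trClip (ε / 2)) (Y j)) :=
    ((hYYh.add hclipN).sub hcc).congr fun j => by abel
  -- W - W'
  have hg0 : ∀ i, TrNull (opVac S) (fun j => trC S (g j i)) := fun i => by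
    refine trm_null_const (squeeze_zero (g := fun j : ℕ => Real.sqrt ((r : ℝ) * (1 / ((j : ℝ) + 1))))
      (fun _ => norm_nonneg _) (fun j => ?_) ?_)
    · refine Real.le_sqrt_of_sq_le ?_
      have h := hgO j i
      rw [one_div, inv_mul_le_iff₀ hr0] at h
      simpa using h
    · have h1 := (trm_tendsto_inv.const_mul (r : ℝ))
      rw [mul_zero] at h1
      have h2 := (Real.continuous_sqrt.tendsto 0).comp h1
      rwa [Real.sqrt_zero] at h2
  have hWW' : TrNull (opVac S) (fun j => W j - W' j) := by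
    rw [hW, hW']; exact trm_seq_cut_null hST hbc hbP hgA hgP hwM hg0
  -- Z and Q
  have hZm : TrMult (opLL S) (opVac S) (fun j => Y j + W j) := hYm.add hWm
  have hQm : TrMult (opLL S) (opVac S) (fun j => cfc (trClip (ε / 2)) (Y j) + W' j) :=
    hcYm.add hW'm
  have hZQ : TrNull (opVac S) (fun j => (Y j + W j) - (cfc (trClip (ε / 2)) (Y j) + W' j)) :=
    (hYc.add hWW').congr fun j => by abel
  have hpow := tr_pow_null hZm hQm hZQ k
  -- the bound for Q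
  have hQb : ∀ j, ‖((cfc (trClip (ε / 2)) (Y j) + W' j) ^ k) (opVac S)‖ ≤ (3 / 4 * ε) ^ k := fun j => by
    have h := (trm_pow_norm_le (K := opK S) (cfc (trClip (ε / 2)) (Y j) + W' j) (opH0 S)
      (fun ξ hξ => trm_H0_invariant (hQm.1.1 j) hξ) (c := 3 / 4 * ε) (by positivity)
      (fun ξ hξ => ?_) trm_vac_mem k).2
    · rwa [opVac_norm, hOm, mul_one] at h
    · rw [add_apply]
      have h1 : ‖cfc (trClip (ε / 2)) (Y j) ξ‖ ≤ ε / 2 * ‖ξ‖ :=
        (ContinuousLinearMap.le_opNorm _ _).trans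
          (mul_le_mul_of_nonneg_right (trm_norm_clip_le _ (by positivity)) (norm_nonneg _))
      have h2 : ‖W' j ξ‖ ≤ ε / 4 * ‖ξ‖ := by
        rw [hW']
        exact (trm_cut_bound (hbc j) (hbP j) (hgA j) (hgP j) hST hAK (lam := 2 * (1 / (r : ℝ)))
          (by positivity) (hmarg j) hw0 hξ).trans (mul_le_mul_of_nonneg_right hlam (norm_nonneg _))
      calc ‖cfc (trClip (ε / 2)) (Y j) ξ + W' j ξ‖ ≤ ε / 2 * ‖ξ‖ + ε / 4 * ‖ξ‖ :=
            (norm_add_le _ _).trans (add_le_add h1 h2)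
        _ = 3 / 4 * ε * ‖ξ‖ := by ring
  -- conclusion
  have hgap : 0 < (4 / 5 * ε) ^ k - (3 / 4 * ε) ^ k :=
    sub_pos.2 (pow_lt_pow_left₀ (by linarith) (by positivity) hk)
  obtain ⟨j, hj⟩ := ((tendsto_order.1 hpow).2 _ hgap).exists
  refine ⟨j, ?_⟩
  have hZ : ∑ i, trE S (b j i) * trC S (y + w0) * trE S (b j i) = Y j + W j := by
    rw [hY, hW]
    simp only [trC_add, mul_add, add_mul, Finset.sum_add_distrib]
  rw [hZ]
  have e1 : ((Y j + W j) ^ k) (opVac S) =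
      ((Y j + W j) ^ k - (cfc (trClip (ε / 2)) (Y j) + W' j) ^ k) (opVac S) +
        ((cfc (trClip (ε / 2)) (Y j) + W' j) ^ k) (opVac S) := by
    rw [sub_apply]; abel
  rw [e1]
  refine (norm_add_le _ _).trans ?_
  have := hQb j
  linarith

end Final

/-- model moment bound: for every fixed `k` there are cylinder partitions with `Phi(Z^(2k)) ≤ (4/5 ε)^(2k)`. -/
theorem tr_model_moment [Nontrivial H] (S : StData H) (hOm : ‖S.Om‖ = 1) (hST : OpSTHyp S) (hAK : OpAK S) (ε : ℝ) (hε0 : 0 < ε) (hε1 : ε < 1)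
    (r : ℕ) (hr : (200000000 : ℝ) / ε ^ 2 ≤ r) (hCOL : OpColHyp S r ε)
    (x : H →L[ℂ] H) (hx : x ∈ S.M) (hsa : IsSelfAdjoint x) (hx1 : ‖x‖ ≤ 1) (k : ℕ) :
    ∃ b : Fin r → (ℕ → H →L[ℂ] H) → H →L[ℂ] H, (∀ i, OpCyl S (b i)) ∧
      (∀ w, S.IsSymFam w → OpIsPOU S.A (fun i => b i w)) ∧
      (opPhi S (opEv S fun w => (∑ i, b i w * (x - S.EA x) * b i w) ^ (2 * k))).re ≤ (4 / 5 * ε) ^ (2 * k) := by
  obtain ⟨y, w0, hxyw, hyN, hys, -, -, hw0, hws, hwn, happ⟩ := st_decomp S hx hsa hx1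
  have hyM : y ∈ S.M := hyN.1
  have hstep : ∀ j : ℕ, ∃ (y' e : H →L[ℂ] H) (b : Fin r → (ℕ → H →L[ℂ] H) → H →L[ℂ] H)
      (g : Fin r → H →L[ℂ] H), y' ∈ S.M ∧ IsSelfAdjoint y' ∧ ‖y'‖ ≤ 2 ∧
      ‖(y - y') S.Om‖ < 1 / ((j : ℝ) + 1) ∧ e ∈ S.A ∧ IsStarProjection e ∧
      ‖(1 - e) S.Om‖ < 1 / ((j : ℝ) + 1) ∧ (∀ i, OpCyl S (b i)) ∧
      (∀ w, S.IsSymFam w → OpIsPOU S.A (fun i => b i w)) ∧ (∀ i, g i ∈ S.A) ∧
      (∀ i, IsStarProjection (g i)) ∧ (∀ i, 1 / (r : ℝ) * ‖g i S.Om‖ ^ 2 ≤ 1 / ((j : ℝ) + 1)) ∧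
      (∀ i, ∀ a ∈ S.A, 0 ≤ a →
          (opPhi S (opConst S a * opEv S (fun w => (1 - g i) * b i w))).re
            ≤ 2 * (1 / (r : ℝ)) * (S.phi a).re) ∧
      ‖((∑ i, trE S (b i) * trC S (e * y' * e) * trE S (b i)) -
        cfc (trClip (ε / 2)) (∑ i, trE S (b i) * trC S (e * y' * e) * trE S (b i))) (opVac S)‖
        ≤ 4 * (1 / 2) ^ (j + 1) := by
    intro j
    have hη : (0 : ℝ) < 1 / ((j : ℝ) + 1) := by positivity
    obtain ⟨D, a, u, ha, hu, hs, hn, hE, hap⟩ := happ _ hη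
    have hN : ∑ k, a k * u k ∈ S.Nalg := sum_mem fun k _ => st_Nalg_gen S (ha k) (hu k)
    obtain ⟨e, heA, heP, heO, b, hbc, hbP, ⟨g, hg1, hg2, hg3, hg4⟩, hcl⟩ :=
      trm_step hST hAK hε0 hCOL hN hs hn hE (j + 1) (Nat.succ_le_succ (Nat.zero_le j)) hη
    exact ⟨_, e, b, g, st_Nalg_le_M S hN, hs, hn, hap, heA, heP, heO, hbc, hbP, hg1, hg2, hg3, hg4,
      hcl⟩
  choose y' e b g hy'M hy's hy'n hy'a heA heP heO hbc hbP hgA hgP hgO hmarg hclip using hstep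
  have hxs : IsSelfAdjoint (y + w0) := hys.add hws
  have key : ∃ j, ‖((∑ i, trE S (b j i) * trC S (y + w0) * trE S (b j i)) ^ k) (opVac S)‖
      ≤ (4 / 5 * ε) ^ k := by
    by_cases hk : k = 0
    · refine ⟨0, ?_⟩
      rw [hk, pow_zero, pow_zero, one_apply_eq_self, opVac_norm, hOm]
    · exact trm_seq_main hOm hST hAK hε0 hε1 hr hyM hys hw0 hwn hy'M hy's hy'n hy'a heA heP heO hbc
        hbP hgA hgP hgO hmarg hclip k hk
  obtain ⟨j, hj⟩ := key
  refine ⟨b j, hbc j, hbP j, ?_⟩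
  rw [hxyw, ← trE_vac_inner, trE_pow (trm_pin_bdd (hbc j) (y + w0)), trm_pin (hbc j), two_mul,
    pow_add, vn_mul_apply, vn_inner_sa ((trm_pin_sa (hbc j) (hbP j) hxs).pow k)]
  have h2 : (4 / 5 * ε) ^ (k + k) = ((4 / 5 * ε) ^ k) ^ 2 := by rw [← pow_mul, mul_two]
  have h3 : ∀ v : opK S, (⟪v, v⟫_ℂ).re = ‖v‖ ^ 2 := fun v => by
    rw [inner_self_eq_norm_sq_to_K]; norm_cast
  rw [h2, h3]
  exact pow_le_pow_left₀ (norm_nonneg _) hj 2

/-- pinching of `x - a`, `a ∈ A`, by a partition of unity of `A`. -/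
theorem tr_pou_pinch_sub (S : StData H) {r : ℕ} {p : Fin r → H →L[ℂ] H} (hp : OpIsPOU S.A p)
    (x : H →L[ℂ] H) {a : H →L[ℂ] H} (ha : a ∈ S.A) :
    ∑ i, p i * (x - a) * p i = (∑ i, p i * x * p i) - a := by
  have h : ∀ i, p i * a * p i = a * p i := fun i => by
    rw [(st_A_comm S (hp.1 i).1 ha).eq, mul_assoc, (hp.1 i).2.isIdempotentElem.eq]
  simp only [mul_sub, sub_mul, Finset.sum_sub_distrib, h]
  rw [← Finset.mul_sum, hp.2.2, mul_one]

theorem tr_pou_pinch_commute {A : StarSubalgebra ℂ (H →L[ℂ] H)} {r : ℕ} {p : Fin r → H →L[ℂ] H}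
    (hp : OpIsPOU A p) (y : H →L[ℂ] H) (i : Fin r) : Commute (p i) (∑ j, p j * y * p j) := by
  show p i * _ = _ * p i
  rw [Finset.mul_sum, Finset.sum_mul, Finset.sum_eq_single_of_mem i (Finset.mem_univ i),
    Finset.sum_eq_single_of_mem i (Finset.mem_univ i)]
  · rw [← mul_assoc, ← mul_assoc, (hp.1 i).2.isIdempotentElem.eq, mul_assoc (p i * y),
      (hp.1 i).2.isIdempotentElem.eq]
  · intro j _ hj
    rw [mul_assoc, hp.2.1 j i hj, mul_zero]
  · intro j _ hj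
    rw [← mul_assoc, ← mul_assoc, hp.2.1 i j hj.symm, zero_mul, zero_mul]

/-- TR9: paving in the presence of a central state (Q Prop. 8.2). -/
theorem tr_expected (S : StData H) (hOm : ‖S.Om‖ = 1) (hST : OpSTHyp S) (hAK : OpAK S) (ε : ℝ) (hε0 : 0 < ε) (hε1 : ε < 1)
    (r : ℕ) (hr : (200000000 : ℝ) / ε ^ 2 ≤ r) (hCOL : OpColHyp S r ε)
    (x : H →L[ℂ] H) (hx : x ∈ S.M) (hsa : IsSelfAdjoint x) (hx1 : ‖x‖ ≤ 1) (ρ : ℝ) (hρ : 0 < ρ) :
    ∃ p : Fin r → (H →L[ℂ] H), OpIsPOU S.A p ∧ ∃ q ∈ S.M, IsStarProjection q ∧ (∀ i, Commute q (p i)) ∧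
      Commute q ((∑ i, p i * x * p i) - S.EA x) ∧ ‖(1 - q) S.Om‖ ^ 2 < ρ ∧
      ‖((∑ i, p i * x * p i) - S.EA x) * q‖ ≤ ε := by
  have : Nontrivial H := S.nontrivial hOm
  obtain ⟨k, hk⟩ : ∃ k : ℕ, ((4 : ℝ) / 5) ^ (2 * k) < ρ := by
    obtain ⟨k, hk⟩ := exists_pow_lt_of_lt_one hρ (show (4 : ℝ) / 5 < 1 by norm_num)
    refine ⟨k, lt_of_le_of_lt ?_ hk⟩
    exact pow_le_pow_of_le_one (by norm_num) (by norm_num) (by omega)
  obtain ⟨b, hbc, hbP, hmom⟩ := tr_model_moment S hOm hST hAK ε hε0 hε1 r hr hCOL x hx hsa hx1 k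
  have haA : S.EA x ∈ S.A := st_EA_mem S hx
  have hasa : IsSelfAdjoint (S.EA x) := by
    have := st_EA_star S hx
    rw [hsa.star_eq] at this
    exact this.symm
  set a := S.EA x with ha
  set F : (ℕ → H →L[ℂ] H) → H →L[ℂ] H := fun w => (∑ i, b i w * (x - a) * b i w) ^ (2 * k) with hF
  have hFb : OpBdd S F :=
    (OpBdd.sum _ fun i _ => ((hbc i).opBdd.mul (OpBdd.const _)).mul (hbc i).opBdd).pow _
  obtain ⟨C, hC⟩ := hFb
  have hlt : (opPhi S (opEv S F)).re < ρ * ε ^ (2 * k) := by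
    refine lt_of_le_of_lt hmom ?_
    rw [mul_pow]
    exact mul_lt_mul_of_pos_right hk (by positivity)
  obtain ⟨Pt, om, hPt⟩ := opPhi_ev_exists S F C hC _ hlt
  have hw : S.IsSymFam (opRand Pt.1 Pt.2 om) := tr_rand_sym S _ _ _
  set w := opRand Pt.1 Pt.2 om with hwdef
  have hP := hbP w hw
  have hz_eq := tr_pou_pinch_sub S hP x haA
  set z := (∑ i, b i w * x * b i w) - a with hz
  have hzM : z ∈ S.M := by
    refine sub_mem (sum_mem fun i _ => ?_) (st_A_le_M S haA)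
    exact mul_mem (mul_mem (st_A_le_M S (hP.1 i).1) hx) (st_A_le_M S (hP.1 i).1)
  have hzsa : IsSelfAdjoint z := by
    refine IsSelfAdjoint.sub ?_ hasa
    rw [IsSelfAdjoint, star_sum]
    refine Finset.sum_congr rfl fun i _ => ?_
    rw [star_mul, star_mul, (hP.1 i).2.isSelfAdjoint.star_eq, hsa.star_eq, mul_assoc]
  have hpz : ∀ i, Commute (b i w) z := fun i =>
    (tr_pou_pinch_commute hP x i).sub_right (st_A_comm S (hP.1 i).1 haA)
  refine ⟨fun i => b i w, hP, vn_specAbsLe z ε, vn_specAbsLe_mem S.M hzM ε,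
    vn_specAbsLe_isStarProjection z ε, fun i => (vn_commute_specAbsLe (hpz i) ε).symm,
    (vn_commute_specAbsLe (Commute.refl z) ε).symm, ?_, vn_norm_mul_specAbsLe_le hzsa hε0.le⟩
  have hmk := vn_markov hzsa hε0.le k S.Om
  have hPt' : (⟪S.Om, (z ^ (2 * k)) S.Om⟫_ℂ).re < ρ * ε ^ (2 * k) := by
    have : F w = z ^ (2 * k) := by simp only [hF]; rw [hz_eq]
    rw [← this]
    exact hPt
  have hpos : 0 < ε ^ (2 * k) := by positivity
  have : ε ^ (2 * k) * ‖(1 - vn_specAbsLe z ε) S.Om‖ ^ 2 < ε ^ (2 * k) * ρ := by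
    rw [mul_comm _ ρ]
    exact lt_of_le_of_lt hmk hPt'
  exact lt_of_mul_lt_mul_left this hpos.le

end Claimed.Agent.R302
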