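/-
R302 / TR / Export : the Core interface of TOP (helper7, Top/Core.lean) from tr_expected + st_hyp + ak_main + real_col + mg_colTheorem.
Owner: helper100; final glue (power of two, padding by zero projections): helper244.
No sorry in this file.
-/
import Claimed.Agent.R302.TR.Main
import Claimed.Agent.R302.AK.Main
import Claimed.Agent.R302.ST.Hyp
import Claimed.Agent.R302.Top.Core
import Claimed.Agent.R302.Real.Glue
import Claimed.Agent.R302.MG.Adapter

set_option autoImplicit false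

namespace Claimed.Agent.R302

open scoped InnerProductSpace ComplexOrder
open Filter Topology

attribute [-instance] WithCStarModule.instCStarModuleComplex

universe u

/-- a power of two in `[x, 2 x]` -/
theorem tr_exists_pow_two {x : ℝ} (hx : 1 ≤ x) : ∃ a : ℕ, x ≤ (2 : ℝ) ^ a ∧ (2 : ℝ) ^ a ≤ 2 * x := by
  obtain ⟨n, hn1, hn2⟩ := exists_nat_pow_near hx (one_lt_two : (1 : ℝ) < 2)
  refine ⟨n + 1, hn2.le, ?_⟩
  rw [pow_succ]
  linarith

section Pad

variable {H : Type u} [NormedAddCommGroup H] [InnerProductSpace ℂ H] [CompleteSpace H]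

/-- padding of a family by zeros -/
noncomputable def trPad {r : ℕ} (R : ℕ) (p : Fin r → (H →L[ℂ] H)) : Fin R → (H →L[ℂ] H) :=
  fun i => if h : (i : ℕ) < r then p ⟨i, h⟩ else 0

theorem trPad_castLE {r R : ℕ} (hrR : r ≤ R) (p : Fin r → (H →L[ℂ] H)) (i : Fin r) :
    trPad R p (Fin.castLE hrR i) = p i := by
  simp [trPad]

theorem trPad_cases {r : ℕ} (R : ℕ) (p : Fin r → (H →L[ℂ] H)) (i : Fin R) :
    trPad R p i = 0 ∨ ∃ j : Fin r, (j : ℕ) = i ∧ trPad R p i = p j := by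
  by_cases h : (i : ℕ) < r
  · exact Or.inr ⟨⟨i, h⟩, rfl, by simp [trPad, h]⟩
  · exact Or.inl (by simp [trPad, h])

theorem tr_sum_pad {r R : ℕ} (hrR : r ≤ R) (p : Fin r → (H →L[ℂ] H)) (F : (H →L[ℂ] H) → (H →L[ℂ] H))
    (hF : F 0 = 0) : ∑ i, F (trPad R p i) = ∑ i, F (p i) := by
  refine (Fintype.sum_of_injective (Fin.castLE hrR) (Fin.castLE_injective hrR) (fun i => F (p i))
    (fun i => F (trPad R p i)) (fun i hi => ?_) fun i => by rw [trPad_castLE]).symm
  have h : ¬ (i : ℕ) < r := fun h => hi ⟨⟨i, h⟩, by ext; rfl⟩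
  simp [trPad, h, hF]

theorem tr_pou_pad {A : StarSubalgebra ℂ (H →L[ℂ] H)} {r R : ℕ} (hrR : r ≤ R) {p : Fin r → (H →L[ℂ] H)}
    (hp : OpIsPOU A p) : OpIsPOU A (trPad R p) := by
  refine ⟨fun i => ?_, fun i j hij => ?_, ?_⟩
  · rcases trPad_cases R p i with h | ⟨j, _, h⟩
    · rw [h]; exact ⟨A.zero_mem, IsStarProjection.zero _⟩
    · rw [h]; exact hp.1 j
  · rcases trPad_cases R p i with h | ⟨i', hi', h⟩
    · rw [h, zero_mul]
    · rcases trPad_cases R p j with h' | ⟨j', hj', h'⟩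
      · rw [h', mul_zero]
      · rw [h, h']
        refine hp.2.1 i' j' fun e => hij ?_
        ext
        rw [← hi', ← hj', e]
  · rw [← hp.2.2]
    exact tr_sum_pad hrR p (fun z => z) rfl

end Pad

theorem tr_top_core (ε : ℝ) (hε0 : 0 < ε) (hε1 : ε < 1) :
    top_Core.{u} ε (Nat.ceil (400000000 / ε ^ 2)) := by
  intro H _ _ _ M A Ω hmasa hΩ hcyc hsep hcen x hx hsa hx1 ρ hρ
  let S : StData H :=
    { M := M, A := A, Om := Ω, masa := hmasa
      cyc := by
        intro ξ δ hδ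
        obtain ⟨v, hv, ⟨y, hy, rfl⟩⟩ := Metric.dense_iff.1 hcyc ξ δ hδ
        refine ⟨y, hy, ?_⟩
        rw [Metric.mem_ball, dist_comm, dist_eq_norm] at hv
        exact hv
      sep := hsep
      central := hcen }
  have hε2 : 0 < ε ^ 2 := by positivity
  have hε21 : ε ^ 2 ≤ 1 := by nlinarith
  have hx0 : (1 : ℝ) ≤ 200000000 / ε ^ 2 := by
    rw [le_div_iff₀ hε2]; linarith
  obtain ⟨a, ha1, ha2⟩ := tr_exists_pow_two hx0
  have hcast : (((2 ^ a : ℕ) : ℕ) : ℝ) = (2 : ℝ) ^ a := by push_cast; rfl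
  have hr : (200000000 : ℝ) / ε ^ 2 ≤ ((2 ^ a : ℕ) : ℝ) := by rw [hcast]; exact ha1
  have hrR : 2 ^ a ≤ Nat.ceil (400000000 / ε ^ 2) := by
    have h1 : (((2 ^ a : ℕ) : ℕ) : ℝ) ≤ (Nat.ceil (400000000 / ε ^ 2) : ℕ) := by
      rw [hcast]
      refine ha2.trans (le_trans (le_of_eq ?_) (Nat.le_ceil _))
      ring
    exact_mod_cast h1
  have hnum : 1280 / Real.sqrt ((2 ^ a : ℕ) : ℝ) + ε / 16 ≤ ε / 4 := by
    have h1 : 10000 / ε ≤ Real.sqrt ((2 ^ a : ℕ) : ℝ) := by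
      refine Real.le_sqrt_of_sq_le (le_trans ?_ hr)
      rw [div_pow]
      gcongr
      norm_num
    have h2 : 0 < 10000 / ε := by positivity
    have h3 : 1280 / Real.sqrt ((2 ^ a : ℕ) : ℝ) ≤ 1280 / (10000 / ε) := by gcongr
    have h4 : 1280 / (10000 / ε) = 0.128 * ε := by field_simp; norm_num
    rw [h4] at h3
    linarith
  obtain ⟨p, hp, q, hq, hqp, hqc, hqz, hqΩ, hqn⟩ :=
    tr_expected S hΩ (st_hyp S) (ak_main S (st_hyp S)) ε hε0 hε1 _ hr
      (real_col mg_colTheorem.{u, u} S hΩ a hε0 hnum) x hx hsa hx1 ρ hρ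
  have hsum : ∑ i, trPad (Nat.ceil (400000000 / ε ^ 2)) p i * x * trPad (Nat.ceil (400000000 / ε ^ 2)) p i =
      ∑ i, p i * x * p i := tr_sum_pad hrR p (fun z => z * x * z) (by simp)
  refine ⟨trPad _ p, tr_pou_pad hrR hp, S.EA x, st_EA_mem S hx, ?_, (st_EA_norm_le S hx).trans hx1, q, hq, hqp,
    fun i => ?_, ?_, hqΩ, ?_⟩
  · have := st_EA_star S hx
    rw [hsa.star_eq] at this
    exact this.symm
  · rcases trPad_cases (Nat.ceil (400000000 / ε ^ 2)) p i with h | ⟨j, _, h⟩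
    · rw [h]; exact Commute.zero_right q
    · rw [h]; exact hqc j
  · rw [nc_pinch, hsum]; exact hqz
  · rw [nc_pinch, hsum]; exact hqn

end Claimed.Agent.R302
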