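/-
R302 / TR / FreeBasic (owner helper283): coordinate API of the limit-state model of TR/Model.lean.   Prefix `trf_`.
-/
import Claimed.Agent.R302.TR.Model
import Claimed.Agent.R302.TR.Cyl

set_option autoImplicit false
set_option linter.unusedSectionVars false

namespace Claimed.Agent.R302

open scoped InnerProductSpace ComplexOrder ENNReal
open Filter Topology

universe u
variable {H : Type u} [NormedAddCommGroup H] [InnerProductSpace ℂ H] [CompleteSpace H]

/-- functions of the digit symmetries which are bounded on symmetric families -/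
def StData.BddFun (S : StData H) (F : (ℕ → H →L[ℂ] H) → H →L[ℂ] H) : Prop :=
  ∃ C : ℝ, ∀ w, S.IsSymFam w → ‖F w‖ ≤ C

namespace StData.BddFun

variable {S : StData H} {F G : (ℕ → H →L[ℂ] H) → H →L[ℂ] H}

theorem const (x : H →L[ℂ] H) : S.BddFun (fun _ => x) := ⟨‖x‖, fun _ _ => le_rfl⟩

theorem add (hF : S.BddFun F) (hG : S.BddFun G) : S.BddFun (fun w => F w + G w) := by
  obtain ⟨C, hC⟩ := hF
  obtain ⟨D, hD⟩ := hG
  exact ⟨C + D, fun w hw => (norm_add_le _ _).trans (add_le_add (hC w hw) (hD w hw))⟩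

theorem sub (hF : S.BddFun F) (hG : S.BddFun G) : S.BddFun (fun w => F w - G w) := by
  obtain ⟨C, hC⟩ := hF
  obtain ⟨D, hD⟩ := hG
  exact ⟨C + D, fun w hw => (norm_sub_le _ _).trans (add_le_add (hC w hw) (hD w hw))⟩

theorem mul (hF : S.BddFun F) (hG : S.BddFun G) : S.BddFun (fun w => F w * G w) := by
  obtain ⟨C, hC⟩ := hF
  obtain ⟨D, hD⟩ := hG
  refine ⟨|C| * |D|, fun w hw => (norm_mul_le _ _).trans ?_⟩
  exact mul_le_mul ((hC w hw).trans (le_abs_self _)) ((hD w hw).trans (le_abs_self _))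
    (norm_nonneg _) (abs_nonneg _)

theorem star (hF : S.BddFun F) : S.BddFun (fun w => star (F w)) := by
  obtain ⟨C, hC⟩ := hF
  exact ⟨C, fun w hw => by rw [norm_star]; exact hC w hw⟩

theorem smul (c : ℂ) (hF : S.BddFun F) : S.BddFun (fun w => c • F w) := by
  obtain ⟨C, hC⟩ := hF
  exact ⟨‖c‖ * C, fun w hw => by
    rw [norm_smul]; exact mul_le_mul_of_nonneg_left (hC w hw) (norm_nonneg _)⟩

theorem of_cyl (hF : OpCyl S F) : S.BddFun F := tr_cyl_bdd S hF

end StData.BddFun

variable [Nontrivial H] (S : StData H)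

theorem trf_ext {T T' : OpSeq S} (h : ∀ i, T i = T' i) : T = T' := lp.ext (funext h)

theorem trf_mk_apply (f : OpIdx S → H →L[ℂ] H) (C : ℝ) (hf : ∀ i, ‖f i‖ ≤ C) (i : OpIdx S) :
    (opMk S f) i = f i := by
  have h : Memℓp f ∞ := by
    rw [memℓp_infty_iff]
    exact ⟨C, by rintro _ ⟨j, rfl⟩; exact hf j⟩
  rw [opMk, dif_pos h]

theorem trf_norm_mk_le (f : OpIdx S → H →L[ℂ] H) (C : ℝ) (hC : 0 ≤ C) (hf : ∀ i, ‖f i‖ ≤ C) :
    ‖opMk S f‖ ≤ C :=
  lp.norm_le_of_forall_le hC fun i => by rw [trf_mk_apply S f C hf]; exact hf i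

theorem trf_const_apply (x : H →L[ℂ] H) (i : OpIdx S) : (opConst S x) i = x :=
  trf_mk_apply S _ ‖x‖ (fun _ => le_rfl) i

variable {S} in
theorem trf_ev_apply {F : (ℕ → H →L[ℂ] H) → H →L[ℂ] H} (hF : S.BddFun F) (i : OpIdx S) :
    (opEv S F) i = F (opRand i.1.1 i.1.2 i.2) := by
  obtain ⟨C, hC⟩ := hF
  exact trf_mk_apply S _ C (fun j => hC _ (tr_rand_sym S _ _ _)) i

theorem trf_const_add (x y : H →L[ℂ] H) : opConst S (x + y) = opConst S x + opConst S y :=
  trf_ext S fun i => by
    change _ = (opConst S x) i + (opConst S y) i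
    simp only [trf_const_apply]

theorem trf_const_sub (x y : H →L[ℂ] H) : opConst S (x - y) = opConst S x - opConst S y :=
  trf_ext S fun i => by
    change _ = (opConst S x) i - (opConst S y) i
    simp only [trf_const_apply]

theorem trf_const_mul (x y : H →L[ℂ] H) : opConst S (x * y) = opConst S x * opConst S y :=
  trf_ext S fun i => by
    change _ = (opConst S x) i * (opConst S y) i
    simp only [trf_const_apply]

theorem trf_const_star (x : H →L[ℂ] H) : opConst S (star x) = star (opConst S x) :=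
  trf_ext S fun i => by
    change _ = star ((opConst S x) i)
    simp only [trf_const_apply]

theorem trf_const_smul (c : ℂ) (x : H →L[ℂ] H) : opConst S (c • x) = c • opConst S x :=
  trf_ext S fun i => by
    change _ = c • ((opConst S x) i)
    simp only [trf_const_apply]

theorem trf_const_one : opConst S 1 = 1 :=
  trf_ext S fun i => by
    change _ = (1 : H →L[ℂ] H)
    simp only [trf_const_apply]

theorem trf_const_zero : opConst S 0 = 0 :=
  trf_ext S fun i => by
    change _ = (0 : H →L[ℂ] H)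
    simp only [trf_const_apply]

theorem trf_norm_const_le (x : H →L[ℂ] H) : ‖opConst S x‖ ≤ ‖x‖ :=
  trf_norm_mk_le S _ _ (norm_nonneg _) fun _ => le_rfl

section Ev

variable {S} {F G : (ℕ → H →L[ℂ] H) → H →L[ℂ] H}

theorem trf_ev_congr (h : ∀ w, S.IsSymFam w → F w = G w) : opEv S F = opEv S G := by
  have : (fun i : OpIdx S => F (opRand i.1.1 i.1.2 i.2)) = fun i => G (opRand i.1.1 i.1.2 i.2) :=
    funext fun i => h _ (tr_rand_sym S _ _ _)
  rw [opEv, opEv, this]

theorem trf_ev_const (x : H →L[ℂ] H) : opEv S (fun _ => x) = opConst S x := rfl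

theorem trf_ev_add (hF : S.BddFun F) (hG : S.BddFun G) :
    opEv S (fun w => F w + G w) = opEv S F + opEv S G :=
  trf_ext S fun i => by
    change _ = (opEv S F) i + (opEv S G) i
    rw [trf_ev_apply hF, trf_ev_apply hG, trf_ev_apply (hF.add hG)]

theorem trf_ev_sub (hF : S.BddFun F) (hG : S.BddFun G) :
    opEv S (fun w => F w - G w) = opEv S F - opEv S G :=
  trf_ext S fun i => by
    change _ = (opEv S F) i - (opEv S G) i
    rw [trf_ev_apply hF, trf_ev_apply hG, trf_ev_apply (hF.sub hG)]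

theorem trf_ev_mul (hF : S.BddFun F) (hG : S.BddFun G) :
    opEv S (fun w => F w * G w) = opEv S F * opEv S G :=
  trf_ext S fun i => by
    change _ = (opEv S F) i * (opEv S G) i
    rw [trf_ev_apply hF, trf_ev_apply hG, trf_ev_apply (hF.mul hG)]

theorem trf_ev_star (hF : S.BddFun F) : opEv S (fun w => star (F w)) = star (opEv S F) :=
  trf_ext S fun i => by
    change _ = star ((opEv S F) i)
    rw [trf_ev_apply hF, trf_ev_apply hF.star]

theorem trf_ev_smul (c : ℂ) (hF : S.BddFun F) : opEv S (fun w => c • F w) = c • opEv S F :=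
  trf_ext S fun i => by
    change _ = c • ((opEv S F) i)
    rw [trf_ev_apply hF, trf_ev_apply (hF.smul c)]

theorem trf_norm_ev_le {C : ℝ} (hC0 : 0 ≤ C) (hC : ∀ w, S.IsSymFam w → ‖F w‖ ≤ C) :
    ‖opEv S F‖ ≤ C :=
  trf_norm_mk_le S _ _ hC0 fun _ => hC _ (tr_rand_sym S _ _ _)

end Ev

/-! ### the state and the GNS representation -/

theorem trf_phi_def (T : OpSeq S) : opPhi S T = opLim S (opAvgSeq S T) := rfl

theorem trf_phi_eq_zero (T : OpSeq S) (h : ∀ i, S.phi (T i) = 0) : opPhi S T = 0 := by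
  have h1 : opAvgSeq S T = fun _ => 0 := by
    funext Pt
    simp [opAvgSeq, h]
  rw [trf_phi_def, h1, opLim]
  exact tendsto_const_nhds.limUnder_eq

theorem trf_norm_sq (T : OpSeq S) : ‖opPi S T (opVac S)‖ ^ 2 = (opPhi S (star T * T)).re := by
  have h := opPi_inner S T T
  rw [inner_self_eq_norm_sq_to_K] at h
  rw [← h]
  norm_cast

theorem trf_norm_pi_le (T : OpSeq S) : ‖opPi S T‖ ≤ ‖T‖ := NonUnitalStarAlgHom.norm_apply_le (opPi S) T

/-- two families which agree on `Om` give the same vector. -/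
theorem trf_vec_eq (T T' : OpSeq S) (h : ∀ i, T i S.Om = T' i S.Om) :
    opPi S T (opVac S) = opPi S T' (opVac S) := by
  rw [← sub_eq_zero, ← sub_apply, ← map_sub, ← norm_eq_zero,
    ← pow_eq_zero_iff (two_ne_zero), trf_norm_sq, trf_phi_eq_zero, Complex.zero_re]
  intro i
  change S.phi (star (T i - T' i) * (T i - T' i)) = 0
  rw [StData.phi, mul_apply_eq_comp, sub_apply, h i, sub_self, map_zero,
    inner_zero_right]

theorem trf_norm_const_vec (x : H →L[ℂ] H) : ‖opPi S (opConst S x) (opVac S)‖ = ‖x S.Om‖ := by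
  have h1 := trf_norm_sq S (opConst S x)
  rw [← trf_const_star, ← trf_const_mul, opPhi_const, StData.phi, mul_apply_eq_comp,
    ContinuousLinearMap.star_eq_adjoint, ContinuousLinearMap.adjoint_inner_right,
    inner_self_eq_norm_sq_to_K] at h1
  have h2 : ‖opPi S (opConst S x) (opVac S)‖ ^ 2 = ‖x S.Om‖ ^ 2 := by
    rw [h1]; norm_cast
  exact (sq_eq_sq₀ (norm_nonneg _) (norm_nonneg _)).1 h2

end Claimed.Agent.R302
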