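/-
R302 / TR / FreeDefs: definitions of TR/Free (statements: helper100; file split by helper283).
-/
import Claimed.Agent.R302.TR.FreeBasic
import Claimed.Agent.R302.TR.Clip

set_option autoImplicit false

namespace Claimed.Agent.R302

open scoped InnerProductSpace ComplexOrder ENNReal
open Filter Topology

universe u
variable {H : Type u} [NormedAddCommGroup H] [InnerProductSpace ℂ H] [CompleteSpace H] [Nontrivial H]

/-- the `*`-algebra generated by `M` and the cylinder functions of the random symmetries -/
noncomputable def opAlg (S : StData H) : StarSubalgebra ℂ (OpSeq S) :=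
  StarAlgebra.adjoin ℂ ({T | ∃ x ∈ S.M, T = opConst S x} ∪ {T | ∃ b, OpCyl S b ∧ T = opEv S b})

/-- its norm closed image in the GNS representation -/
noncomputable def opLL (S : StData H) : StarSubalgebra ℂ (opK S →L[ℂ] opK S) :=
  ((opAlg S).map (opPi S)).topologicalClosure

theorem opLL_closed (S : StData H) : IsClosed (opLL S : Set (opK S →L[ℂ] opK S)) :=
  StarSubalgebra.isClosed_topologicalClosure _

/-- word vectors -/
noncomputable def opVec (S : StData H) (y0 : H →L[ℂ] H) (L : List (OpMono H × (H →L[ℂ] H))) : opK S :=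
  opPi S (opEv S (opWord y0 L)) (opVac S)

/-- `H_0` = closed span of all word vectors -/
noncomputable def opH0 (S : StData H) : Submodule ℂ (opK S) :=
  (Submodule.span ℂ {ξ | ∃ T ∈ opAlg S, ξ = opPi S T (opVac S)}).topologicalClosure

/-- reduced words: blocks reduced, inner letters in `Mo`, last letter in `M` -/
def StData.IsRedTail (S : StData H) (L : List (OpMono H × (H →L[ℂ] H))) : Prop :=
  (∀ p ∈ L, S.IsRed p.1) ∧ (∀ p ∈ L, p.2 ∈ S.M) ∧ ∀ p ∈ L.dropLast, p.2 ∈ S.Mo

/-- `V_1`: reduced words starting in `Mo` -/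
noncomputable def opV1 (S : StData H) : Submodule ℂ (opK S) :=
  Submodule.span ℂ {ξ | ∃ y0 ∈ S.Mo, ∃ L, S.IsRedTail L ∧ ξ = opVec S y0 L}

/-- `V_2`: reduced words starting in `N` -/
noncomputable def opV2 (S : StData H) : Submodule ℂ (opK S) :=
  Submodule.span ℂ {ξ | ∃ y0 ∈ S.NN, ∃ L, S.IsRedTail L ∧ ξ = opVec S y0 L}

end Claimed.Agent.R302
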