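/-
R302 / TR / VanishMain (TR2): the NON-CYCLIC VANISHING THEOREM = glue of tr_abs (Abs.lean) with tr_core_c, tr_core_d (Core.lean).   Owner: helper100; glue proved by helper210 (no sorry in this file).
 Glue: O := Fin (total number of occurrences) (or a sigma type transported to Fin N), AA := S.A with its commutative ring structure (masa),
 C := P.cells, E o e := v_o e v_o*, c h := coefficient of the h-th monomial, Psi := trPsi as a MultilinearMap, G := {c * U, U contraction family in A}.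
 For t > all digits: opAvg (P,t) (phi o opWord) = T.avg (extra digits average out).  Finitely many configurations => one eventual P.
-/
import Claimed.Agent.R302.TR.Abs
import Claimed.Agent.R302.TR.Core

set_option autoImplicit false

namespace Claimed.Agent.R302

open scoped InnerProductSpace ComplexOrder
open Filter Topology

universe u
variable {H : Type u} [NormedAddCommGroup H] [InnerProductSpace ℂ H] [CompleteSpace H]

/-- the masa as a commutative ring -/
@[reducible] noncomputable def trGlueCommRing (S : StData H) : CommRing S.A :=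
  { (inferInstance : Ring S.A) with
    mul_comm := fun a b => Subtype.ext (st_A_comm S a.2 b.2).eq }

attribute [local instance] trGlueCommRing

/-- `x ↦ phi (y0 x)` as a linear map -/
noncomputable def trGluePhiL (S : StData H) (y0 : H →L[ℂ] H) : (H →L[ℂ] H) →ₗ[ℂ] ℂ where
  toFun x := S.phi (y0 * x)
  map_add' x x' := by rw [mul_add, st_phi_add]
  map_smul' c x := by rw [mul_smul_comm, st_phi_smul]; rfl

/-- `trPsi` as a multilinear map on the masa -/
noncomputable def trGluePsi (S : StData H) {m : ℕ} (y0 : H →L[ℂ] H) (y : Fin m → H →L[ℂ] H) :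
    MultilinearMap ℂ (fun _ : Fin m => S.A) ℂ :=
  (trGluePhiL S y0).compMultilinearMap
    ((MultilinearMap.mkPiAlgebraFin ℂ m (H →L[ℂ] H)).compLinearMap
      fun i => (LinearMap.mulRight ℂ (y i)).comp S.A.subtype.toLinearMap)

theorem trGluePsi_apply (S : StData H) {m : ℕ} (y0 : H →L[ℂ] H) (y : Fin m → H →L[ℂ] H)
    (D : Fin m → S.A) : trGluePsi S y0 y D = trPsi S y0 y fun i => (D i : H →L[ℂ] H) := by
  rfl

/-! ### lists and products -/

theorem tr_glue_map_prod {α M : Type*} [Monoid M] (l : List α) (f : α → M) :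
    (l.map f).prod = (List.ofFn fun i : Fin l.length => f (l.get i)).prod := by
  conv_lhs => rw [← List.ofFn_get l, List.map_ofFn]
  rfl

theorem tr_glue_coe_prod (S : StData H) {n : ℕ} (g : Fin n → S.A) :
    ((∏ j, g j : S.A) : H →L[ℂ] H) = (List.ofFn fun j => (g j : H →L[ℂ] H)).prod := by
  rw [← List.prod_ofFn]
  have := map_list_prod S.A.subtype (List.ofFn g)
  rw [List.map_ofFn] at this
  exact this

theorem tr_glue_prod_sigma {M : Type*} [CommMonoid M] {m : ℕ} (len : Fin m → ℕ)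
    (f : (Σ h : Fin m, Fin (len h)) → M) (h : Fin m) :
    ∏ o ∈ Finset.univ.filter (fun o : Σ h : Fin m, Fin (len h) => o.1 = h), f o
      = ∏ j : Fin (len h), f ⟨h, j⟩ := by
  rw [Finset.prod_filter, Fintype.prod_sigma, Finset.prod_eq_single h]
  · simp
  · intro h' _ hne
    simp [hne]
  · intro hh; exact absurd (Finset.mem_univ _) hh

/-! ### occurrences -/

/-- occurrences of a word -/
abbrev TrOcc (L : List (OpMono H × (H →L[ℂ] H))) : Type :=
  Σ h : Fin L.length, Fin (L.get h).1.occ.length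

/-- site of an occurrence -/
def trSite (L : List (OpMono H × (H →L[ℂ] H))) (o : TrOcc L) : H →L[ℂ] H :=
  ((L.get o.1).1.occ.get o.2).1

/-- digit of an occurrence -/
def trDigit (L : List (OpMono H × (H →L[ℂ] H))) (o : TrOcc L) : ℕ :=
  ((L.get o.1).1.occ.get o.2).2

theorem tr_glue_site (S : StData H) {L : List (OpMono H × (H →L[ℂ] H))}
    (hred : ∀ p ∈ L, S.IsRed p.1) (o : TrOcc L) : S.IsNormU (trSite L o) :=
  (hred _ (List.get_mem L o.1)).2.2.1 _ (List.get_mem _ o.2)

theorem tr_glue_c (S : StData H) {L : List (OpMono H × (H →L[ℂ] H))}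
    (hred : ∀ p ∈ L, S.IsRed p.1) (h : Fin L.length) : (L.get h).1.c ∈ S.A :=
  (hred _ (List.get_mem L h)).1

theorem tr_glue_sep_symm (S : StData H) {c v v' : H →L[ℂ] H} (hv : S.IsNormU v)
    (hv' : S.IsNormU v') (h : S.Sep c v v') : S.Sep c v' v := by
  intro ε hε
  obtain ⟨P, hP⟩ := h ε hε
  refine ⟨P, ?_⟩
  rw [Finset.sum_congr rfl fun e he =>
    (st_A_comm S (hv'.2.2.2.1 e (P.proj e he).1) (hv.2.2.2.1 e (P.proj e he).1)).eq]
  exact hP

theorem tr_glue_sep (S : StData H) {L : List (OpMono H × (H →L[ℂ] H))}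
    (hred : ∀ p ∈ L, S.IsRed p.1) (o o' : TrOcc L) (hne : o ≠ o') (hb : o.1 = o'.1)
    (hd : trDigit L o = trDigit L o') : S.Sep (L.get o.1).1.c (trSite L o) (trSite L o') := by
  obtain ⟨h, j⟩ := o
  obtain ⟨h', j'⟩ := o'
  simp only at hb
  subst hb
  have hjj : j ≠ j' := fun e => hne (by rw [e])
  have hp := List.pairwise_iff_get.1 (hred _ (List.get_mem L h)).2.2.2
  rcases lt_or_gt_of_ne hjj with hlt | hlt
  · exact hp j j' hlt hd
  · exact tr_glue_sep_symm S (tr_glue_site S hred ⟨h, j'⟩) (tr_glue_site S hred ⟨h, j⟩)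
      (hp j' j hlt hd.symm)

/-! ### the system -/

theorem tr_glue_E_sum (S : StData H) {v : H →L[ℂ] H} (hv : S.IsNormU v) (P : StPart S) :
    ∑ e : P.cells, v * (e : H →L[ℂ] H) * star v = 1 := by
  rw [← Finset.sum_mul, ← Finset.mul_sum, Finset.sum_coe_sort P.cells fun e => e, P.sum_eq, mul_one,
    hv.2.2.1]

theorem tr_glue_E_mul (S : StData H) {v : H →L[ℂ] H} (hv : S.IsNormU v) (a b : H →L[ℂ] H) :
    (v * a * star v) * (v * b * star v) = v * (a * b) * star v := by
  calc (v * a * star v) * (v * b * star v) = v * a * (star v * v) * b * star v := by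
        simp only [mul_assoc]
    _ = v * (a * b) * star v := by rw [hv.2.1, mul_one]; simp only [mul_assoc]

open Classical in
/-- the abstract system attached to a word, a partition and a number of digits -/
noncomputable def trGlueSys (S : StData H) (y0 : H →L[ℂ] H) (L : List (OpMono H × (H →L[ℂ] H)))
    (hred : ∀ p ∈ L, S.IsRed p.1) (P : StPart S) (t : ℕ) (ht : ∀ o : TrOcc L, trDigit L o < t) :
    TrSys S.A P.cells (TrOcc L) L.length t where
  blk o := o.1
  dig o := ⟨trDigit L o, ht o⟩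
  E o e := ⟨trSite L o * e * star (trSite L o),
    (tr_glue_site S hred o).2.2.2.1 e (P.proj e e.2).1⟩
  E_sum o := by
    apply Subtype.ext
    rw [AddSubmonoidClass.coe_finsetSum]
    exact tr_glue_E_sum S (tr_glue_site S hred o) P
  E_mul o e e' := by
    apply Subtype.ext
    rw [MulMemClass.coe_mul]
    simp only
    rw [tr_glue_E_mul S (tr_glue_site S hred o)]
    split_ifs with h
    · rw [h, (P.proj _ e'.2).2.isIdempotentElem]
    · rw [P.orth _ e.2 _ e'.2 fun h' => h (Subtype.ext h'), mul_zero, zero_mul]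
      rfl
  c h := ⟨(L.get h).1.c, tr_glue_c S hred h⟩
  Psi := trGluePsi S y0 fun h => (L.get h).2

section sys

variable (S : StData H) (y0 : H →L[ℂ] H) (L : List (OpMono H × (H →L[ℂ] H)))
  (hred : ∀ p ∈ L, S.IsRed p.1) (P : StPart S) (t : ℕ) (ht : ∀ o : TrOcc L, trDigit L o < t)

theorem tr_glue_coe_at' {m : ℕ} (b : Fin m) (x : S.A) (h : Fin m) :
    ((TrSys.at' b x h : S.A) : H →L[ℂ] H) = trAt b (x : H →L[ℂ] H) h := by
  unfold TrSys.at' trAt
  split_ifs <;> rfl

open Classical in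
theorem tr_glue_coe_E (o : TrOcc L) (e : P.cells) :
    (((trGlueSys S y0 L hred P t ht).E o e : S.A) : H →L[ℂ] H)
      = trSite L o * e * star (trSite L o) := rfl

open Classical in
theorem tr_glue_coe_Lam (o : TrOcc L) (z : P.cells → Bool) :
    (((trGlueSys S y0 L hred P t ht).Lam o z : S.A) : H →L[ℂ] H) = trLam P (trSite L o) z := by
  unfold TrSys.Lam trLam
  rw [AddSubmonoidClass.coe_finsetSum]
  rfl

theorem tr_glue_trLam (v : H →L[ℂ] H) (z : P.cells → Bool) :
    trLam P v z = v * (∑ e : P.cells, (if z e then (1 : ℂ) else -1) • (e : H →L[ℂ] H)) * star v := by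
  unfold trLam trSym trCell trSg
  rw [Finset.mul_sum, Finset.sum_mul]
  refine Finset.sum_congr rfl fun e _ => ?_
  rw [mul_smul_comm, smul_mul_assoc]

theorem tr_glue_rand (om : P.cells → Fin t → Bool) (o : TrOcc L) :
    trSite L o * opRand P t om (trDigit L o) * star (trSite L o)
      = trLam P (trSite L o) fun e => om e ⟨trDigit L o, ht o⟩ := by
  rw [tr_glue_trLam]
  unfold opRand
  rw [dif_pos (ht o)]

open Classical in
theorem tr_glue_block (om : P.cells → Fin t → Bool) (h : Fin L.length) :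
    (L.get h).1.eval (opRand P t om) =
      (((trGlueSys S y0 L hred P t ht).c h *
        ∏ o ∈ Finset.univ.filter (fun o => (trGlueSys S y0 L hred P t ht).blk o = h),
          (trGlueSys S y0 L hred P t ht).Lam o
            (fun e => om e ((trGlueSys S y0 L hred P t ht).dig o)) : S.A) : H →L[ℂ] H) := by
  have h1 := tr_glue_prod_sigma (fun h : Fin L.length => (L.get h).1.occ.length)
    (fun o => (trGlueSys S y0 L hred P t ht).Lam o
            (fun e => om e ((trGlueSys S y0 L hred P t ht).dig o))) h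
  rw [MulMemClass.coe_mul]
  erw [h1]
  rw [tr_glue_coe_prod]
  unfold OpMono.eval
  rw [tr_glue_map_prod]
  congr 3
  funext j
  rw [tr_glue_coe_Lam]
  exact tr_glue_rand S L P t ht om ⟨h, j⟩

open Classical in
theorem tr_glue_word (om : P.cells → Fin t → Bool) :
    S.phi (opWord y0 L (opRand P t om)) = (trGlueSys S y0 L hred P t ht).word om := by
  unfold TrSys.word
  show _ = trGluePsi S y0 (fun h => (L.get h).2) _
  rw [trGluePsi_apply]
  unfold trPsi opWord
  rw [tr_glue_map_prod]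
  congr 4
  funext h
  rw [tr_glue_block S y0 L hred P t ht om h]

open Classical in
theorem tr_glue_avg :
    opAvg (P, t) (fun w => S.phi (opWord y0 L w)) = (trGlueSys S y0 L hred P t ht).avg := by
  unfold opAvg TrSys.avg
  simp only [tr_glue_word S y0 L hred P t ht]

/-- the admissible coefficient families: `c * (contraction family in A)` -/
def trGlueG : Set (Fin L.length → S.A) :=
  {V | ∃ U : Fin L.length → H →L[ℂ] H, S.IsCtr U ∧ ∀ h, (V h : H →L[ℂ] H) = (L.get h).1.c * U h}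

theorem tr_glue_norm_sym {x : H →L[ℂ] H} (hsa : IsSelfAdjoint x) (hsq : x * x = 1) : ‖x‖ ≤ 1 := by
  have h1 : ‖x‖ * ‖x‖ ≤ 1 := by
    rw [← CStarRing.norm_star_mul_self, hsa.star_eq, hsq]
    exact ContinuousLinearMap.norm_id_le
  nlinarith [norm_nonneg x]

theorem tr_glue_trLam_ctr {v : H →L[ℂ] H} (hv : S.IsNormU v) (z : P.cells → Bool) :
    trLam P v z ∈ S.A ∧ ‖trLam P v z‖ ≤ 1 :=
  ⟨tr_lam_mem P hv z, tr_lam_norm P hv z⟩

theorem tr_glue_trAt_ctr {m : ℕ} {x : H →L[ℂ] H} (hx : x ∈ S.A ∧ ‖x‖ ≤ 1) (b h : Fin m) :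
    trAt b x h ∈ S.A ∧ ‖trAt b x h‖ ≤ 1 := by
  unfold trAt
  split_ifs
  · exact hx
  · exact ⟨one_mem _, ContinuousLinearMap.norm_id_le⟩

open Classical in
theorem tr_glue_c_mem : (trGlueSys S y0 L hred P t ht).c ∈ trGlueG S L :=
  ⟨fun _ => 1, fun _ => ⟨one_mem _, ContinuousLinearMap.norm_id_le⟩, fun _ => (mul_one _).symm⟩

open Classical in
theorem tr_glue_G_closed (V : Fin L.length → S.A) (hV : V ∈ trGlueG S L) (o : TrOcc L)
    (z : P.cells → Bool) :
    (fun h => V h * TrSys.at' ((trGlueSys S y0 L hred P t ht).blk o)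
      ((trGlueSys S y0 L hred P t ht).Lam o z) h) ∈ trGlueG S L := by
  obtain ⟨U, hU, hVU⟩ := hV
  refine ⟨fun h => U h * trAt o.1 (trLam P (trSite L o) z) h, fun h => ?_, fun h => ?_⟩
  · have h1 := tr_glue_trAt_ctr S (tr_glue_trLam_ctr S P (tr_glue_site S hred o) z) o.1 h
    refine ⟨mul_mem (hU h).1 h1.1, (norm_mul_le _ _).trans ?_⟩
    calc ‖U h‖ * ‖trAt o.1 (trLam P (trSite L o) z) h‖ ≤ 1 * 1 :=
          mul_le_mul (hU h).2 h1.2 (norm_nonneg _) zero_le_one
      _ = 1 := one_mul 1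
  · rw [MulMemClass.coe_mul, hVU, tr_glue_coe_at', tr_glue_coe_Lam, mul_assoc]
    rfl

open Classical in
theorem tr_glue_Hc (B : ℝ)
    (hyp : ∀ o o' : TrOcc L, o ≠ o' → o.1 = o'.1 → trDigit L o = trDigit L o' →
      ∀ U : Fin L.length → H →L[ℂ] H, S.IsCtr U →
      ‖∑ e ∈ P.cells, trPsi S y0 (fun h => (L.get h).2) fun h => (L.get h).1.c * U h *
        trAt o.1 ((trSite L o * e * star (trSite L o)) * (trSite L o' * e * star (trSite L o'))) h‖
        ≤ B) :
    (trGlueSys S y0 L hred P t ht).Hc (trGlueG S L) B := by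
  rintro V ⟨U, hU, hV⟩ o o' hne hb hd
  have h1 := hyp o o' hne hb (congrArg Fin.val hd) U hU
  rw [← Finset.sum_coe_sort] at h1
  refine le_of_eq_of_le (congrArg _ (Finset.sum_congr rfl fun e _ => ?_)) h1
  show trGluePsi S y0 (fun h => (L.get h).2) _ = _
  rw [trGluePsi_apply]
  congr 1
  funext h
  rw [MulMemClass.coe_mul, hV, tr_glue_coe_at']
  rfl

open Classical in
theorem tr_glue_Hd (B : ℝ)
    (hyp : ∀ (n s : ℕ) (o0 ol : TrOcc L) (oi oi' : Fin n → TrOcc L),
      (o0.1 : ℕ) = s → (ol.1 : ℕ) = s + n + 1 → (∀ i, ((oi i).1 : ℕ) = s + i + 1) →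
      (∀ i, ((oi' i).1 : ℕ) < s ∨ s + n + 1 < ((oi' i).1 : ℕ)) →
      ∀ U : Fin L.length → H →L[ℂ] H, S.IsCtr U →
      ‖(∑ z : Fin n → P.cells → Bool, ∑ e ∈ P.cells, trPsi S y0 (fun h => (L.get h).2) fun h =>
          (L.get h).1.c * U h * trAt o0.1 (trSite L o0 * e * star (trSite L o0)) h *
            trAt ol.1 (trSite L ol * e * star (trSite L ol)) h *
            (List.ofFn fun i => trAt (oi i).1 (trLam P (trSite L (oi i)) (z i)) h *
              trAt (oi' i).1 (trLam P (trSite L (oi' i)) (z i)) h).prod) /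
        (Fintype.card (Fin n → P.cells → Bool) : ℂ)‖ ≤ B) :
    (trGlueSys S y0 L hred P t ht).Hd (trGlueG S L) B := by
  rintro V ⟨U, hU, hV⟩ n s o0 ol oi oi' h0 hl hi hi'
  have h1 := hyp n s o0 ol oi oi' h0 hl hi hi' U hU
  refine le_of_eq_of_le (congrArg _ ?_) h1
  congr 1
  refine Finset.sum_congr rfl fun z _ => ?_
  refine Eq.trans ?_ (Finset.sum_coe_sort P.cells _)
  refine Finset.sum_congr rfl fun e _ => ?_
  show trGluePsi S y0 (fun h => (L.get h).2) _ = _
  rw [trGluePsi_apply]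
  congr 1
  funext h
  rw [MulMemClass.coe_mul, MulMemClass.coe_mul, MulMemClass.coe_mul, hV, tr_glue_coe_at',
    tr_glue_coe_at', tr_glue_coe_prod]
  simp only [MulMemClass.coe_mul, tr_glue_coe_at', tr_glue_coe_Lam]
  rfl

end sys

/-! ### the two analytic inputs, uniformly over the finitely many configurations -/

theorem tr_glue_ev_c (S : StData H) (hST : OpSTHyp S) (y0 : H →L[ℂ] H) (hy0 : y0 ∈ S.M)
    (L : List (OpMono H × (H →L[ℂ] H))) (hred : ∀ p ∈ L, S.IsRed p.1) (hM : ∀ p ∈ L, p.2 ∈ S.M)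
    (B : ℝ) (hB : 0 < B) :
    ∀ᶠ P : StPart S in atTop, ∀ o o' : TrOcc L, o ≠ o' → o.1 = o'.1 → trDigit L o = trDigit L o' →
      ∀ U : Fin L.length → H →L[ℂ] H, S.IsCtr U →
      ‖∑ e ∈ P.cells, trPsi S y0 (fun h => (L.get h).2) fun h => (L.get h).1.c * U h *
        trAt o.1 ((trSite L o * e * star (trSite L o)) * (trSite L o' * e * star (trSite L o'))) h‖
        ≤ B := by
  rw [Filter.eventually_all]
  intro o
  rw [Filter.eventually_all]
  intro o'
  by_cases hc : o ≠ o' ∧ o.1 = o'.1 ∧ trDigit L o = trDigit L o'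
  · have h := tr_core_c S hST y0 (fun h => (L.get h).2) (fun h => (L.get h).1.c) hy0
      (fun i => hM _ (List.get_mem L i)) (tr_glue_c S hred) o.1 (trSite L o) (trSite L o')
      (tr_glue_site S hred o) (tr_glue_site S hred o') (tr_glue_sep S hred o o' hc.1 hc.2.1 hc.2.2)
      B hB
    filter_upwards [h] with P hP _ _ _ U hU
    exact hP U hU
  · exact Filter.Eventually.of_forall fun P h1 h2 h3 => absurd ⟨h1, h2, h3⟩ hc

open Classical in
theorem tr_glue_ev_d (S : StData H) (hST : OpSTHyp S) (hAK : OpAK S) (y0 : H →L[ℂ] H)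
    (hy0 : y0 ∈ S.M) (L : List (OpMono H × (H →L[ℂ] H))) (hred : ∀ p ∈ L, S.IsRed p.1)
    (hM : ∀ p ∈ L, p.2 ∈ S.M) (hMo : ∀ p ∈ L.dropLast, p.2 ∈ S.Mo) (B : ℝ) (hB : 0 < B) :
    ∀ᶠ P : StPart S in atTop, ∀ (n s : ℕ) (o0 ol : TrOcc L) (oi oi' : Fin n → TrOcc L),
      (o0.1 : ℕ) = s → (ol.1 : ℕ) = s + n + 1 → (∀ i, ((oi i).1 : ℕ) = s + i + 1) →
      (∀ i, ((oi' i).1 : ℕ) < s ∨ s + n + 1 < ((oi' i).1 : ℕ)) →
      ∀ U : Fin L.length → H →L[ℂ] H, S.IsCtr U →
      ‖(∑ z : Fin n → P.cells → Bool, ∑ e ∈ P.cells, trPsi S y0 (fun h => (L.get h).2) fun h =>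
          (L.get h).1.c * U h * trAt o0.1 (trSite L o0 * e * star (trSite L o0)) h *
            trAt ol.1 (trSite L ol * e * star (trSite L ol)) h *
            (List.ofFn fun i => trAt (oi i).1 (trLam P (trSite L (oi i)) (z i)) h *
              trAt (oi' i).1 (trLam P (trSite L (oi' i)) (z i)) h).prod) /
        (Fintype.card (Fin n → P.cells → Bool) : ℂ)‖ ≤ B := by
  have hMo' : ∀ i : Fin L.length, (i : ℕ) + 1 < L.length → (L.get i).2 ∈ S.Mo := by
    intro i hi
    have hlen : (i : ℕ) < L.dropLast.length := by rw [List.length_dropLast]; omega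
    have h1 : L.dropLast[(i : ℕ)] ∈ L.dropLast := List.getElem_mem hlen
    rw [List.getElem_dropLast] at h1
    exact hMo _ h1
  have key : ∀ᶠ P : StPart S in atTop, ∀ (n s : Fin L.length) (o0 ol : TrOcc L)
      (oi oi' : Fin (n : ℕ) → TrOcc L),
      (o0.1 : ℕ) = s → (ol.1 : ℕ) = s + n + 1 → (∀ i, ((oi i).1 : ℕ) = s + i + 1) →
      (∀ i, ((oi' i).1 : ℕ) < s ∨ (s : ℕ) + n + 1 < ((oi' i).1 : ℕ)) →
      ∀ U : Fin L.length → H →L[ℂ] H, S.IsCtr U →
      ‖(∑ z : Fin (n : ℕ) → P.cells → Bool, ∑ e ∈ P.cells,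
          trPsi S y0 (fun h => (L.get h).2) fun h =>
          (L.get h).1.c * U h * trAt o0.1 (trSite L o0 * e * star (trSite L o0)) h *
            trAt ol.1 (trSite L ol * e * star (trSite L ol)) h *
            (List.ofFn fun i => trAt (oi i).1 (trLam P (trSite L (oi i)) (z i)) h *
              trAt (oi' i).1 (trLam P (trSite L (oi' i)) (z i)) h).prod) /
        (Fintype.card (Fin (n : ℕ) → P.cells → Bool) : ℂ)‖ ≤ B := by
    simp only [Filter.eventually_all]
    intro n s o0 ol oi oi' h0 hl hi hi'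
    exact tr_core_d S hST hAK y0 (fun h => (L.get h).2) (fun h => (L.get h).1.c) hy0
      (fun i => hM _ (List.get_mem L i)) hMo' (tr_glue_c S hred) n s o0.1 ol.1
      (fun i => (oi i).1) (fun i => (oi' i).1) (trSite L o0) (trSite L ol)
      (fun i => trSite L (oi i)) (fun i => trSite L (oi' i)) h0 hl hi hi'
      (tr_glue_site S hred o0) (tr_glue_site S hred ol) (fun i => tr_glue_site S hred (oi i))
      (fun i => tr_glue_site S hred (oi' i)) B hB
  filter_upwards [key] with P hP n s o0 ol oi oi' h0 hl hi hi' U hU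
  have hlt := ol.1.2
  exact hP ⟨n, by omega⟩ ⟨s, by omega⟩ o0 ol oi oi' h0 hl hi hi' U hU

/-- TR2: the vanishing theorem. `y0` and the last letter are arbitrary in `M`, the inner letters are in `Mo`. -/
theorem tr_vanish (S : StData H) (hST : OpSTHyp S) (hAK : OpAK S) (y0 : H →L[ℂ] H) (hy0 : y0 ∈ S.M)
    (L : List (OpMono H × (H →L[ℂ] H))) (hL : L ≠ []) (hred : ∀ p ∈ L, S.IsRed p.1)
    (hM : ∀ p ∈ L, p.2 ∈ S.M) (hMo : ∀ p ∈ L.dropLast, p.2 ∈ S.Mo) :
    Tendsto (fun Pt : StPart S × ℕ => opAvg Pt fun w => S.phi (opWord y0 L w)) atTop (𝓝 0) := by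
  classical
  obtain ⟨K, hK0, hK⟩ := tr_abs.{u, u} (TrOcc L)
  rw [Metric.tendsto_nhds]
  intro ε hε
  have hB : 0 < ε / (2 * (K + 1)) := by positivity
  have hc := tr_glue_ev_c S hST y0 hy0 L hred hM _ hB
  have hd := tr_glue_ev_d S hST hAK y0 hy0 L hred hM hMo _ hB
  have ht : ∀ᶠ t : ℕ in atTop, ∀ o : TrOcc L, trDigit L o < t :=
    Filter.eventually_all.2 fun o => eventually_gt_atTop _
  have hall := (hc.and hd).prod_mk ht
  rw [prod_atTop_atTop_eq] at hall
  filter_upwards [hall] with Pt hPt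
  obtain ⟨P, t⟩ := Pt
  obtain ⟨⟨h1, h2⟩, h3⟩ := hPt
  rw [dist_zero_right, tr_glue_avg S y0 L hred P t h3]
  have hmain := hK (trGlueSys S y0 L hred P t h3) (trGlueG S L) _ hB.le
    (List.length_pos_of_ne_nil hL)
    (fun h => ⟨⟨h, ⟨0, List.length_pos_of_ne_nil (hred _ (List.get_mem L h)).2.1⟩⟩, rfl⟩)
    (tr_glue_c_mem S y0 L hred P t h3) (tr_glue_G_closed S y0 L hred P t h3)
    (tr_glue_Hc S y0 L hred P t h3 _ h1) (tr_glue_Hd S y0 L hred P t h3 _ h2)
  refine lt_of_le_of_lt hmain ?_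
  rw [mul_div_assoc', div_lt_iff₀ (by positivity)]
  nlinarith

end Claimed.Agent.R302
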