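/-
R302 / TR / FreeMult (TR4, TR8; owner helper283): right multipliers in the model, law of Cartan words.
* `trf_commute_LL` : the image of a bounded family commuting with the constants of `M` and with the cylinder evaluations commutes with `opLL`;
* `tr_mult_const`, `tr_mult_cyl`, `tr_law`.
-/
import Claimed.Agent.R302.TR.FreeDefs
import Claimed.Agent.R302.TR.VanishMain

set_option autoImplicit false
set_option linter.unusedSectionVars false

namespace Claimed.Agent.R302

open scoped InnerProductSpace ComplexOrder ENNReal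
open Filter Topology

universe u
variable {H : Type u} [NormedAddCommGroup H] [InnerProductSpace ℂ H] [CompleteSpace H] [Nontrivial H]

theorem trf_const_mem_alg (S : StData H) {x : H →L[ℂ] H} (hx : x ∈ S.M) : opConst S x ∈ opAlg S :=
  StarAlgebra.subset_adjoin ℂ _ (Or.inl ⟨x, hx, rfl⟩)

theorem trf_ev_mem_alg (S : StData H) {b : (ℕ → H →L[ℂ] H) → H →L[ℂ] H} (hb : OpCyl S b) :
    opEv S b ∈ opAlg S :=
  StarAlgebra.subset_adjoin ℂ _ (Or.inr ⟨b, hb, rfl⟩)

theorem trf_pi_mem_LL (S : StData H) {T : OpSeq S} (hT : T ∈ opAlg S) : opPi S T ∈ opLL S :=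
  StarSubalgebra.le_topologicalClosure _ ⟨T, hT, rfl⟩

/-- induction principle for `opAlg` with a predicate closed under the algebra operations (the generating set is `*`-closed). -/
theorem trf_alg_induction (S : StData H) {p : OpSeq S → Prop}
    (hconst : ∀ x ∈ S.M, p (opConst S x)) (hev : ∀ b, OpCyl S b → p (opEv S b))
    (hadd : ∀ T T', p T → p T' → p (T + T')) (hmul : ∀ T T', p T → p T' → p (T * T'))
    {T : OpSeq S} (hT : T ∈ opAlg S) : p T := by
  have key : p T ∧ p (star T) := by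
    induction hT using StarAlgebra.adjoin_induction with
    | mem x h =>
      rcases h with ⟨y, hy, rfl⟩ | ⟨b, hb, rfl⟩
      · exact ⟨hconst y hy, by rw [← trf_const_star]; exact hconst _ (star_mem hy)⟩
      · refine ⟨hev b hb, ?_⟩
        obtain ⟨b', hb', hbb'⟩ := tr_cyl_star S hb
        rw [← trf_ev_star (StData.BddFun.of_cyl hb), ← trf_ev_congr hbb']
        exact hev b' hb'
    | algebraMap r =>
      have h1 : algebraMap ℂ (OpSeq S) r = opConst S (r • 1) := by
        rw [trf_const_smul, trf_const_one, Algebra.algebraMap_eq_smul_one]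
      have h2 : star (algebraMap ℂ (OpSeq S) r) = opConst S (star r • 1) := by
        rw [trf_const_smul, trf_const_one, Algebra.algebraMap_eq_smul_one, star_smul, star_one]
      rw [h2, h1]
      exact ⟨hconst _ (S.M.toStarSubalgebra.smul_mem (one_mem _) _),
        hconst _ (S.M.toStarSubalgebra.smul_mem (one_mem _) _)⟩
    | add x y _ _ hx hy => exact ⟨hadd _ _ hx.1 hy.1, by rw [star_add]; exact hadd _ _ hx.2 hy.2⟩
    | mul x y _ _ hx hy => exact ⟨hmul _ _ hx.1 hy.1, by rw [star_mul]; exact hmul _ _ hy.2 hx.2⟩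
    | star x _ hx => exact ⟨hx.2, by rw [star_star]; exact hx.1⟩
  exact key.1

/-- bounded families commuting with the generators give operators commuting with `opLL`. -/
theorem trf_commute_LL (S : StData H) (T' : OpSeq S) (h1 : ∀ x ∈ S.M, Commute T' (opConst S x))
    (h2 : ∀ b, OpCyl S b → Commute T' (opEv S b)) {D : opK S →L[ℂ] opK S} (hD : D ∈ opLL S) :
    Commute (opPi S T') D := by
  have h3 : ∀ T ∈ opAlg S, Commute T' T := fun T hT =>
    trf_alg_induction S (p := fun T => Commute T' T) h1 h2 (fun _ _ h h' => h.add_right h')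
      (fun _ _ h h' => h.mul_right h') hT
  have hcl : IsClosed {D : opK S →L[ℂ] opK S | opPi S T' * D = D * opPi S T'} :=
    isClosed_eq (continuous_const.mul continuous_id) (continuous_id.mul continuous_const)
  have hsub : (((opAlg S).map (opPi S) : StarSubalgebra ℂ _) : Set (opK S →L[ℂ] opK S)) ⊆
      {D : opK S →L[ℂ] opK S | opPi S T' * D = D * opPi S T'} := by
    rintro _ ⟨T, hT, rfl⟩
    change opPi S T' * opPi S T = opPi S T * opPi S T'
    rw [← map_mul, ← map_mul, (h3 T hT).eq]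
  exact closure_minimal hsub hcl hD

theorem trf_cyl_mem_M (S : StData H) {b : (ℕ → H →L[ℂ] H) → H →L[ℂ] H} (hb : OpCyl S b)
    {w : ℕ → H →L[ℂ] H} (hw : S.IsSymFam w) : b w ∈ S.M :=
  ((S.masa _).1 (tr_cyl_mem S hb hw)).1

/-- pointwise commutation with `M` implies commutation with `opLL`. -/
theorem trf_commute_LL_of_comm (S : StData H) (T' : OpSeq S) (h : ∀ i, T' i ∈ S.M')
    {D : opK S →L[ℂ] opK S} (hD : D ∈ opLL S) : Commute (opPi S T') D := by
  refine trf_commute_LL S T' (fun x hx => ?_) (fun b hb => ?_) hD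
  · refine trf_ext S fun i => ?_
    change T' i * (opConst S x) i = (opConst S x) i * T' i
    rw [trf_const_apply]
    exact (h i x hx).eq
  · refine trf_ext S fun i => ?_
    change T' i * (opEv S b) i = (opEv S b) i * T' i
    rw [trf_ev_apply (StData.BddFun.of_cyl hb)]
    exact (h i _ (trf_cyl_mem_M S hb (tr_rand_sym S _ _ _))).eq

/-- TR4a: constants of `M` are right multipliers. -/
theorem tr_mult_const (S : StData H) (hST : OpSTHyp S) (z : H →L[ℂ] H) (hz : z ∈ S.M) :
    TrMult (opLL S) (opVac S) (fun _ => opPi S (opConst S z)) := by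
  refine ⟨⟨fun _ => trf_pi_mem_LL S (trf_const_mem_alg S hz), ‖opPi S (opConst S z)‖,
    fun _ => le_rfl⟩, fun D hD hD0 => ?_⟩
  obtain ⟨hDm, C, hC⟩ := hD
  have hC0 : 0 ≤ C := (norm_nonneg _).trans (hC 0)
  unfold TrNull at hD0 ⊢
  rw [Metric.tendsto_atTop] at hD0 ⊢
  intro ε hε
  -- approximate `z Om` by `c' Om`
  obtain ⟨_, hv, ⟨c', hc', rfl⟩⟩ :=
    Metric.dense_iff.1 hST.comm_dense (z S.Om) (ε / (2 * (C + 1))) (by positivity)
  rw [Metric.mem_ball, dist_eq_norm] at hv
  obtain ⟨n0, hn0⟩ := hD0 (ε / (2 * (‖c'‖ + 1))) (by positivity)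
  refine ⟨n0, fun n hn => ?_⟩
  have h1 := hn0 n hn
  rw [Real.dist_eq, sub_zero, abs_of_nonneg (norm_nonneg _)] at h1 ⊢
  have hcomm : Commute (opPi S (opConst S c')) (D n) :=
    trf_commute_LL_of_comm S _ (fun i => by rw [trf_const_apply]; exact hc') (hDm n)
  have h2 : (D n * opPi S (opConst S z)) (opVac S) =
      D n (opPi S (opConst S (z - c')) (opVac S)) + opPi S (opConst S c') (D n (opVac S)) := by
    have h3 : opPi S (opConst S c') (D n (opVac S)) = D n (opPi S (opConst S c') (opVac S)) := by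
      rw [← mul_apply_eq_comp, ← mul_apply_eq_comp, hcomm.eq]
    rw [h3, ← map_add, ← add_apply, ← map_add, ← trf_const_add, sub_add_cancel, mul_apply_eq_comp]
  have h4 : ‖D n (opPi S (opConst S (z - c')) (opVac S))‖ ≤ C * (ε / (2 * (C + 1))) := by
    refine ((D n).le_opNorm _).trans (mul_le_mul (hC n) ?_ (norm_nonneg _) hC0)
    rw [trf_norm_const_vec, sub_apply, ← norm_neg, neg_sub]
    exact hv.le
  have h5 : ‖opPi S (opConst S c') (D n (opVac S))‖ ≤ ‖c'‖ * (ε / (2 * (‖c'‖ + 1))) := by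
    refine ((opPi S (opConst S c')).le_opNorm _).trans
      (mul_le_mul ((trf_norm_pi_le S _).trans (trf_norm_const_le S c')) h1.le (norm_nonneg _)
        (norm_nonneg _))
  have h6 : C * (ε / (2 * (C + 1))) < ε / 2 := by
    rw [← mul_div_assoc, div_lt_iff₀ (by positivity)]
    nlinarith
  have h7 : ‖c'‖ * (ε / (2 * (‖c'‖ + 1))) < ε / 2 := by
    rw [← mul_div_assoc, div_lt_iff₀ (by positivity)]
    nlinarith [norm_nonneg c']
  rw [h2]
  calc _ ≤ _ + _ := norm_add_le _ _
    _ < ε := by linarith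

/-- the family of right multiplications attached to a cylinder function. -/
noncomputable def trfRho (S : StData H) (b : (ℕ → H →L[ℂ] H) → H →L[ℂ] H) : OpSeq S :=
  opMk S fun i => S.rmul (b (opRand i.1.1 i.1.2 i.2))

theorem trf_rho_apply (S : StData H) (hST : OpSTHyp S) {b : (ℕ → H →L[ℂ] H) → H →L[ℂ] H}
    (hb : OpCyl S b) (i : OpIdx S) : (trfRho S b) i = S.rmul (b (opRand i.1.1 i.1.2 i.2)) := by
  obtain ⟨C, hC⟩ := tr_cyl_bdd S hb
  exact trf_mk_apply S _ C (fun j => (hST.rmul_norm_le _ (tr_cyl_mem S hb (tr_rand_sym S _ _ _))).trans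
    (hC _ (tr_rand_sym S _ _ _))) i

theorem trf_norm_rho_le (S : StData H) (hST : OpSTHyp S) {b : (ℕ → H →L[ℂ] H) → H →L[ℂ] H}
    (hb : OpCyl S b) {C : ℝ} (hC0 : 0 ≤ C) (hC : ∀ w, S.IsSymFam w → ‖b w‖ ≤ C) :
    ‖trfRho S b‖ ≤ C :=
  trf_norm_mk_le S _ C hC0 (fun _ => (hST.rmul_norm_le _ (tr_cyl_mem S hb (tr_rand_sym S _ _ _))).trans
    (hC _ (tr_rand_sym S _ _ _)))

theorem trf_rho_vec (S : StData H) (hST : OpSTHyp S) {b : (ℕ → H →L[ℂ] H) → H →L[ℂ] H}
    (hb : OpCyl S b) : opPi S (trfRho S b) (opVac S) = opPi S (opEv S b) (opVac S) := by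
  refine trf_vec_eq S _ _ fun i => ?_
  rw [trf_rho_apply S hST hb, trf_ev_apply (StData.BddFun.of_cyl hb)]
  have := hST.rmul_apply _ (tr_cyl_mem S hb (tr_rand_sym S i.1.1 i.1.2 i.2)) 1 (one_mem _)
  simpa using this

theorem trf_rho_commute (S : StData H) (hST : OpSTHyp S) {b : (ℕ → H →L[ℂ] H) → H →L[ℂ] H}
    (hb : OpCyl S b) {D : opK S →L[ℂ] opK S} (hD : D ∈ opLL S) : Commute (opPi S (trfRho S b)) D :=
  trf_commute_LL_of_comm S _ (fun i => by
    rw [trf_rho_apply S hST hb]
    exact hST.rmul_mem _ (tr_cyl_mem S hb (tr_rand_sym S _ _ _))) hD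

/-- the basic estimate behind TR4b. -/
theorem trf_norm_mul_ev_le (S : StData H) (hST : OpSTHyp S) {b : (ℕ → H →L[ℂ] H) → H →L[ℂ] H}
    (hb : OpCyl S b) {C : ℝ} (hC0 : 0 ≤ C) (hC : ∀ w, S.IsSymFam w → ‖b w‖ ≤ C)
    {D : opK S →L[ℂ] opK S} (hD : D ∈ opLL S) :
    ‖D (opPi S (opEv S b) (opVac S))‖ ≤ C * ‖D (opVac S)‖ := by
  rw [← trf_rho_vec S hST hb, ← mul_apply_eq_comp, ← (trf_rho_commute S hST hb hD).eq,
    mul_apply_eq_comp]
  exact ((opPi S (trfRho S b)).le_opNorm _).trans (mul_le_mul_of_nonneg_right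
    ((trf_norm_pi_le S _).trans (trf_norm_rho_le S hST hb hC0 hC)) (norm_nonneg _))

/-- TR4b: bounded sequences of cylinder functions are right multipliers. -/
theorem tr_mult_cyl (S : StData H) (hST : OpSTHyp S) (b : ℕ → (ℕ → H →L[ℂ] H) → H →L[ℂ] H)
    (hb : ∀ n, OpCyl S (b n)) (C : ℝ) (hC : ∀ n w, S.IsSymFam w → ‖b n w‖ ≤ C) :
    TrMult (opLL S) (opVac S) (fun n => opPi S (opEv S (b n))) := by
  have hC' : ∀ n w, S.IsSymFam w → ‖b n w‖ ≤ |C| := fun n w hw => (hC n w hw).trans (le_abs_self C)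
  refine ⟨⟨fun n => trf_pi_mem_LL S (trf_ev_mem_alg S (hb n)), |C|, fun n =>
    (trf_norm_pi_le S _).trans (trf_norm_ev_le (abs_nonneg C) (hC' n))⟩, fun D hD hD0 => ?_⟩
  unfold TrNull at hD0 ⊢
  have h1 : Tendsto (fun n => |C| * ‖D n (opVac S)‖) atTop (𝓝 0) := by
    simpa using hD0.const_mul |C|
  refine squeeze_zero (fun _ => norm_nonneg _) (fun n => ?_) h1
  rw [mul_apply_eq_comp]
  exact trf_norm_mul_ev_le S hST (hb n) (abs_nonneg C) (hC' n) (hD.1 n)

theorem trf_red_mono (S : StData H) {d : OpMono H} (hd : S.IsRed d) : S.IsMono d := ⟨hd.1, hd.2.2.1⟩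

theorem trf_red_cyl (S : StData H) {d : OpMono H} (hd : S.IsRed d) : OpCyl S d.eval :=
  tr_mono_cyl S (trf_red_mono S hd)

/-- TR8: law of Cartan words: reduced monomials have zero expectation against `M`. -/
theorem tr_law (S : StData H) (hST : OpSTHyp S) (hAK : OpAK S) {d : OpMono H} (hd : S.IsRed d)
    (x x' : H →L[ℂ] H) (hx : x ∈ S.M) (hx' : x' ∈ S.M) :
    opPhi S (opConst S x * opEv S d.eval * opConst S x') = 0 := by
  have hdb : S.BddFun d.eval := StData.BddFun.of_cyl (trf_red_cyl S hd)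
  have h1 := tr_vanish S hST hAK x hx [(d, x')] (by simp) (by simpa using hd) (by simpa using hx')
    (by simp)
  have hb : S.BddFun (opWord x [(d, x')]) := by
    have : opWord x [(d, x')] = fun w => x * (d.eval w * x') := by
      funext w; simp [opWord]
    rw [this]
    exact (StData.BddFun.const x).mul (hdb.mul (StData.BddFun.const x'))
  obtain ⟨C, hC⟩ := hb
  have h2 := opPhi_ev_tendsto S _ C hC 0 h1
  have h3 : opEv S (opWord x [(d, x')]) = opConst S x * opEv S d.eval * opConst S x' := by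
    have : opWord x [(d, x')] = fun w => x * (d.eval w * x') := by
      funext w; simp [opWord]
    rw [this, trf_ev_mul (StData.BddFun.const x) (hdb.mul (StData.BddFun.const x')),
      trf_ev_mul hdb (StData.BddFun.const x'), trf_ev_const, trf_ev_const, mul_assoc]
  rw [← h3, h2]

end Claimed.Agent.R302
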