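/-
R302 / TR / FreeWord (owner helper283): API for words `y0 d1 y1 ... dm ym`, their vectors in the model, reduced tails.
-/
import Claimed.Agent.R302.TR.FreeMult

set_option autoImplicit false
set_option linter.unusedSectionVars false

namespace Claimed.Agent.R302

open scoped InnerProductSpace ComplexOrder ENNReal
open Filter Topology

universe u
variable {H : Type u} [NormedAddCommGroup H] [InnerProductSpace ℂ H] [CompleteSpace H]

theorem trf_word_nil (y0 : H →L[ℂ] H) (w : ℕ → H →L[ℂ] H) : opWord y0 [] w = y0 := by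
  simp [opWord]

theorem trf_word_cons (y0 : H →L[ℂ] H) (d : OpMono H) (y : H →L[ℂ] H)
    (L : List (OpMono H × (H →L[ℂ] H))) (w : ℕ → H →L[ℂ] H) :
    opWord y0 ((d, y) :: L) w = y0 * (d.eval w * opWord y L w) := by
  simp [opWord, mul_assoc]

theorem trf_word_mul (x y0 : H →L[ℂ] H) (L : List (OpMono H × (H →L[ℂ] H)))
    (w : ℕ → H →L[ℂ] H) : opWord (x * y0) L w = x * opWord y0 L w := by
  simp [opWord, mul_assoc]

theorem trf_word_add (y y' : H →L[ℂ] H) (L : List (OpMono H × (H →L[ℂ] H)))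
    (w : ℕ → H →L[ℂ] H) : opWord (y + y') L w = opWord y L w + opWord y' L w := by
  simp [opWord, add_mul]

theorem trf_word_smul (c : ℂ) (y : H →L[ℂ] H) (L : List (OpMono H × (H →L[ℂ] H)))
    (w : ℕ → H →L[ℂ] H) : opWord (c • y) L w = c • opWord y L w := by
  simp [opWord]

/-! ### reduced tails -/

theorem trf_redTail_nil (S : StData H) : S.IsRedTail [] := by
  refine ⟨?_, ?_, ?_⟩ <;> simp

theorem trf_redTail_cons (S : StData H) {d : OpMono H} {y : H →L[ℂ] H}
    {L : List (OpMono H × (H →L[ℂ] H))} :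
    S.IsRedTail ((d, y) :: L) ↔ S.IsRed d ∧ y ∈ S.M ∧ (L ≠ [] → y ∈ S.Mo) ∧ S.IsRedTail L := by
  cases L with
  | nil =>
    simp [StData.IsRedTail]
  | cons q L =>
    simp only [StData.IsRedTail, List.dropLast_cons_cons, List.mem_cons, forall_eq_or_imp, ne_eq,
      reduceCtorEq, not_false_eq_true, forall_const]
    tauto

theorem trf_Mo_le_M (S : StData H) {y : H →L[ℂ] H} (hy : y ∈ S.Mo) : y ∈ S.M := hy.1

theorem trf_NN_le_M (S : StData H) {y : H →L[ℂ] H} (hy : y ∈ S.NN) : y ∈ S.M := hy.1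

theorem trf_word_bdd (S : StData H) (y0 : H →L[ℂ] H) {L : List (OpMono H × (H →L[ℂ] H))}
    (hL : ∀ p ∈ L, S.IsRed p.1) : S.BddFun (opWord y0 L) := by
  induction L generalizing y0 with
  | nil =>
    have : opWord y0 [] = fun _ => y0 := funext fun w => trf_word_nil y0 w
    rw [this]; exact StData.BddFun.const y0
  | cons p L ih =>
    obtain ⟨d, y⟩ := p
    have : opWord y0 ((d, y) :: L) = fun w => y0 * (d.eval w * opWord y L w) :=
      funext fun w => trf_word_cons y0 d y L w
    rw [this]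
    exact (StData.BddFun.const y0).mul ((StData.BddFun.of_cyl
      (tr_mono_cyl S ⟨(hL _ (List.mem_cons_self ..)).1, (hL _ (List.mem_cons_self ..)).2.2.1⟩)).mul
      (ih y fun p hp => hL p (List.mem_cons_of_mem _ hp)))

variable [Nontrivial H]

theorem trf_ev_word_nil (S : StData H) (y0 : H →L[ℂ] H) : opEv S (opWord y0 []) = opConst S y0 := by
  have : opWord y0 [] = fun _ => y0 := funext fun w => trf_word_nil y0 w
  rw [this, trf_ev_const]

theorem trf_ev_word_cons (S : StData H) (y0 : H →L[ℂ] H) {d : OpMono H} (y : H →L[ℂ] H)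
    {L : List (OpMono H × (H →L[ℂ] H))} (hd : S.IsRed d) (hL : ∀ p ∈ L, S.IsRed p.1) :
    opEv S (opWord y0 ((d, y) :: L)) = opConst S y0 * (opEv S d.eval * opEv S (opWord y L)) := by
  have : opWord y0 ((d, y) :: L) = fun w => y0 * (d.eval w * opWord y L w) :=
    funext fun w => trf_word_cons y0 d y L w
  have hdb : S.BddFun d.eval := StData.BddFun.of_cyl (trf_red_cyl S hd)
  rw [this, trf_ev_mul (StData.BddFun.const y0) (hdb.mul (trf_word_bdd S y hL)),
    trf_ev_mul hdb (trf_word_bdd S y hL), trf_ev_const]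

theorem trf_ev_word_mul (S : StData H) (x y0 : H →L[ℂ] H) {L : List (OpMono H × (H →L[ℂ] H))}
    (hL : ∀ p ∈ L, S.IsRed p.1) :
    opEv S (opWord (x * y0) L) = opConst S x * opEv S (opWord y0 L) := by
  have : opWord (x * y0) L = fun w => x * opWord y0 L w := funext fun w => trf_word_mul x y0 L w
  rw [this, trf_ev_mul (StData.BddFun.const x) (trf_word_bdd S y0 hL), trf_ev_const]

theorem trf_vec_nil (S : StData H) (y0 : H →L[ℂ] H) :
    opVec S y0 [] = opPi S (opConst S y0) (opVac S) := by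
  rw [opVec, trf_ev_word_nil]

theorem trf_vec_cons (S : StData H) (y0 : H →L[ℂ] H) {d : OpMono H} (y : H →L[ℂ] H)
    {L : List (OpMono H × (H →L[ℂ] H))} (hd : S.IsRed d) (hL : ∀ p ∈ L, S.IsRed p.1) :
    opVec S y0 ((d, y) :: L) = opPi S (opConst S y0) (opPi S (opEv S d.eval) (opVec S y L)) := by
  rw [opVec, opVec, trf_ev_word_cons S y0 y hd hL, map_mul, map_mul, mul_apply_eq_comp,
    mul_apply_eq_comp]

theorem trf_vec_mul (S : StData H) (x y0 : H →L[ℂ] H) {L : List (OpMono H × (H →L[ℂ] H))}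
    (hL : ∀ p ∈ L, S.IsRed p.1) :
    opVec S (x * y0) L = opPi S (opConst S x) (opVec S y0 L) := by
  rw [opVec, opVec, trf_ev_word_mul S x y0 hL, map_mul, mul_apply_eq_comp]

theorem trf_vec_add (S : StData H) (y y' : H →L[ℂ] H) {L : List (OpMono H × (H →L[ℂ] H))}
    (hL : ∀ p ∈ L, S.IsRed p.1) : opVec S (y + y') L = opVec S y L + opVec S y' L := by
  have : opWord (y + y') L = fun w => opWord y L w + opWord y' L w :=
    funext fun w => trf_word_add y y' L w
  rw [opVec, opVec, opVec, this, trf_ev_add (trf_word_bdd S y hL) (trf_word_bdd S y' hL), map_add,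
    add_apply]

theorem trf_vec_one_cons (S : StData H) {d : OpMono H} (y : H →L[ℂ] H)
    {L : List (OpMono H × (H →L[ℂ] H))} (hd : S.IsRed d) (hL : ∀ p ∈ L, S.IsRed p.1) :
    opVec S 1 ((d, y) :: L) = opPi S (opEv S d.eval) (opVec S y L) := by
  rw [trf_vec_cons S 1 y hd hL, trf_const_one, map_one, one_apply_eq_self]

theorem trf_ev_word_mem_alg (S : StData H) {y0 : H →L[ℂ] H} (hy0 : y0 ∈ S.M)
    {L : List (OpMono H × (H →L[ℂ] H))} (hL : ∀ p ∈ L, S.IsRed p.1) (hM : ∀ p ∈ L, p.2 ∈ S.M) :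
    opEv S (opWord y0 L) ∈ opAlg S := by
  induction L generalizing y0 with
  | nil => rw [trf_ev_word_nil]; exact trf_const_mem_alg S hy0
  | cons p L ih =>
    obtain ⟨d, y⟩ := p
    have hd : S.IsRed d := hL _ (List.mem_cons_self ..)
    have hL' : ∀ p ∈ L, S.IsRed p.1 := fun p hp => hL p (List.mem_cons_of_mem _ hp)
    rw [trf_ev_word_cons S y0 y hd hL']
    exact mul_mem (trf_const_mem_alg S hy0) (mul_mem (trf_ev_mem_alg S (trf_red_cyl S hd))
      (ih (hM _ (List.mem_cons_self ..)) hL' fun p hp => hM p (List.mem_cons_of_mem _ hp)))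

/-- word operators are right multipliers (constant sequences). -/
theorem trf_mult_word (S : StData H) (hST : OpSTHyp S) {y0 : H →L[ℂ] H} (hy0 : y0 ∈ S.M)
    {L : List (OpMono H × (H →L[ℂ] H))} (hL : ∀ p ∈ L, S.IsRed p.1) (hM : ∀ p ∈ L, p.2 ∈ S.M) :
    TrMult (opLL S) (opVac S) (fun _ => opPi S (opEv S (opWord y0 L))) := by
  induction L generalizing y0 with
  | nil => rw [trf_ev_word_nil]; exact tr_mult_const S hST y0 hy0
  | cons p L ih =>
    obtain ⟨d, y⟩ := p
    have hd : S.IsRed d := hL _ (List.mem_cons_self ..)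
    have hL' : ∀ p ∈ L, S.IsRed p.1 := fun p hp => hL p (List.mem_cons_of_mem _ hp)
    rw [trf_ev_word_cons S y0 y hd hL']
    simp only [map_mul]
    obtain ⟨C, hC⟩ := tr_cyl_bdd S (trf_red_cyl S hd)
    exact (tr_mult_const S hST y0 hy0).mul ((tr_mult_cyl S hST (fun _ => d.eval)
      (fun _ => trf_red_cyl S hd) C (fun _ => hC)).mul
      (ih (hM _ (List.mem_cons_self ..)) hL' fun p hp => hM p (List.mem_cons_of_mem _ hp)))

end Claimed.Agent.R302
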